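import Vale.Agent.P113.Defs

namespace Vale.Agent.P113

open MeasureTheory Set

lemma rho_eq (s : ℝ) : rho s = expNegInvGlue (1 - s ^ 2) := by
  unfold rho expNegInvGlue
  by_cases h : |s| < 1
  · have h2 : s ^ 2 < 1 := by
      have := (sq_lt_one_iff_abs_lt_one s).2 h
      exact this
    rw [if_pos h, if_neg (by linarith)]
    congr 1
    rw [neg_div, one_div]
  · have h2 : 1 ≤ s ^ 2 := by
      have := (one_le_sq_iff_one_le_abs s).2 (not_lt.1 h)
      exact this
    rw [if_neg h, if_pos (by linarith)]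

lemma rho_contDiff {n : ℕ∞} : ContDiff ℝ n rho := by
  have : rho = fun s => expNegInvGlue (1 - s ^ 2) := funext rho_eq
  rw [this]
  exact expNegInvGlue.contDiff.comp (by fun_prop)

lemma rho_continuous : Continuous rho := (rho_contDiff (n := 0)).continuous

lemma rho_nonneg (s : ℝ) : 0 ≤ rho s := by
  unfold rho
  split_ifs
  · positivity
  · exact le_rfl

lemma rho_zero {s : ℝ} (h : 1 ≤ |s|) : rho s = 0 := by
  unfold rho
  rw [if_neg (not_lt.2 h)]

lemma rho_hasCompactSupport : HasCompactSupport rho := by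
  apply HasCompactSupport.of_support_subset_isCompact (isCompact_Icc (a := (-1 : ℝ)) (b := 1))
  intro s hs
  rw [Function.mem_support] at hs
  have h1 : |s| < 1 := by
    by_contra h
    exact hs (rho_zero (not_lt.1 h))
  exact ⟨(abs_lt.1 h1).1.le, (abs_lt.1 h1).2.le⟩

lemma rho_integrable : Integrable rho := rho_continuous.integrable_of_hasCompactSupport rho_hasCompactSupport

lemma kappa_pos : 0 < kappa := by
  apply rho_continuous.integral_pos_of_hasCompactSupport_nonneg_nonzero rho_hasCompactSupport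
    rho_nonneg (x := 0)
  unfold rho
  rw [if_pos (by norm_num)]
  positivity

lemma sigma_eq (s : ℝ) : sigma s = ∫ x in (-1 : ℝ)..s, rho x := by
  have h1 := intervalIntegral.integral_Iic_sub_Iic (f := rho) (μ := volume) (a := -1) (b := s)
    rho_integrable.integrableOn rho_integrable.integrableOn
  have h2 : ∫ x in Iic (-1 : ℝ), rho x = 0 := by
    apply setIntegral_eq_zero_of_forall_eq_zero
    intro x hx
    apply rho_zero
    rw [mem_Iic] at hx
    rw [le_abs]; right; linarith
  rw [← h1, h2, sub_zero]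
  rfl

lemma sigma_hasDerivAt (s : ℝ) : HasDerivAt sigma (rho s) s := by
  have : sigma = fun s => ∫ x in (-1 : ℝ)..s, rho x := funext sigma_eq
  rw [this]
  exact (rho_continuous.integral_hasStrictDerivAt (-1) s).hasDerivAt

lemma sigma_contDiff : ContDiff ℝ (⊤ : ℕ∞) sigma := by
  have h : deriv sigma = rho := funext fun s => (sigma_hasDerivAt s).deriv
  rw [contDiff_infty_iff_deriv]
  refine ⟨fun s => (sigma_hasDerivAt s).differentiableAt, ?_⟩
  rw [h]
  exact rho_contDiff

lemma sigma_le {s : ℝ} (h : s ≤ -1) : sigma s = 0 := by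
  unfold sigma
  apply setIntegral_eq_zero_of_forall_eq_zero
  intro x hx
  apply rho_zero
  rw [mem_Iic] at hx
  rw [le_abs]; right; linarith

lemma sigma_ge {s : ℝ} (h : 1 ≤ s) : sigma s = kappa := by
  unfold sigma kappa
  apply setIntegral_eq_integral_of_forall_compl_eq_zero
  intro x hx
  apply rho_zero
  rw [mem_Iic, not_le] at hx
  rw [le_abs]; left; linarith

lemma sigma_mono : Monotone sigma := by
  apply monotone_of_hasDerivAt_nonneg (f' := rho) sigma_hasDerivAt
  intro s
  exact rho_nonneg s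

lemma plat_one {s : ℝ} (h1 : 1 ≤ s) (h2 : s ≤ 11) : plat 12 s = kappa := by
  unfold plat
  rw [sigma_ge h1, sigma_le (by linarith), sub_zero]

lemma plat_zero {s : ℝ} (h : s ≤ -1 ∨ 13 ≤ s) : plat 12 s = 0 := by
  unfold plat
  rcases h with h | h
  · rw [sigma_le h, sigma_le (by linarith), sub_zero]
  · rw [sigma_ge (by linarith), sigma_ge (by linarith), sub_self]

lemma plat_contDiff : ContDiff ℝ (⊤ : ℕ∞) (plat 12) := by
  unfold plat
  exact sigma_contDiff.sub (sigma_contDiff.comp (by fun_prop))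

/-- smooth, and vanishing outside `(ε, 1-ε)` -/
def Good (g : ℝ → ℝ) : Prop :=
  ContDiff ℝ (⊤ : ℕ∞) g ∧ ∃ ε > 0, ∀ s, s ≤ ε ∨ 1 - ε ≤ s → g s = 0

lemma per_local {g : ℝ → ℝ} {ε : ℝ} (h : ∀ s, s ≤ ε ∨ 1 - ε ≤ s → g s = 0) (k : ℤ)
    {y : ℝ} (h1 : k - ε ≤ y) (h2 : y ≤ k + 1 + ε) : per g y = g (y - k) := by
  unfold per
  rw [tsum_eq_single (-k)]
  · push_cast
    ring_nf
  · intro m hm
    apply h
    rcases lt_or_gt_of_ne hm with hlt | hgt
    · left
      have : m ≤ -k - 1 := by omega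
      have : (m : ℝ) ≤ -k - 1 := by exact_mod_cast this
      linarith
    · right
      have : -k + 1 ≤ m := by omega
      have : -(k : ℝ) + 1 ≤ m := by exact_mod_cast this
      linarith

lemma Good.deriv {g : ℝ → ℝ} (h : Good g) : Good (deriv g) := by
  obtain ⟨hc, ε, hε, hz⟩ := h
  refine ⟨(contDiff_infty_iff_deriv.1 hc).2, ε / 2, by positivity, ?_⟩
  intro s hs
  have : g =ᶠ[nhds s] fun _ => 0 := by
    rcases hs with hs | hs
    · filter_upwards [Iio_mem_nhds (show s < ε by linarith)] with x hx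
      exact hz x (Or.inl hx.le)
    · filter_upwards [Ioi_mem_nhds (show 1 - ε < s by linarith)] with x hx
      exact hz x (Or.inr (le_of_lt hx))
  rw [this.deriv_eq]
  simp

lemma per_eventually {g : ℝ → ℝ} (h : Good g) (y : ℝ) :
    per g =ᶠ[nhds y] fun z => g (z - ⌊y⌋) := by
  obtain ⟨hc, ε, hε, hz⟩ := h
  have h1 : (⌊y⌋ : ℝ) - ε < y := by
    have := Int.floor_le y
    linarith
  have h2 : y < ⌊y⌋ + 1 + ε := by
    have := Int.lt_floor_add_one y
    linarith
  filter_upwards [Ioo_mem_nhds h1 h2] with z hz'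
  exact per_local hz ⌊y⌋ hz'.1.le hz'.2.le

lemma per_contDiff {g : ℝ → ℝ} (h : Good g) : ContDiff ℝ (⊤ : ℕ∞) (per g) := by
  rw [contDiff_iff_contDiffAt]
  intro y
  have : ContDiffAt ℝ (⊤ : ℕ∞) (fun z => g (z - ⌊y⌋)) y :=
    (h.1.comp (by fun_prop : ContDiff ℝ (⊤ : ℕ∞) fun z : ℝ => z - (⌊y⌋ : ℝ))).contDiffAt
  exact this.congr_of_eventuallyEq (per_eventually h y)

lemma per_hasDerivAt {g : ℝ → ℝ} (h : Good g) (y : ℝ) :
    HasDerivAt (per g) (per (deriv g) y) y := by
  have h1 : per (deriv g) y = deriv g (y - ⌊y⌋) := (per_eventually h.deriv y).self_of_nhds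
  rw [h1]
  have hd : HasDerivAt g (deriv g (y - ⌊y⌋)) (y - ⌊y⌋) :=
    ((contDiff_infty_iff_deriv.1 h.1).1 _).hasDerivAt
  have h2 : HasDerivAt (fun z : ℝ => g (z - ⌊y⌋)) (deriv g (y - ⌊y⌋)) y := by
    have := hd.comp y ((hasDerivAt_id' y).sub_const (⌊y⌋ : ℝ))
    rw [mul_one] at this
    exact this
  exact h2.congr_of_eventuallyEq (per_eventually h y)

lemma per_add_one (g : ℝ → ℝ) (y : ℝ) : per g (y + 1) = per g y := by
  unfold per
  rw [← (Equiv.addRight (1 : ℤ)).tsum_eq (fun m : ℤ => g (y + m))]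
  apply tsum_congr
  intro m
  simp only [Equiv.coe_addRight]
  push_cast
  ring_nf

end Vale.Agent.P113
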