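import Vale.Agent.P113.Shears

namespace Vale.Agent.P113
namespace Machine
variable (M : Machine)

lemma valid_lt {c : Conf} (h : M.Valid c) (s : Bool) : ∀ x ∈ c.S s, x < M.K := by
  intro x hx
  have := h.hd s x hx
  rw [K_eq]
  unfold half
  omega

lemma sh_z {s : Shear} {T : ℕ} (hT : 1 ≤ T) (hk : s.k = 2) (hN : s.N = 2 * T) (i : ℕ) (hi : i < T)
    (p p' : Fin 3 → ℚ) (ξ : ℚ) (hξ : |ξ| ≤ 1 / 4) (hp : p 2 = ((i : ℚ) + 1 / 2 + ξ) / (2 * T))
    (hp' : p' = Function.update p s.l (p s.l + (s.a i + s.b i * (ξ / (2 * T))))) : Sh s p p' := by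
  have hT' : (1 : ℚ) ≤ T := by exact_mod_cast hT
  apply sh_intro i (ξ / (2 * T))
  · rw [hN]; omega
  · rw [hk, hp, hN]
    push_cast
    ring
  · rw [hN, abs_div, abs_of_pos (by positivity : (0 : ℚ) < 2 * T),
      div_le_div_iff₀ (by positivity) (by push_cast; positivity)]
    push_cast
    have hpos : (0 : ℚ) ≤ 2 * T := by positivity
    nlinarith
  · exact hp'

lemma sh_T {s : Shear} {T : ℕ} (hT : 1 ≤ T) (hN : s.N = T) (i : ℕ) (hi : i < T)
    (p p' : Fin 3 → ℚ) (η : ℚ) (hη : |η - 1 / 2| ≤ 1 / 4) (hp : p s.k = ((i : ℚ) + η) / T)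
    (hp' : p' = Function.update p s.l (p s.l + (s.a i + s.b i * ((η - 1 / 2) / T)))) :
    Sh s p p' := by
  have hT' : (1 : ℚ) ≤ T := by exact_mod_cast hT
  apply sh_intro i ((η - 1 / 2) / T)
  · rw [hN]; omega
  · rw [hp, hN]
    ring
  · rw [hN, abs_div, abs_of_pos (by positivity : (0 : ℚ) < T),
      div_le_div_iff₀ (by positivity) (by positivity)]
    have hpos : (0 : ℚ) ≤ T := by positivity
    nlinarith
  · exact hp'

lemma det_shear {s : Shear} (σ : Bool) (hN : s.N = 2 * M.K * M.T) (ha : s.a = M.det σ)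
    (hb : s.b = fun _ => 0) (j : ℕ) (hj : j < M.J) (l : List ℕ) (hl : ∀ x ∈ l, x < M.K)
    (p : Fin 3 → ℚ) (hp : p s.k = ((j : ℚ) + enc M.K l) / M.T) :
    Sh s p (Function.update p s.l (p s.l + (if dirOf j = σ then
      (if M.haltN j then 3 / 4 - ((j : ℚ) + 1 / 2) / (2 * M.T)
      else (((j * M.K + l.headD 0 : ℕ) : ℚ) - (j : ℚ)) / (2 * M.T)) else 0))) := by
  obtain ⟨i, t, hi, h1, h2, h3, h4⟩ := dig1 M.half_pos M.T M.T_pos l hl j
    (lt_of_lt_of_le hj M.J_le_T)
  rw [← K_eq] at hi h1 h2 h3 h4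
  apply sh_intro i t
  · rw [hN]; exact hi
  · rw [hp, hN]; exact h1
  · rw [hN]; exact h2
  · rw [ha, hb]
    unfold det
    rw [h3, h4]
    simp

lemma prd_shear {s : Shear} (σ : Bool) (hN : s.N = 4 * M.K ^ 2 * M.T) (ha : s.a = M.prd σ)
    (hb : s.b = fun _ => 0) (j : ℕ) (hj : j < M.J) (l : List ℕ) (hl : ∀ x ∈ l, x < M.K)
    (p : Fin 3 → ℚ) (hp : p s.k = ((j : ℚ) + enc M.K l) / M.T) :
    Sh s p (Function.update p s.l (p s.l + (if dirOf j = σ then
      ((j : ℚ) - ((M.pred j (l.headD 0) (l.tail.headD 0) : ℕ) : ℚ)) / (2 * M.T) else 0))) := by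
  obtain ⟨i, t, hi, h1, h2, h3, h4, h5⟩ := dig2 M.half_pos M.T M.T_pos l hl j
    (lt_of_lt_of_le hj M.J_le_T)
  rw [← K_eq] at hi h1 h2 h3 h4 h5
  apply sh_intro i t
  · rw [hN]; exact hi
  · rw [hp, hN]; exact h1
  · rw [hN]; exact h2
  · rw [ha, hb]
    unfold prd
    rw [h3, h4, h5]
    simp

/-- digit read by a configuration -/
def rd (c : Conf) : ℕ := (c.S (dirOf c.j)).headD 0

def tau (c : Conf) : ℕ := c.j * M.K + rd c

lemma rd_lt {c : Conf} (h : M.Valid c) : rd c < M.K := by
  unfold rd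
  have h1 := M.valid_lt h (dirOf c.j)
  cases hS : c.S (dirOf c.j) with
  | nil =>
    have := M.half_pos
    rw [K_eq]
    simp
    omega
  | cons a l =>
    rw [hS] at h1
    simpa using h1 a (by simp)

lemma tau_lt {c : Conf} (h : M.Valid c) : M.tau c < M.T := by
  have h1 := M.rd_lt h
  have h2 : (c.j + 1) * M.K ≤ M.J * M.K := Nat.mul_le_mul_right _ h.hj
  unfold tau T
  nlinarith

lemma tau_div {c : Conf} (h : M.Valid c) : M.tau c / M.K = c.j := by
  have h1 := M.rd_lt h
  unfold tau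
  rw [mul_comm, Nat.mul_add_div (by omega), Nat.div_eq_of_lt h1, add_zero]

lemma tau_mod {c : Conf} (h : M.Valid c) : M.tau c % M.K = rd c := by
  have h1 := M.rd_lt h
  unfold tau
  rw [mul_comm, Nat.mul_add_mod, Nat.mod_eq_of_lt h1]

lemma newj_tau {c : Conf} (h : M.Valid c) : M.newj (M.tau c) = (M.cstep c).j := by
  unfold newj cstep
  rw [M.tau_div h, M.tau_mod h]
  rfl

lemma cstep_S {c : Conf} (h : M.Valid c) (s : Bool) :
    (M.cstep c).S s = M.pushes s (M.tau c) ++ c.pop s := by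
  unfold pushes cstep
  rw [M.tau_div h, M.tau_mod h]
  rfl

/-- local offset of the stack `s` -/
def xi (c : Conf) (s : Bool) : ℚ := enc M.K (c.S s) - M.Cc s (M.tau c)

lemma K_pos : 1 ≤ M.K := by
  have := M.half_pos
  rw [K_eq]; omega

lemma KQ_pos : (0 : ℚ) < M.K := by exact_mod_cast M.K_pos

lemma xi_eq {c : Conf} (h : M.Valid c) (s : Bool) :
    M.xi c s = (enc M.K (c.pop s) - 1 / 2) / (if dirOf c.j = s then 2 * (M.K : ℚ) else 1) := by
  unfold xi Cc
  rw [M.tau_div h, M.tau_mod h]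
  have hK := M.KQ_pos
  by_cases hs : dirOf c.j = s
  · rw [if_pos hs, if_pos hs, enc_head M.K_pos (c.S s)]
    have : c.pop s = (c.S s).tail := by simp [Conf.pop, hs]
    rw [this]
    unfold rd
    rw [hs]
    field_simp
    ring
  · rw [if_neg hs, if_neg hs]
    have : c.pop s = c.S s := by
      unfold Conf.pop
      rw [if_neg (fun h => hs h.symm)]
    rw [this]
    ring

lemma pop_bounds {c : Conf} (h : M.Valid c) (s : Bool) :
    |enc M.K (c.pop s) - 1 / 2| ≤ 1 / 4 := by
  have h1 := enc_bounds M.K_pos (c.pop s) (by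
    intro x hx
    have := M.valid_pop h s x hx
    rw [K_eq]; unfold half; omega)
  exact abs_le.2 ⟨by linarith [h1.1], by linarith [h1.2]⟩

lemma xi_bound {c : Conf} (h : M.Valid c) (s : Bool) : |M.xi c s| ≤ 1 / 4 := by
  rw [M.xi_eq h]
  have h1 := M.pop_bounds h s
  have hK : (1 : ℚ) ≤ M.K := by exact_mod_cast M.K_pos
  split_ifs
  · rw [abs_div, abs_of_pos (by linarith : (0 : ℚ) < 2 * M.K), div_le_iff₀ (by linarith)]
    linarith
  · rw [div_one]; exact h1

lemma lam_pos (s : Bool) (τ : ℕ) : 0 < M.lam s τ := by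
  unfold lam
  have hK := M.KQ_pos
  split_ifs <;> positivity

lemma enc_new {c : Conf} (h : M.Valid c) (s : Bool) :
    enc M.K ((M.cstep c).S s) = M.Aa s (M.tau c) + M.lam s (M.tau c) * M.xi c s := by
  rw [M.cstep_S h, enc_append M.K_pos, M.xi_eq h]
  unfold Aa lam
  rw [M.tau_div h]
  have hK := M.KQ_pos
  congr 1
  split_ifs
  · field_simp
  · field_simp

lemma enc_half {c : Conf} (h : M.Valid c) (s : Bool) : |enc M.K (c.S s) - 1 / 2| ≤ 1 / 4 := by
  have h1 := enc_bounds M.K_pos (c.S s) (M.valid_lt h s)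
  exact abs_le.2 ⟨by linarith [h1.1], by linarith [h1.2]⟩

/-- the previous digit block is recovered from the new configuration -/
lemma pred_eq {c : Conf} (h : M.Valid c) :
    M.pred (M.cstep c).j (((M.cstep c).S (!dirOf (M.cstep c).j)).headD 0)
      ((((M.cstep c).S (!dirOf (M.cstep c).j)).tail).headD 0) = M.tau c := by
  have hg := M.g_pos
  have hrd : (c.S (dirOf c.j)).headD 0 = rd c := rfl
  by_cases ha : M.g ≤ rd c
  · have hflag : flagOf c.j = false := by
      by_contra hcon
      have h1 := h.hf (by simpa using hcon)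
      unfold rd at ha
      omega
    have hact : M.act c.j (rd c) = (c.j, fun s => if s = dirOf c.j then [] else [rd c]) := by
      unfold act
      rw [if_pos ha]
    simp only [cstep, hrd, hact]
    rw [if_neg (by simp)]
    simp only [List.cons_append, List.nil_append, List.headD_cons, List.tail_cons]
    unfold pred
    rw [hflag]
    simp only [Bool.false_eq_true, if_false]
    rw [if_pos ha]
    rfl
  · have ha' : rd c < M.g := not_le.1 ha
    obtain ⟨⟨q, s, mv⟩, hqs⟩ : ∃ r, M.step (Fin.ofNat (M.nS + 1) (c.j / 4))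
        (Fin.ofNat (M.nA + 1) (rd c)) = r := ⟨_, rfl⟩
    have hdec : ((M.g + c.j * M.g + rd c - M.g) / M.g) * M.K + (M.g + c.j * M.g + rd c - M.g) % M.g
        = M.tau c := by
      have h1 : M.g + c.j * M.g + rd c - M.g = M.g * c.j + rd c := by
        rw [mul_comm M.g c.j]; omega
      rw [h1, Nat.mul_add_div hg, Nat.div_eq_of_lt ha', Nat.mul_add_mod, Nat.mod_eq_of_lt ha']
      rfl
    cases mv with
    | some d' =>
      have hact : M.act c.j (rd c) = (4 * (q : ℕ) + d'.toNat,
          fun t => if t = d' then [] else [(s : ℕ), M.g + c.j * M.g + rd c]) := by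
        unfold act
        rw [if_neg ha, hqs]
      simp only [cstep, hrd, hact, dirOf_four]
      rw [if_neg (by simp)]
      simp only [List.cons_append, List.nil_append, List.headD_cons, List.tail_cons]
      unfold pred
      rw [flagOf_four]
      simp only [Bool.false_eq_true, if_false]
      rw [if_neg (not_le.2 (show (s : ℕ) < M.g from s.2))]
      exact hdec
    | none =>
      have hact : M.act c.j (rd c) = (4 * (q : ℕ) + 2 + (dirOf c.j).toNat,
          fun t => if t = dirOf c.j then [(s : ℕ)] else [M.g + c.j * M.g + rd c]) := by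
        unfold act
        rw [if_neg ha, hqs]
      simp only [cstep, hrd, hact, dirOf_four']
      rw [if_neg (by simp)]
      simp only [List.cons_append, List.nil_append, List.headD_cons, List.tail_cons]
      unfold pred
      rw [flagOf_four']
      simp only [if_true]
      exact hdec

lemma TQ_pos : (0 : ℚ) < M.T := by exact_mod_cast M.T_pos

/-- one simulated step: fourteen shears -/
theorem chain {c : Conf} (h : M.Valid c) (h' : M.Valid (M.cstep c)) (hh : M.haltN c.j = false) :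
    ∃ P : ℕ → Fin 3 → ℚ, P 0 = M.pos c ∧ P 14 = M.pos (M.cstep c) ∧
      (∀ r < 14, Sh (M.shear r) (P r) (P (r + 1))) ∧ ∀ r ≤ 14, 0 ≤ P r 2 ∧ P r 2 ≤ 1 / 2 := by
  have hT := M.TQ_pos
  have hTn := M.T_pos
  have hτ := M.tau_lt h
  have hτq : ((M.tau c : ℕ) : ℚ) + 1 ≤ M.T := by exact_mod_cast hτ
  have hjT : (c.j : ℚ) + 1 ≤ M.T := by exact_mod_cast lt_of_lt_of_le h.hj M.J_le_T
  have hjT' : ((M.cstep c).j : ℚ) + 1 ≤ M.T := by exact_mod_cast lt_of_lt_of_le h'.hj M.J_le_T
  set j := c.j with hj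
  set j' := (M.cstep c).j with hj'
  set τ := M.tau c with hτdef
  set T := M.T with hTdef
  set eL := enc M.K (c.S false) with heL
  set eR := enc M.K (c.S true) with heR
  set eL' := enc M.K ((M.cstep c).S false) with heL'
  set eR' := enc M.K ((M.cstep c).S true) with heR'
  set z0 : ℚ := ((j : ℚ) + 1 / 2) / (2 * T) with hz0
  set zt : ℚ := ((τ : ℚ) + 1 / 2) / (2 * T) with hzt
  set z' : ℚ := ((j' : ℚ) + 1 / 2) / (2 * T) with hz'
  set zx : ℚ := ((τ : ℚ) + 1 / 2 + M.xi c false) / (2 * T) with hzx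
  set zy : ℚ := ((τ : ℚ) + 1 / 2 + M.xi c true) / (2 * T) with hzy
  have hz0t : z0 + ((τ : ℚ) - j) / (2 * T) = zt := by rw [hz0, hzt]; ring
  have hdivm : τ / M.K = j := M.tau_div h
  have hcx : eL = M.Cc false τ + M.xi c false := by rw [heL]; unfold xi; ring
  have hcy : eR = M.Cc true τ + M.xi c true := by rw [heR]; unfold xi; ring
  have hnx : eL' = M.Aa false τ + M.lam false τ * M.xi c false := M.enc_new h false
  have hny : eR' = M.Aa true τ + M.lam true τ * M.xi c true := M.enc_new h true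
  have hlx := M.lam_pos false τ
  have hly := M.lam_pos true τ
  have hnewj : M.newj τ = j' := M.newj_tau h
  have hzero : |(0 : ℚ)| ≤ 1 / 4 := by norm_num
  let P : ℕ → Fin 3 → ℚ := fun r => match r with
    | 0 => ![(j + eL) / T, (j + eR) / T, z0]
    | 1 => ![(j + eL) / T, (j + eR) / T, if dirOf j = true then zt else z0]
    | 2 => ![(j + eL) / T, (j + eR) / T, zt]
    | 3 => ![(τ + eL) / T, (j + eR) / T, zt]
    | 4 => ![(τ + eL) / T, (τ + eR) / T, zt]
    | 5 => ![(τ + eL) / T, (τ + eR) / T, zx]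
    | 6 => ![(τ + eL') / T, (τ + eR) / T, zx]
    | 7 => ![(τ + eL') / T, (τ + eR) / T, zt]
    | 8 => ![(τ + eL') / T, (τ + eR) / T, zy]
    | 9 => ![(τ + eL') / T, (τ + eR') / T, zy]
    | 10 => ![(τ + eL') / T, (τ + eR') / T, zt]
    | 11 => ![(j' + eL') / T, (τ + eR') / T, zt]
    | 12 => ![(j' + eL') / T, (j' + eR') / T, zt]
    | 13 => ![(j' + eL') / T, (j' + eR') / T, if dirOf j' = true then z' else zt]
    | _ => ![(j' + eL') / T, (j' + eR') / T, z']
  have hbx := abs_le.1 (M.xi_bound h false)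
  have hby := abs_le.1 (M.xi_bound h true)
  have hb0 : 0 ≤ z0 ∧ z0 ≤ 1 / 2 := by
    rw [hz0]
    exact ⟨by positivity, by rw [div_le_iff₀ (by positivity)]; linarith⟩
  have hbt : 0 ≤ zt ∧ zt ≤ 1 / 2 := by
    rw [hzt]
    exact ⟨by positivity, by rw [div_le_iff₀ (by positivity)]; linarith⟩
  have hb' : 0 ≤ z' ∧ z' ≤ 1 / 2 := by
    rw [hz']
    exact ⟨by positivity, by rw [div_le_iff₀ (by positivity)]; linarith⟩
  have hτ0 : (0 : ℚ) ≤ τ := Nat.cast_nonneg _
  have hbzx : 0 ≤ zx ∧ zx ≤ 1 / 2 := by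
    rw [hzx]
    exact ⟨div_nonneg (by linarith) (by positivity), by rw [div_le_iff₀ (by positivity)]; linarith⟩
  have hbzy : 0 ≤ zy ∧ zy ≤ 1 / 2 := by
    rw [hzy]
    exact ⟨div_nonneg (by linarith) (by positivity), by rw [div_le_iff₀ (by positivity)]; linarith⟩
  refine ⟨P, rfl, rfl, ?_, ?_⟩
  · intro r hr
    have hd := M.det_shear (s := M.shear 0) true rfl rfl rfl j h.hj (c.S true) (M.valid_lt h true)
      (P 0) rfl
    have hd2 := M.det_shear (s := M.shear 1) false rfl rfl rfl j h.hj (c.S false)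
      (M.valid_lt h false) (P 1) rfl
    have hp1 := M.prd_shear (s := M.shear 12) true rfl rfl rfl j' h'.hj ((M.cstep c).S false)
      (M.valid_lt h' false) (P 12) rfl
    have hp2 := M.prd_shear (s := M.shear 13) false rfl rfl rfl j' h'.hj ((M.cstep c).S true)
      (M.valid_lt h' true) (P 13) rfl
    have hpred := M.pred_eq h
    rw [← hj'] at hpred
    rw [hh] at hd hd2
    simp only [Bool.false_eq_true, if_false] at hd hd2
    have hτe : ∀ s, dirOf j = s → j * M.K + (c.S s).headD 0 = τ := by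
      intro s hs
      rw [hτdef, tau, rd, ← hj, hs]
    interval_cases r
    · convert hd using 1
      refine up2 ?_
      by_cases hdj : dirOf j = true
      · rw [if_pos hdj, if_pos hdj, hτe _ hdj]; exact hz0t
      · rw [if_neg hdj, if_neg hdj, add_zero]
    · convert hd2 using 1
      refine up2 ?_
      by_cases hdj : dirOf j = true
      · rw [if_pos hdj, hdj]; simp
      · have hdj' : dirOf j = false := by simpa using hdj
        rw [if_neg hdj, if_pos hdj', hτe _ hdj']; exact hz0t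
    · refine sh_z hTn rfl rfl τ hτ _ _ 0 hzero (by show zt = _; rw [hzt, add_zero]) ?_
      refine up0 ?_
      show (j + eL) / T + (((τ : ℚ) - ((τ / M.K : ℕ) : ℚ)) / T + 0 * (0 / (2 * T))) = _
      rw [hdivm]; ring
    · refine sh_z hTn rfl rfl τ hτ _ _ 0 hzero (by show zt = _; rw [hzt, add_zero]) ?_
      refine up1 ?_
      show (j + eR) / T + (((τ : ℚ) - ((τ / M.K : ℕ) : ℚ)) / T + 0 * (0 / (2 * T))) = _
      rw [hdivm]; ring
    · refine sh_T hTn rfl τ hτ _ _ eL (M.enc_half h false) rfl ?_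
      refine up2 ?_
      show zt + ((1 / 2 - M.Cc false τ) / (2 * T) + 1 / 2 * ((eL - 1 / 2) / T)) = zx
      rw [hcx, hzt, hzx]; ring
    · refine sh_z hTn rfl rfl τ hτ _ _ (M.xi c false) (M.xi_bound h false) rfl ?_
      refine up0 ?_
      show (τ + eL) / T + ((M.Aa false τ - M.Cc false τ) / T
        + 2 * (M.lam false τ - 1) * (M.xi c false / (2 * T))) = (τ + eL') / T
      rw [hcx, hnx]; ring
    · refine sh_T hTn rfl τ hτ _ _ eL' (M.enc_half h' false) rfl ?_
      refine up2 ?_
      show zx + (-(1 / 2 - M.Aa false τ) / (2 * M.lam false τ * T)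
        + -1 / (2 * M.lam false τ) * ((eL' - 1 / 2) / T)) = zt
      rw [hnx, hzt, hzx]; field_simp; ring
    · refine sh_T hTn rfl τ hτ _ _ eR (M.enc_half h true) rfl ?_
      refine up2 ?_
      show zt + ((1 / 2 - M.Cc true τ) / (2 * T) + 1 / 2 * ((eR - 1 / 2) / T)) = zy
      rw [hcy, hzt, hzy]; ring
    · refine sh_z hTn rfl rfl τ hτ _ _ (M.xi c true) (M.xi_bound h true) rfl ?_
      refine up1 ?_
      show (τ + eR) / T + ((M.Aa true τ - M.Cc true τ) / T
        + 2 * (M.lam true τ - 1) * (M.xi c true / (2 * T))) = (τ + eR') / T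
      rw [hcy, hny]; ring
    · refine sh_T hTn rfl τ hτ _ _ eR' (M.enc_half h' true) rfl ?_
      refine up2 ?_
      show zy + (-(1 / 2 - M.Aa true τ) / (2 * M.lam true τ * T)
        + -1 / (2 * M.lam true τ) * ((eR' - 1 / 2) / T)) = zt
      rw [hny, hzt, hzy]; field_simp; ring
    · refine sh_z hTn rfl rfl τ hτ _ _ 0 hzero (by show zt = _; rw [hzt, add_zero]) ?_
      refine up0 ?_
      show (τ + eL') / T + ((((M.newj τ : ℕ) : ℚ) - (τ : ℚ)) / T + 0 * (0 / (2 * T))) = _
      rw [hnewj]; ring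
    · refine sh_z hTn rfl rfl τ hτ _ _ 0 hzero (by show zt = _; rw [hzt, add_zero]) ?_
      refine up1 ?_
      show (τ + eR') / T + ((((M.newj τ : ℕ) : ℚ) - (τ : ℚ)) / T + 0 * (0 / (2 * T))) = _
      rw [hnewj]; ring
    · convert hp1 using 1
      refine up2 ?_
      by_cases hdj : dirOf j' = true
      · rw [if_pos hdj, if_pos hdj]
        rw [hdj] at hpred
        simp only [Bool.not_true] at hpred
        rw [hpred, hzt, hz']; ring
      · rw [if_neg hdj, if_neg hdj, add_zero]
    · convert hp2 using 1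
      refine up2 ?_
      by_cases hdj : dirOf j' = true
      · rw [if_pos hdj, hdj]; simp
      · have hdj' : dirOf j' = false := by simpa using hdj
        rw [if_neg hdj, if_pos hdj']
        rw [hdj'] at hpred
        simp only [Bool.not_false] at hpred
        rw [hpred, hzt, hz']; ring
  · intro r hr
    interval_cases r
    · exact hb0
    · show 0 ≤ (if dirOf j = true then zt else z0) ∧ (if dirOf j = true then zt else z0) ≤ 1 / 2
      split_ifs
      · exact hbt
      · exact hb0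
    · exact hbt
    · exact hbt
    · exact hbt
    · exact hbzx
    · exact hbzx
    · exact hbt
    · exact hbzy
    · exact hbzy
    · exact hbt
    · exact hbt
    · exact hbt
    · show 0 ≤ (if dirOf j' = true then z' else zt) ∧ (if dirOf j' = true then z' else zt) ≤ 1 / 2
      split_ifs
      · exact hb'
      · exact hbt
    · exact hb'

/-- in a halting mode, the third coordinate is moved to `3/4` by the first two shears -/
theorem chain_halt {c : Conf} (h : M.Valid c) (hh : M.haltN c.j = true) :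
    ∃ P : ℕ → Fin 3 → ℚ, P 0 = M.pos c ∧ Sh (M.shear 0) (P 0) (P 1) ∧
      Sh (M.shear 1) (P 1) (P 2) ∧ P 2 2 = 3 / 4 := by
  set j := c.j with hj
  set eL := enc M.K (c.S false) with heL
  set eR := enc M.K (c.S true) with heR
  set z0 : ℚ := ((j : ℚ) + 1 / 2) / (2 * M.T) with hz0
  let P : ℕ → Fin 3 → ℚ := fun r => match r with
    | 0 => ![(j + eL) / M.T, (j + eR) / M.T, z0]
    | 1 => ![(j + eL) / M.T, (j + eR) / M.T, if dirOf j = true then 3 / 4 else z0]
    | _ => ![(j + eL) / M.T, (j + eR) / M.T, 3 / 4]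
  have hd := M.det_shear (s := M.shear 0) true rfl rfl rfl j h.hj (c.S true) (M.valid_lt h true)
    (P 0) rfl
  have hd2 := M.det_shear (s := M.shear 1) false rfl rfl rfl j h.hj (c.S false)
    (M.valid_lt h false) (P 1) rfl
  rw [hh] at hd hd2
  simp only [if_true] at hd hd2
  refine ⟨P, rfl, ?_, ?_, rfl⟩
  · convert hd using 1
    refine up2 ?_
    by_cases hdj : dirOf j = true
    · rw [if_pos hdj, if_pos hdj, ← hz0]; ring
    · rw [if_neg hdj, if_neg hdj, add_zero]
  · convert hd2 using 1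
    refine up2 ?_
    by_cases hdj : dirOf j = true
    · rw [if_pos hdj, hdj]; simp
    · have hdj' : dirOf j = false := by simpa using hdj
      rw [if_neg hdj, if_pos hdj', ← hz0]; ring

end Machine
end Vale.Agent.P113
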