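import Vale.Agent.P113.CodeDefs

namespace Vale.Agent.P113

/-! ### The compiler on codes -/

def cg (c : MCode) : ℕ := c.2.1 + 1
def cJ (c : MCode) : ℕ := 4 * (c.1 + 1)
def ch (c : MCode) : ℕ := cg c + cJ c * cg c
def cK (c : MCode) : ℕ := 2 * ch c
def cT (c : MCode) : ℕ := cJ c * cK c
def chalt (c : MCode) (j : ℕ) : ℕ := c.2.2.2.1.getD (j / 4 % (c.1 + 1)) 0
def cst (c : MCode) (j a : ℕ) : ℕ × ℕ × ℕ :=
  (c.2.2.2.2.getD (j / 4 % (c.1 + 1)) []).getD (a % (c.2.1 + 1)) (0, 0, 0)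

def cnewj (c : MCode) (j a : ℕ) : ℕ :=
  if cg c ≤ a then j
  else if (cst c j a).2.2 = 0 then 4 * (cst c j a).1 + 2 + j % 2
  else 4 * (cst c j a).1 + ((cst c j a).2.2 - 1)

/-- numerator of the value of one digit over `8K²` -/
def cone (c : MCode) (d : ℕ) : ℕ := 2 * (cK c * cK c) + 4 * (cK c * d) + 2 * cK c

/-- numerator of the value of two digits over `8K²` -/
def ctwo (c : MCode) (d h : ℕ) : ℕ := 2 * (cK c * cK c) + 4 * (cK c * d) + (cK c + (2 * h + 1))

def cA (c : MCode) (s j a : ℕ) : ℕ :=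
  if cg c ≤ a then (if s = j % 2 then 4 * (cK c * cK c) else cone c a)
  else if (cst c j a).2.2 = 0 then
    (if s = j % 2 then cone c (cst c j a).2.1 else cone c (cg c + j * cg c + a))
  else if s = (cst c j a).2.2 - 1 then 4 * (cK c * cK c)
  else ctwo c (cst c j a).2.1 (cg c + j * cg c + a)

/-- `(2K)^(number of pushed digits)` -/
def cP (c : MCode) (s j a : ℕ) : ℕ :=
  if cg c ≤ a then (if s = j % 2 then 1 else 2 * cK c)
  else if (cst c j a).2.2 = 0 then 2 * cK c
  else if s = (cst c j a).2.2 - 1 then 1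
  else 4 * (cK c * cK c)

def cQ (c : MCode) (s j : ℕ) : ℕ := if s = j % 2 then 2 * cK c else 1

def cC (c : MCode) (s j a : ℕ) : ℕ := if s = j % 2 then cone c a else 4 * (cK c * cK c)

def cpred (c : MCode) (j b b2 : ℕ) : ℕ :=
  if j / 2 % 2 = 1 then ((b - cg c) / cg c) * cK c + (b - cg c) % cg c
  else if cg c ≤ b then j * cK c + b
  else ((b2 - cg c) / cg c) * cK c + (b2 - cg c) % cg c

def cdet (s : ℕ) (c : MCode) (i : ℕ) : QCode :=
  if s = i / (2 * cK c) % 2 then
    (if chalt c (i / (2 * cK c)) = 1 then (3 * cT c, 2 * (i / (2 * cK c)) + 1, 4 * cT c - 1)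
    else (i / (2 * cK c) * cK c + (i % (2 * cK c) - ch c), i / (2 * cK c), 2 * cT c - 1))
  else (0, 0, 0)

def cprd (s : ℕ) (c : MCode) (i : ℕ) : QCode :=
  if s = i / (4 * (cK c * cK c)) % 2 then
    (i / (4 * (cK c * cK c)), cpred c (i / (4 * (cK c * cK c)))
      ((i % (4 * (cK c * cK c)) - cK c * cK c) / (2 * cK c))
      ((i % (4 * (cK c * cK c)) - cK c * cK c) % (2 * cK c) - ch c), 2 * cT c - 1)
  else (0, 0, 0)

def kr (r : ℕ) : Fin 3 :=
  match r with
  | 0 => 1 | 1 => 0 | 2 => 2 | 3 => 2 | 4 => 0 | 5 => 2 | 6 => 0 | 7 => 1 | 8 => 2 | 9 => 1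
  | 10 => 2 | 11 => 2 | 12 => 0 | _ => 1

def lr (r : ℕ) : Fin 3 :=
  match r with
  | 0 => 2 | 1 => 2 | 2 => 0 | 3 => 1 | 4 => 2 | 5 => 0 | 6 => 2 | 7 => 2 | 8 => 1 | 9 => 2
  | 10 => 0 | 11 => 1 | 12 => 2 | _ => 2

def cN (r : ℕ) (c : MCode) : ℕ :=
  match r with
  | 0 => 2 * cK c * cT c | 1 => 2 * cK c * cT c | 2 => 2 * cT c | 3 => 2 * cT c | 4 => cT c
  | 5 => 2 * cT c | 6 => cT c | 7 => cT c | 8 => 2 * cT c | 9 => cT c | 10 => 2 * cT c
  | 11 => 2 * cT c | 12 => 4 * (cK c * cK c) * cT c | _ => 4 * (cK c * cK c) * cT c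

def ca4 (s : ℕ) (c : MCode) (i : ℕ) : QCode :=
  (4 * (cK c * cK c), cC c s (i / cK c) (i % cK c), 16 * (cK c * cK c) * cT c - 1)
def ca5 (s : ℕ) (c : MCode) (i : ℕ) : QCode :=
  (cA c s (i / cK c) (i % cK c), cC c s (i / cK c) (i % cK c), 8 * (cK c * cK c) * cT c - 1)
def cb5 (s : ℕ) (c : MCode) (i : ℕ) : QCode :=
  (2 * cQ c s (i / cK c), 2 * cP c s (i / cK c) (i % cK c), cP c s (i / cK c) (i % cK c) - 1)
def ca6 (s : ℕ) (c : MCode) (i : ℕ) : QCode :=
  (cA c s (i / cK c) (i % cK c) * cP c s (i / cK c) (i % cK c),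
    4 * (cK c * cK c) * cP c s (i / cK c) (i % cK c),
    16 * (cK c * cK c) * cQ c s (i / cK c) * cT c - 1)
def cb6 (s : ℕ) (c : MCode) (i : ℕ) : QCode :=
  (0, cP c s (i / cK c) (i % cK c), 2 * cQ c s (i / cK c) - 1)

def ca (r : ℕ) (c : MCode) (i : ℕ) : QCode :=
  match r with
  | 0 => cdet 1 c i
  | 1 => cdet 0 c i
  | 2 => (i, i / cK c, cT c - 1)
  | 3 => (i, i / cK c, cT c - 1)
  | 4 => ca4 0 c i
  | 5 => ca5 0 c i
  | 6 => ca6 0 c i
  | 7 => ca4 1 c i
  | 8 => ca5 1 c i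
  | 9 => ca6 1 c i
  | 10 => (cnewj c (i / cK c) (i % cK c), i, cT c - 1)
  | 11 => (cnewj c (i / cK c) (i % cK c), i, cT c - 1)
  | 12 => cprd 1 c i
  | _ => cprd 0 c i

def cb (r : ℕ) (c : MCode) (i : ℕ) : QCode :=
  match r with
  | 4 => (1, 0, 1)
  | 5 => cb5 0 c i
  | 6 => cb6 0 c i
  | 7 => (1, 0, 1)
  | 8 => cb5 1 c i
  | 9 => cb6 1 c i
  | _ => (0, 0, 0)

def qs (m : ℕ) (q : QCode) : QCode := (m * q.1, m * q.2.1, q.2.2)
def qn (m : ℕ) (q : QCode) : QCode := (m * q.2.1, m * q.1, q.2.2)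

/-- code of `a - b (i + 1/2)/N` -/
def cwA (N : ℕ) (a b : QCode) (i : ℕ) : QCode :=
  (a.1 * ((b.2.2 + 1) * (2 * N)) + b.2.1 * ((2 * i + 1) * (a.2.2 + 1)),
   a.2.1 * ((b.2.2 + 1) * (2 * N)) + b.1 * ((2 * i + 1) * (a.2.2 + 1)),
   (a.2.2 + 1) * ((b.2.2 + 1) * (2 * N)) - 1)

def cterm (k : Fin 3) (q : QCode) (m : ℕ) (tb g : BCode) : TCode :=
  (q, m, (0, 2), [], [[], [tb], if 0 = k then [g] else [], if 1 = k then [g] else [],
    if 2 = k then [g] else []])

def cR (k j n b : ℕ) : BCode := (true, k, j, (n, 0, 0), (b, 0, 0), (0, 0, 0))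
def cB (k n b : ℕ) : BCode := (false, k, 0, (n, 0, 0), (b, 0, 0), (12, 0, 0))

def cwin (r N : ℕ) (a b : QCode) (i : ℕ) : List TCode :=
  [cterm (kr r) (qs 4096 (cwA N a b i)) 0 (cR 0 1 64 (4 * r + 6)) (cB 0 (16 * N) (16 * i + 2)),
   cterm (kr r) (qs 4096 b) 0 (cR 0 1 64 (4 * r + 6)) (cB 1 (16 * N) (16 * i + 2)),
   cterm (kr r) (qn (64 * (16 * N * (16 * N))) (cwA N a b i)) 1 (cR 0 0 64 (4 * r + 6))
     (cR 0 1 (16 * N) (16 * i + 2)),
   cterm (kr r) (qs (64 * (16 * N * (16 * N))) (cwA N a b i)) 1 (cR 0 0 64 (4 * r + 6))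
     (cR 0 1 (16 * N) (16 * i + 2 + 12)),
   cterm (kr r) (qn (128 * (16 * N)) b) 1 (cR 0 0 64 (4 * r + 6))
     (cR 0 0 (16 * N) (16 * i + 2)),
   cterm (kr r) (qs (128 * (16 * N)) b) 1 (cR 0 0 64 (4 * r + 6))
     (cR 0 0 (16 * N) (16 * i + 2 + 12)),
   cterm (kr r) (qn (64 * (16 * N * (16 * N))) b) 1 (cR 0 0 64 (4 * r + 6))
     (cR 1 1 (16 * N) (16 * i + 2)),
   cterm (kr r) (qs (64 * (16 * N * (16 * N))) b) 1 (cR 0 0 64 (4 * r + 6))
     (cR 1 1 (16 * N) (16 * i + 2 + 12))]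

/-- code of the value of a stack: numerator and denominator minus one -/
def cenc (c : MCode) (w : List ℕ) : ℕ × ℕ :=
  w.foldr (fun d v => (2 * cK c * (v.2 + 1) + 4 * (d * (v.2 + 1) + v.1), 8 * cK c * (v.2 + 1) - 1))
    (cK c, 2 * (2 * cK c - 1) - 1)

def cj0 (c : MCode) : ℕ := 4 * c.2.2.1 + 1

/-- code of the initial displacement -/
def cV (l : Fin 3) (x : MCode × List ℕ) : QCode :=
  match l with
  | 0 => (cj0 x.1 * ((cenc x.1 []).2 + 1) + (cenc x.1 []).1, 0,
      ((cenc x.1 []).2 + 1) * cT x.1 - 1)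
  | 1 => (cj0 x.1 * ((cenc x.1 x.2).2 + 1) + (cenc x.1 x.2).1, 0,
      ((cenc x.1 x.2).2 + 1) * cT x.1 - 1)
  | 2 => (2 * cj0 x.1 + 1, 0, 4 * cT x.1 - 1)

def cinit (q : QCode) : TCode :=
  (qs 4096 q, 0, (0, 1), [], [[cR 0 1 64 2]])

def cG (r : ℕ) (c : MCode) : List TCode :=
  (List.range (cN r c)).flatMap fun i => cwin r (cN r c) (ca r c i) (cb r c i) i

/-- the compiler on codes -/
def cF (l : Fin 3) (x : MCode × List ℕ) : List TCode :=
  ((List.range 14).flatMap fun r => if lr r = l then cG r x.1 else []) ++ [cinit (cV l x)]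

/-! ### It is primitive recursive -/

section
variable {α σ : Type} [Primcodable α] [Primcodable σ]

lemma padd {f g : α → ℕ} (hf : Primrec f) (hg : Primrec g) : Primrec fun a => f a + g a :=
  Primrec.nat_add.comp hf hg
lemma pmul {f g : α → ℕ} (hf : Primrec f) (hg : Primrec g) : Primrec fun a => f a * g a :=
  Primrec.nat_mul.comp hf hg
lemma psub {f g : α → ℕ} (hf : Primrec f) (hg : Primrec g) : Primrec fun a => f a - g a :=
  Primrec.nat_sub.comp hf hg
lemma pdiv {f g : α → ℕ} (hf : Primrec f) (hg : Primrec g) : Primrec fun a => f a / g a :=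
  Primrec.nat_div.comp hf hg
lemma pmod {f g : α → ℕ} (hf : Primrec f) (hg : Primrec g) : Primrec fun a => f a % g a :=
  Primrec.nat_mod.comp hf hg
lemma pile {f g : α → ℕ} {u v : α → σ} (hf : Primrec f) (hg : Primrec g) (hu : Primrec u)
    (hv : Primrec v) : Primrec fun a => if f a ≤ g a then u a else v a :=
  Primrec.ite (Primrec.nat_le.comp hf hg) hu hv
lemma pieq {f g : α → ℕ} {u v : α → σ} (hf : Primrec f) (hg : Primrec g) (hu : Primrec u)
    (hv : Primrec v) : Primrec fun a => if f a = g a then u a else v a :=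
  Primrec.ite (Primrec.eq.comp hf hg) hu hv
lemma pcons {f : α → σ} {g : α → List σ} (hf : Primrec f) (hg : Primrec g) :
    Primrec fun a => f a :: g a :=
  Primrec.list_cons.comp hf hg
lemma pfst {β γ : Type} [Primcodable β] [Primcodable γ] {f : α → β × γ} (hf : Primrec f) :
    Primrec fun a => (f a).1 := Primrec.fst.comp hf
lemma psnd {β γ : Type} [Primcodable β] [Primcodable γ] {f : α → β × γ} (hf : Primrec f) :
    Primrec fun a => (f a).2 := Primrec.snd.comp hf
lemma pgetD {f : α → List σ} {g : α → ℕ} (d : σ) (hf : Primrec f) (hg : Primrec g) :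
    Primrec fun a => (f a).getD (g a) d := (Primrec.list_getD d).comp hf hg

lemma pflat (L : List ℕ) (H : ℕ → α → List σ) (hH : ∀ r, Primrec (H r)) :
    Primrec fun a => L.flatMap fun r => H r a := by
  induction L with
  | nil => exact Primrec.const []
  | cons r L ih =>
    simp only [List.flatMap_cons]
    exact Primrec.list_append.comp (hH r) ih
end

section
variable {α : Type} [Primcodable α] {c : α → MCode} (hc : Primrec c)
include hc

lemma p_cg : Primrec fun p => cg (c p) := padd (pfst (psnd hc)) (Primrec.const 1)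
lemma p_cJ : Primrec fun p => cJ (c p) :=
  pmul (Primrec.const 4) (padd (pfst hc) (Primrec.const 1))
lemma p_ch : Primrec fun p => ch (c p) := padd (p_cg hc) (pmul (p_cJ hc) (p_cg hc))
lemma p_cK : Primrec fun p => cK (c p) := pmul (Primrec.const 2) (p_ch hc)
lemma p_cT : Primrec fun p => cT (c p) := pmul (p_cJ hc) (p_cK hc)
lemma p_KK : Primrec fun p => cK (c p) * cK (c p) := pmul (p_cK hc) (p_cK hc)
lemma p_chalt {j : α → ℕ} (hj : Primrec j) : Primrec fun p => chalt (c p) (j p) :=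
  pgetD 0 (pfst (psnd (psnd (psnd hc)))) (pmod (pdiv hj (Primrec.const 4))
    (padd (pfst hc) (Primrec.const 1)))
lemma p_cst {j a : α → ℕ} (hj : Primrec j) (ha : Primrec a) :
    Primrec fun p => cst (c p) (j p) (a p) :=
  pgetD (0, 0, 0) (pgetD [] (psnd (psnd (psnd (psnd hc)))) (pmod (pdiv hj (Primrec.const 4))
    (padd (pfst hc) (Primrec.const 1)))) (pmod ha (padd (pfst (psnd hc)) (Primrec.const 1)))
lemma p_mv {j a : α → ℕ} (hj : Primrec j) (ha : Primrec a) :
    Primrec fun p => (cst (c p) (j p) (a p)).2.2 := psnd (psnd (p_cst hc hj ha))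
lemma p_q {j a : α → ℕ} (hj : Primrec j) (ha : Primrec a) :
    Primrec fun p => (cst (c p) (j p) (a p)).1 := pfst (p_cst hc hj ha)
lemma p_s {j a : α → ℕ} (hj : Primrec j) (ha : Primrec a) :
    Primrec fun p => (cst (c p) (j p) (a p)).2.1 := pfst (psnd (p_cst hc hj ha))

lemma p_cnewj {j a : α → ℕ} (hj : Primrec j) (ha : Primrec a) :
    Primrec fun p => cnewj (c p) (j p) (a p) :=
  pile (p_cg hc) ha hj (pieq (p_mv hc hj ha) (Primrec.const 0)
    (padd (padd (pmul (Primrec.const 4) (p_q hc hj ha)) (Primrec.const 2))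
      (pmod hj (Primrec.const 2)))
    (padd (pmul (Primrec.const 4) (p_q hc hj ha)) (psub (p_mv hc hj ha) (Primrec.const 1))))

lemma p_cone {d : α → ℕ} (hd : Primrec d) : Primrec fun p => cone (c p) (d p) :=
  padd (padd (pmul (Primrec.const 2) (p_KK hc)) (pmul (Primrec.const 4) (pmul (p_cK hc) hd)))
    (pmul (Primrec.const 2) (p_cK hc))

lemma p_ctwo {d h : α → ℕ} (hd : Primrec d) (hh : Primrec h) :
    Primrec fun p => ctwo (c p) (d p) (h p) :=
  padd (padd (pmul (Primrec.const 2) (p_KK hc)) (pmul (Primrec.const 4) (pmul (p_cK hc) hd)))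
    (padd (p_cK hc) (padd (pmul (Primrec.const 2) hh) (Primrec.const 1)))

lemma p_hist {j a : α → ℕ} (hj : Primrec j) (ha : Primrec a) :
    Primrec fun p => cg (c p) + j p * cg (c p) + a p :=
  padd (padd (p_cg hc) (pmul hj (p_cg hc))) ha

lemma p_4KK : Primrec fun p => 4 * (cK (c p) * cK (c p)) := pmul (Primrec.const 4) (p_KK hc)

lemma p_cA (s : ℕ) {j a : α → ℕ} (hj : Primrec j) (ha : Primrec a) :
    Primrec fun p => cA (c p) s (j p) (a p) :=
  pile (p_cg hc) ha
    (pieq (Primrec.const s) (pmod hj (Primrec.const 2)) (p_4KK hc) (p_cone hc ha))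
    (pieq (p_mv hc hj ha) (Primrec.const 0)
      (pieq (Primrec.const s) (pmod hj (Primrec.const 2)) (p_cone hc (p_s hc hj ha))
        (p_cone hc (p_hist hc hj ha)))
      (pieq (Primrec.const s) (psub (p_mv hc hj ha) (Primrec.const 1)) (p_4KK hc)
        (p_ctwo hc (p_s hc hj ha) (p_hist hc hj ha))))

lemma p_2K : Primrec fun p => 2 * cK (c p) := pmul (Primrec.const 2) (p_cK hc)

lemma p_cP (s : ℕ) {j a : α → ℕ} (hj : Primrec j) (ha : Primrec a) :
    Primrec fun p => cP (c p) s (j p) (a p) :=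
  pile (p_cg hc) ha
    (pieq (Primrec.const s) (pmod hj (Primrec.const 2)) (Primrec.const 1) (p_2K hc))
    (pieq (p_mv hc hj ha) (Primrec.const 0) (p_2K hc)
      (pieq (Primrec.const s) (psub (p_mv hc hj ha) (Primrec.const 1)) (Primrec.const 1)
        (p_4KK hc)))

lemma p_cQ (s : ℕ) {j : α → ℕ} (hj : Primrec j) : Primrec fun p => cQ (c p) s (j p) :=
  pieq (Primrec.const s) (pmod hj (Primrec.const 2)) (p_2K hc) (Primrec.const 1)

lemma p_cC (s : ℕ) {j a : α → ℕ} (hj : Primrec j) (ha : Primrec a) :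
    Primrec fun p => cC (c p) s (j p) (a p) :=
  pieq (Primrec.const s) (pmod hj (Primrec.const 2)) (p_cone hc ha) (p_4KK hc)

lemma p_cpred {j b b2 : α → ℕ} (hj : Primrec j) (hb : Primrec b) (hb2 : Primrec b2) :
    Primrec fun p => cpred (c p) (j p) (b p) (b2 p) :=
  pieq (pmod (pdiv hj (Primrec.const 2)) (Primrec.const 2)) (Primrec.const 1)
    (padd (pmul (pdiv (psub hb (p_cg hc)) (p_cg hc)) (p_cK hc))
      (pmod (psub hb (p_cg hc)) (p_cg hc)))
    (pile (p_cg hc) hb (padd (pmul hj (p_cK hc)) hb)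
      (padd (pmul (pdiv (psub hb2 (p_cg hc)) (p_cg hc)) (p_cK hc))
        (pmod (psub hb2 (p_cg hc)) (p_cg hc))))

lemma p_cdet (s : ℕ) {i : α → ℕ} (hi : Primrec i) : Primrec fun p => cdet s (c p) (i p) := by
  have hj : Primrec fun p => i p / (2 * cK (c p)) := pdiv hi (p_2K hc)
  have hm : Primrec fun p => i p % (2 * cK (c p)) := pmod hi (p_2K hc)
  exact pieq (Primrec.const s) (pmod hj (Primrec.const 2))
    (pieq (p_chalt hc hj) (Primrec.const 1)
      ((pmul (Primrec.const 3) (p_cT hc)).pair ((padd (pmul (Primrec.const 2) hj)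
        (Primrec.const 1)).pair (psub (pmul (Primrec.const 4) (p_cT hc)) (Primrec.const 1))))
      ((padd (pmul hj (p_cK hc)) (psub hm (p_ch hc))).pair (hj.pair
        (psub (pmul (Primrec.const 2) (p_cT hc)) (Primrec.const 1)))))
    (Primrec.const (0, 0, 0))

lemma p_cprd (s : ℕ) {i : α → ℕ} (hi : Primrec i) : Primrec fun p => cprd s (c p) (i p) := by
  have hj : Primrec fun p => i p / (4 * (cK (c p) * cK (c p))) := pdiv hi (p_4KK hc)
  have hm : Primrec fun p => i p % (4 * (cK (c p) * cK (c p))) - cK (c p) * cK (c p) :=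
    psub (pmod hi (p_4KK hc)) (p_KK hc)
  exact pieq (Primrec.const s) (pmod hj (Primrec.const 2))
    (hj.pair ((p_cpred hc hj (pdiv hm (p_2K hc)) (psub (pmod hm (p_2K hc)) (p_ch hc))).pair
      (psub (pmul (Primrec.const 2) (p_cT hc)) (Primrec.const 1))))
    (Primrec.const (0, 0, 0))

lemma p_cN (r : ℕ) : Primrec fun p => cN r (c p) := by
  have h1 : Primrec fun p => 2 * cK (c p) * cT (c p) := pmul (p_2K hc) (p_cT hc)
  have h2 : Primrec fun p => 2 * cT (c p) := pmul (Primrec.const 2) (p_cT hc)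
  have h3 : Primrec fun p => 4 * (cK (c p) * cK (c p)) * cT (c p) := pmul (p_4KK hc) (p_cT hc)
  have h4 : Primrec fun p => cT (c p) := p_cT hc
  unfold cN
  split
  · exact h1
  · exact h1
  · exact h2
  · exact h2
  · exact h4
  · exact h2
  · exact h4
  · exact h4
  · exact h2
  · exact h4
  · exact h2
  · exact h2
  · exact h3
  · exact h3

lemma p_ca4 (s : ℕ) {i : α → ℕ} (hi : Primrec i) : Primrec fun p => ca4 s (c p) (i p) :=
  (p_4KK hc).pair ((p_cC hc s (pdiv hi (p_cK hc)) (pmod hi (p_cK hc))).pair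
    (psub (pmul (pmul (Primrec.const 16) (p_KK hc)) (p_cT hc)) (Primrec.const 1)))

lemma p_ca5 (s : ℕ) {i : α → ℕ} (hi : Primrec i) : Primrec fun p => ca5 s (c p) (i p) :=
  (p_cA hc s (pdiv hi (p_cK hc)) (pmod hi (p_cK hc))).pair
    ((p_cC hc s (pdiv hi (p_cK hc)) (pmod hi (p_cK hc))).pair
    (psub (pmul (pmul (Primrec.const 8) (p_KK hc)) (p_cT hc)) (Primrec.const 1)))

lemma p_cb5 (s : ℕ) {i : α → ℕ} (hi : Primrec i) : Primrec fun p => cb5 s (c p) (i p) :=
  (pmul (Primrec.const 2) (p_cQ hc s (pdiv hi (p_cK hc)))).pair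
    ((pmul (Primrec.const 2) (p_cP hc s (pdiv hi (p_cK hc)) (pmod hi (p_cK hc)))).pair
    (psub (p_cP hc s (pdiv hi (p_cK hc)) (pmod hi (p_cK hc))) (Primrec.const 1)))

lemma p_ca6 (s : ℕ) {i : α → ℕ} (hi : Primrec i) : Primrec fun p => ca6 s (c p) (i p) :=
  (pmul (p_cA hc s (pdiv hi (p_cK hc)) (pmod hi (p_cK hc)))
    (p_cP hc s (pdiv hi (p_cK hc)) (pmod hi (p_cK hc)))).pair
    ((pmul (p_4KK hc) (p_cP hc s (pdiv hi (p_cK hc)) (pmod hi (p_cK hc)))).pair
    (psub (pmul (pmul (pmul (Primrec.const 16) (p_KK hc)) (p_cQ hc s (pdiv hi (p_cK hc))))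
      (p_cT hc)) (Primrec.const 1)))

lemma p_cb6 (s : ℕ) {i : α → ℕ} (hi : Primrec i) : Primrec fun p => cb6 s (c p) (i p) :=
  (Primrec.const 0).pair ((p_cP hc s (pdiv hi (p_cK hc)) (pmod hi (p_cK hc))).pair
    (psub (pmul (Primrec.const 2) (p_cQ hc s (pdiv hi (p_cK hc)))) (Primrec.const 1)))

lemma p_ca (r : ℕ) {i : α → ℕ} (hi : Primrec i) : Primrec fun p => ca r (c p) (i p) := by
  have hT1 : Primrec fun p => cT (c p) - 1 := psub (p_cT hc) (Primrec.const 1)
  have h2 : Primrec fun p => ((i p, i p / cK (c p), cT (c p) - 1) : QCode) :=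
    hi.pair ((pdiv hi (p_cK hc)).pair hT1)
  have h10 : Primrec fun p =>
      ((cnewj (c p) (i p / cK (c p)) (i p % cK (c p)), i p, cT (c p) - 1) : QCode) :=
    (p_cnewj hc (pdiv hi (p_cK hc)) (pmod hi (p_cK hc))).pair (hi.pair hT1)
  have a1 := p_cdet hc 1 hi
  have a2 := p_cdet hc 0 hi
  have a3 := p_ca4 hc 0 hi
  have a4 := p_ca4 hc 1 hi
  have a5 := p_ca5 hc 0 hi
  have a6 := p_ca5 hc 1 hi
  have a7 := p_ca6 hc 0 hi
  have a8 := p_ca6 hc 1 hi
  have a9 := p_cprd hc 1 hi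
  have a10 := p_cprd hc 0 hi
  unfold ca
  split <;> assumption

lemma p_cb (r : ℕ) {i : α → ℕ} (hi : Primrec i) : Primrec fun p => cb r (c p) (i p) := by
  have h1 : Primrec fun _ : α => ((1, 0, 1) : QCode) := Primrec.const _
  have h0 : Primrec fun _ : α => ((0, 0, 0) : QCode) := Primrec.const _
  have a5 := p_cb5 hc 0 hi
  have a6 := p_cb5 hc 1 hi
  have a7 := p_cb6 hc 0 hi
  have a8 := p_cb6 hc 1 hi
  unfold cb
  split <;> assumption

end

section
variable {α : Type} [Primcodable α]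

lemma p_qs {m : α → ℕ} {q : α → QCode} (hm : Primrec m) (hq : Primrec q) :
    Primrec fun p => qs (m p) (q p) :=
  (pmul hm (pfst hq)).pair ((pmul hm (pfst (psnd hq))).pair (psnd (psnd hq)))

lemma p_qn {m : α → ℕ} {q : α → QCode} (hm : Primrec m) (hq : Primrec q) :
    Primrec fun p => qn (m p) (q p) :=
  (pmul hm (pfst (psnd hq))).pair ((pmul hm (pfst hq)).pair (psnd (psnd hq)))

lemma p_cwA {N i : α → ℕ} {a b : α → QCode} (hN : Primrec N) (ha : Primrec a) (hb : Primrec b)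
    (hi : Primrec i) : Primrec fun p => cwA (N p) (a p) (b p) (i p) := by
  have h1 : Primrec fun p => ((b p).2.2 + 1) * (2 * N p) :=
    pmul (padd (psnd (psnd hb)) (Primrec.const 1)) (pmul (Primrec.const 2) hN)
  have h2 : Primrec fun p => (2 * i p + 1) * ((a p).2.2 + 1) :=
    pmul (padd (pmul (Primrec.const 2) hi) (Primrec.const 1))
      (padd (psnd (psnd ha)) (Primrec.const 1))
  exact (padd (pmul (pfst ha) h1) (pmul (pfst (psnd hb)) h2)).pair
    ((padd (pmul (pfst (psnd ha)) h1) (pmul (pfst hb) h2)).pair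
    (psub (pmul (padd (psnd (psnd ha)) (Primrec.const 1)) h1) (Primrec.const 1)))

lemma p_cterm (k : Fin 3) (m : ℕ) {q : α → QCode} {tb g : α → BCode} (hq : Primrec q)
    (htb : Primrec tb) (hg : Primrec g) : Primrec fun p => cterm k (q p) m (tb p) (g p) := by
  have hnil : Primrec fun _ : α => ([] : List BCode) := Primrec.const []
  have hg1 : Primrec fun p => [g p] := pcons hg hnil
  have hh : ∀ i : Fin 3, Primrec fun p => if i = k then [g p] else [] := by
    intro i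
    by_cases h : i = k
    · simp only [if_pos h]; exact hg1
    · simp only [if_neg h]; exact hnil
  exact hq.pair ((Primrec.const m).pair ((Primrec.const (0, 2)).pair ((Primrec.const []).pair
    (pcons hnil (pcons (pcons htb hnil) (pcons (hh 0) (pcons (hh 1) (pcons (hh 2)
      (Primrec.const [])))))))))

lemma p_cR (k j : ℕ) {n b : α → ℕ} (hn : Primrec n) (hb : Primrec b) :
    Primrec fun p => cR k j (n p) (b p) :=
  (Primrec.const true).pair ((Primrec.const k).pair ((Primrec.const j).pair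
    ((hn.pair (Primrec.const (0, 0))).pair ((hb.pair (Primrec.const (0, 0))).pair
      (Primrec.const (0, 0, 0))))))

lemma p_cB (k : ℕ) {n b : α → ℕ} (hn : Primrec n) (hb : Primrec b) :
    Primrec fun p => cB k (n p) (b p) :=
  (Primrec.const false).pair ((Primrec.const k).pair ((Primrec.const 0).pair
    ((hn.pair (Primrec.const (0, 0))).pair ((hb.pair (Primrec.const (0, 0))).pair
      (Primrec.const (12, 0, 0))))))

lemma p_cwin (r : ℕ) {N i : α → ℕ} {a b : α → QCode} (hN : Primrec N) (ha : Primrec a)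
    (hb : Primrec b) (hi : Primrec i) : Primrec fun p => cwin r (N p) (a p) (b p) (i p) := by
  have hA := p_cwA hN ha hb hi
  have h16 : Primrec fun p => 16 * N p := pmul (Primrec.const 16) hN
  have hsq : Primrec fun p => 64 * (16 * N p * (16 * N p)) :=
    pmul (Primrec.const 64) (pmul h16 h16)
  have h128 : Primrec fun p => 128 * (16 * N p) := pmul (Primrec.const 128) h16
  have hb0 : Primrec fun p => 16 * i p + 2 := padd (pmul (Primrec.const 16) hi) (Primrec.const 2)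
  have hb12 : Primrec fun p => 16 * i p + 2 + 12 := padd hb0 (Primrec.const 12)
  have t1 : Primrec fun _ : α => cR 0 1 64 (4 * r + 6) := Primrec.const _
  have t0 : Primrec fun _ : α => cR 0 0 64 (4 * r + 6) := Primrec.const _
  have h4096 : Primrec fun _ : α => 4096 := Primrec.const _
  exact pcons (p_cterm _ _ (p_qs h4096 hA) t1 (p_cB _ h16 hb0))
    (pcons (p_cterm _ _ (p_qs h4096 hb) t1 (p_cB _ h16 hb0))
    (pcons (p_cterm _ _ (p_qn hsq hA) t0 (p_cR _ _ h16 hb0))
    (pcons (p_cterm _ _ (p_qs hsq hA) t0 (p_cR _ _ h16 hb12))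
    (pcons (p_cterm _ _ (p_qn h128 hb) t0 (p_cR _ _ h16 hb0))
    (pcons (p_cterm _ _ (p_qs h128 hb) t0 (p_cR _ _ h16 hb12))
    (pcons (p_cterm _ _ (p_qn hsq hb) t0 (p_cR _ _ h16 hb0))
    (pcons (p_cterm _ _ (p_qs hsq hb) t0 (p_cR _ _ h16 hb12)) (Primrec.const []))))))))

lemma p_cenc {c : α → MCode} {w : α → List ℕ} (hc : Primrec c) (hw : Primrec w) :
    Primrec fun p => cenc (c p) (w p) := by
  have h0 : Primrec fun p => ((cK (c p), 2 * (2 * cK (c p) - 1) - 1) : ℕ × ℕ) :=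
    (p_cK hc).pair (psub (pmul (Primrec.const 2) (psub (p_2K hc) (Primrec.const 1)))
      (Primrec.const 1))
  have hc' : Primrec fun x : α × (ℕ × (ℕ × ℕ)) => c x.1 := hc.comp Primrec.fst
  have hd : Primrec fun x : α × (ℕ × (ℕ × ℕ)) => x.2.1 := pfst Primrec.snd
  have hv1 : Primrec fun x : α × (ℕ × (ℕ × ℕ)) => x.2.2.1 := pfst (psnd Primrec.snd)
  have hv2 : Primrec fun x : α × (ℕ × (ℕ × ℕ)) => x.2.2.2 + 1 :=
    padd (psnd (psnd Primrec.snd)) (Primrec.const 1)
  have hstep : Primrec₂ fun (p : α) (x : ℕ × (ℕ × ℕ)) =>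
      ((2 * cK (c p) * (x.2.2 + 1) + 4 * (x.1 * (x.2.2 + 1) + x.2.1),
        8 * cK (c p) * (x.2.2 + 1) - 1) : ℕ × ℕ) :=
    (padd (pmul (p_2K hc') hv2) (pmul (Primrec.const 4) (padd (pmul hd hv2) hv1))).pair
      (psub (pmul (pmul (Primrec.const 8) (p_cK hc')) hv2) (Primrec.const 1))
  exact Primrec.list_foldr hw h0 hstep

lemma p_cV (l : Fin 3) : Primrec (cV l) := by
  have hc : Primrec fun x : MCode × List ℕ => x.1 := Primrec.fst
  have hw : Primrec fun x : MCode × List ℕ => x.2 := Primrec.snd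
  have hj : Primrec fun x : MCode × List ℕ => cj0 x.1 :=
    padd (pmul (Primrec.const 4) (pfst (psnd (psnd hc)))) (Primrec.const 1)
  have hen := p_cenc hc (Primrec.const ([] : List ℕ))
  have hew := p_cenc hc hw
  have h0 : Primrec fun x : MCode × List ℕ => ((cj0 x.1 * ((cenc x.1 []).2 + 1) + (cenc x.1 []).1, 0,
      ((cenc x.1 []).2 + 1) * cT x.1 - 1) : QCode) :=
    (padd (pmul hj (padd (psnd hen) (Primrec.const 1))) (pfst hen)).pair ((Primrec.const 0).pair
      (psub (pmul (padd (psnd hen) (Primrec.const 1)) (p_cT hc)) (Primrec.const 1)))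
  have h1 : Primrec fun x : MCode × List ℕ =>
      ((cj0 x.1 * ((cenc x.1 x.2).2 + 1) + (cenc x.1 x.2).1, 0,
      ((cenc x.1 x.2).2 + 1) * cT x.1 - 1) : QCode) :=
    (padd (pmul hj (padd (psnd hew) (Primrec.const 1))) (pfst hew)).pair ((Primrec.const 0).pair
      (psub (pmul (padd (psnd hew) (Primrec.const 1)) (p_cT hc)) (Primrec.const 1)))
  have h2 : Primrec fun x : MCode × List ℕ => ((2 * cj0 x.1 + 1, 0, 4 * cT x.1 - 1) : QCode) :=
    (padd (pmul (Primrec.const 2) hj) (Primrec.const 1)).pair ((Primrec.const 0).pair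
      (psub (pmul (Primrec.const 4) (p_cT hc)) (Primrec.const 1)))
  fin_cases l
  · exact h0
  · exact h1
  · exact h2

lemma p_cinit {q : α → QCode} (hq : Primrec q) : Primrec fun p => cinit (q p) :=
  (p_qs (Primrec.const 4096) hq).pair (Primrec.const
    ((0, (0, 1), [], [[cR 0 1 64 2]]) : ℕ × (ℕ × ℕ) × List QCode × List (List BCode)))

lemma p_cG (r : ℕ) : Primrec (cG r) := by
  have hc : Primrec fun x : MCode × ℕ => x.1 := Primrec.fst
  have hi : Primrec fun x : MCode × ℕ => x.2 := Primrec.snd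
  have h1 : Primrec₂ fun (c : MCode) (i : ℕ) => cwin r (cN r c) (ca r c i) (cb r c i) i :=
    p_cwin r (p_cN hc r) (p_ca hc r hi) (p_cb hc r hi) hi
  exact Primrec.list_flatMap (Primrec.list_range.comp (p_cN Primrec.id r)) h1

theorem p_cF (l : Fin 3) : Primrec (cF l) := by
  have h1 : Primrec fun x : MCode × List ℕ =>
      (List.range 14).flatMap fun r => if lr r = l then cG r x.1 else [] := by
    apply pflat (List.range 14) (fun r (x : MCode × List ℕ) => if lr r = l then cG r x.1 else [])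
    intro r
    by_cases h : lr r = l
    · simp only [if_pos h]
      exact (p_cG r).comp Primrec.fst
    · simp only [if_neg h]
      exact Primrec.const []
  exact Primrec.list_append.comp h1 (pcons (p_cinit (p_cV l)) (Primrec.const []))

end

end Vale.Agent.P113
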