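import Vale.Agent.P113.Code
import Vale.Agent.P113.Chain

namespace Vale.Agent.P113

lemma qdec_pred {p n D : ℕ} (hD : 1 ≤ D) : qdec (p, n, D - 1) = ((p : ℚ) - n) / D := by
  have h : (((D - 1 : ℕ) : ℚ) + 1) = D := by exact_mod_cast Nat.sub_add_cancel hD
  unfold qdec
  simp only
  rw [h]

lemma qdec_nat (n : ℕ) : qdec (n, 0, 0) = n := by
  unfold qdec
  simp

lemma qdec_qs (m : ℕ) (q : QCode) : qdec (qs m q) = m * qdec q := by
  unfold qdec qs
  push_cast
  ring

lemma qdec_qn (m : ℕ) (q : QCode) : qdec (qn m q) = -m * qdec q := by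
  unfold qdec qn
  push_cast
  ring

lemma qdec_cwA {N : ℕ} (hN : 1 ≤ N) (a b : QCode) (i : ℕ) :
    qdec (cwA N a b i) = qdec a - qdec b * ((i + 1 / 2) / N) := by
  obtain ⟨p, n, d⟩ := a
  obtain ⟨p', n', d'⟩ := b
  unfold cwA
  simp only
  rw [qdec_pred (by
    have : 0 < (d + 1) * ((d' + 1) * (2 * N)) := by positivity
    omega)]
  unfold qdec
  have hN' : (N : ℚ) ≠ 0 := by
    have : (1 : ℚ) ≤ N := by exact_mod_cast hN
    intro h
    rw [h] at this
    norm_num at this
  have hd : (d : ℚ) + 1 ≠ 0 := by positivity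
  have hd' : (d' : ℚ) + 1 ≠ 0 := by positivity
  simp only
  push_cast
  field_simp
  ring

lemma tdec_cterm (k : Fin 3) (q : QCode) (m : ℕ) (tb g : BCode) :
    tdec (cterm k q m tb g) = mkT k (qdec q) m (bdec tb) (bdec g) := by
  unfold tdec cterm mkT
  simp only [List.getD_cons_zero, List.getD_cons_succ, List.map_nil, List.map_cons]
  congr 1
  funext i
  fin_cases i
  · simp only [Fin.zero_eta, Matrix.cons_val_zero]
    split_ifs <;> simp
  · simp only [Fin.mk_one, Matrix.cons_val_one, Matrix.cons_val_zero]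
    split_ifs <;> simp
  · show List.map bdec (if 2 = k then [g] else []) = if 2 = k then [bdec g] else []
    split_ifs <;> simp

lemma bdec_cR (k j n b : ℕ) : bdec (cR k j n b) = .rho k j n b := by
  unfold bdec cR
  simp [qdec_nat]

lemma bdec_cB (k n b : ℕ) : bdec (cB k n b) = .plat k n b 12 := by
  unfold bdec cB
  simp [qdec_nat]

lemma bdec_cB12 (k n b : ℕ) : bdec (cB k n b) = .plat k n b 12 := bdec_cB k n b

lemma cwin_dec {r : ℕ} {s : Shear} {a b : QCode} {i : ℕ} (hk : s.k = kr r) (hN : 1 ≤ s.N)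
    (ha : qdec a = s.a i) (hb : qdec b = s.b i) :
    (cwin r s.N a b i).map tdec = winTerms r s i := by
  have hA : qdec (cwA s.N a b i) = winA s i := by
    rw [qdec_cwA hN, ha, hb]
    rfl
  unfold cwin winTerms
  simp only [List.map_cons, List.map_nil, tdec_cterm, bdec_cR, bdec_cB, qdec_qs, qdec_qn, hA, hb,
    hk, BT, B0, B1]
  push_cast
  congr 1
  congr 1
  congr 1
  · congr 1; ring
  congr 1
  · congr 1; ring
  congr 1
  · congr 1; ring
  congr 1
  · congr 1; ring
  congr 1
  · congr 1; ring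
  congr 1
  congr 1; ring

lemma tdec_cinit (q : QCode) : tdec (cinit q) = initTerm (qdec q) := by
  unfold tdec cinit initTerm
  simp only [List.getD_cons_zero, List.getD_cons_succ, List.map_nil, List.map_cons, bdec_cR,
    qdec_qs, BI]
  congr 1
  funext i
  fin_cases i <;> rfl

/-! ### Machine codes -/

lemma getD_ofFn {β : Type} {n : ℕ} (f : Fin n → β) {k : ℕ} (h : k < n) (d : β) :
    (List.ofFn f).getD k d = f ⟨k, h⟩ := by
  simp [List.getD, h]

namespace Machine
variable (M : Machine)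

lemma code_g : cg M.code = M.g := rfl
lemma code_J : cJ M.code = M.J := rfl
lemma code_h : ch M.code = M.half := rfl
lemma code_K : cK M.code = M.K := rfl
lemma code_T : cT M.code = M.T := rfl

lemma code_halt (j : ℕ) : chalt M.code j = if M.haltN j then 1 else 0 := by
  unfold chalt code haltN
  simp only
  rw [getD_ofFn _ (Nat.mod_lt _ (Nat.succ_pos _))]
  rfl

lemma code_st (j a : ℕ) : cst M.code j a =
    (((M.step (Fin.ofNat (M.nS + 1) (j / 4)) (Fin.ofNat (M.nA + 1) a)).1 : ℕ),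
     ((M.step (Fin.ofNat (M.nS + 1) (j / 4)) (Fin.ofNat (M.nA + 1) a)).2.1 : ℕ),
     mvCode (M.step (Fin.ofNat (M.nS + 1) (j / 4)) (Fin.ofNat (M.nA + 1) a)).2.2) := by
  unfold cst code
  simp only
  rw [getD_ofFn _ (Nat.mod_lt _ (Nat.succ_pos _)), getD_ofFn _ (Nat.mod_lt _ (Nat.succ_pos _))]
  rfl

lemma dir_iff (s : Bool) (j : ℕ) : s.toNat = j % 2 ↔ s = dirOf j := by
  have h := Nat.mod_two_eq_zero_or_one j
  unfold dirOf
  rcases h with h | h <;> cases s <;> simp [h]

lemma dir_toNat (j : ℕ) : (dirOf j).toNat = j % 2 := (dir_iff (dirOf j) j).2 rfl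

lemma one_val (d : ℕ) : encP M.K [d] = (cone M.code d : ℚ) / (8 * (M.K : ℚ) ^ 2) := by
  have hK := M.KQ_pos
  unfold cone
  rw [code_K]
  simp only [encP]
  push_cast
  field_simp
  ring

lemma nil_val : encP M.K [] = ((4 * (cK M.code * cK M.code) : ℕ) : ℚ) / (8 * (M.K : ℚ) ^ 2) := by
  have hK := M.KQ_pos
  rw [code_K]
  simp only [encP]
  push_cast
  field_simp
  ring

lemma two_val (d h : ℕ) : encP M.K [d, h] = (ctwo M.code d h : ℚ) / (8 * (M.K : ℚ) ^ 2) := by
  have hK := M.KQ_pos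
  unfold ctwo
  rw [code_K]
  simp only [encP]
  push_cast
  field_simp
  ring

lemma act_code (s : Bool) (j a : ℕ) :
    (M.act j a).1 = cnewj M.code j a ∧
    encP M.K ((M.act j a).2 s) = (cA M.code s.toNat j a : ℚ) / (8 * (M.K : ℚ) ^ 2) ∧
    (2 * (M.K : ℚ)) ^ ((M.act j a).2 s).length = (cP M.code s.toNat j a : ℚ) := by
  unfold act cnewj cA cP
  rw [code_g, code_st]
  by_cases ha : M.g ≤ a
  · simp only [if_pos ha]
    by_cases hs : s = dirOf j
    · rw [if_pos hs, if_pos ((dir_iff s j).2 hs), if_pos ((dir_iff s j).2 hs)]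
      refine ⟨trivial, M.nil_val, by simp⟩
    · have hs' : ¬ s.toNat = j % 2 := fun h => hs ((dir_iff s j).1 h)
      rw [if_neg hs, if_neg hs', if_neg hs']
      refine ⟨trivial, M.one_val a, ?_⟩
      rw [code_K]
      simp
  · simp only [if_neg ha]
    obtain ⟨⟨q, t, mv⟩, hr⟩ : ∃ r, M.step (Fin.ofNat (M.nS + 1) (j / 4))
      (Fin.ofNat (M.nA + 1) a) = r := ⟨_, rfl⟩
    rw [hr]
    cases mv with
    | none =>
      simp only [mvCode, if_true]
      by_cases hs : s = dirOf j
      · rw [if_pos hs, if_pos ((dir_iff s j).2 hs)]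
        refine ⟨by rw [dir_toNat], M.one_val _, ?_⟩
        rw [code_K]
        simp
      · have hs' : ¬ s.toNat = j % 2 := fun h => hs ((dir_iff s j).1 h)
        rw [if_neg hs, if_neg hs']
        refine ⟨by rw [dir_toNat], M.one_val _, ?_⟩
        rw [code_K]
        simp
    | some d =>
      have hmv : mvCode (some d) = d.toNat + 1 := by cases d <;> rfl
      simp only [hmv]
      rw [if_neg (Nat.succ_ne_zero _), if_neg (Nat.succ_ne_zero _), if_neg (Nat.succ_ne_zero _),
        Nat.add_sub_cancel]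
      by_cases hs : s = d
      · rw [if_pos hs, hs, if_pos rfl, if_pos rfl]
        refine ⟨rfl, M.nil_val, by simp⟩
      · have hs' : ¬ s.toNat = d.toNat := by
          revert hs
          cases s <;> cases d <;> simp
        rw [if_neg hs, if_neg hs', if_neg hs']
        refine ⟨rfl, M.two_val _ _, ?_⟩
        rw [code_K]
        simp only [List.length_cons, List.length_nil]
        push_cast
        ring

lemma Q_code (s : Bool) (j : ℕ) :
    (if dirOf j = s then 2 * (M.K : ℚ) else 1) = (cQ M.code s.toNat j : ℚ) := by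
  unfold cQ
  rw [code_K]
  by_cases hs : s = dirOf j
  · rw [if_pos hs.symm, if_pos ((dir_iff s j).2 hs)]
    push_cast; ring
  · have hs' : ¬ s.toNat = j % 2 := fun h => hs ((dir_iff s j).1 h)
    rw [if_neg (fun h => hs h.symm), if_neg hs']
    simp

lemma C_code (s : Bool) (τ : ℕ) :
    M.Cc s τ = (cC M.code s.toNat (τ / M.K) (τ % M.K) : ℚ) / (8 * (M.K : ℚ) ^ 2) := by
  have hK := M.KQ_pos
  unfold Cc cC
  by_cases hs : s = dirOf (τ / M.K)
  · rw [if_pos hs.symm, if_pos ((dir_iff s _).2 hs), ← one_val]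
    simp only [encP]
  · have hs' : ¬ s.toNat = τ / M.K % 2 := fun h => hs ((dir_iff s _).1 h)
    rw [if_neg (fun h => hs h.symm), if_neg hs', ← nil_val]
    rfl

lemma P_pos (s : Bool) (j a : ℕ) : 1 ≤ cP M.code s.toNat j a := by
  have hK := M.K_pos
  have h2 : 1 ≤ 4 * (cK M.code * cK M.code) := by
    rw [code_K]
    nlinarith
  unfold cP
  rw [code_K] at h2 ⊢
  split_ifs <;> omega

lemma Q_pos (s : Bool) (j : ℕ) : 1 ≤ cQ M.code s.toNat j := by
  have hK := M.K_pos
  unfold cQ
  rw [code_K]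
  split_ifs <;> omega

lemma det_code (s : Bool) (i : ℕ) : qdec (cdet s.toNat M.code i) = M.det s i := by
  have hT := M.T_pos
  unfold cdet det
  rw [code_K, code_T, code_h, code_halt]
  by_cases hs : s = dirOf (i / (2 * M.K))
  · rw [if_pos hs.symm, if_pos ((dir_iff s _).2 hs)]
    by_cases hh : M.haltN (i / (2 * M.K)) = true
    · rw [if_pos hh, if_pos hh, if_pos rfl, qdec_pred (by omega)]
      have hTQ := M.TQ_pos
      push_cast
      field_simp
      ring
    · rw [if_neg hh, if_neg hh, if_neg (by norm_num), qdec_pred (by omega)]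
      push_cast
      rfl
  · have hs' : ¬ s.toNat = i / (2 * M.K) % 2 := fun h => hs ((dir_iff s _).1 h)
    rw [if_neg hs', if_neg (fun h => hs h.symm)]
    unfold qdec
    simp

lemma pred_code (j b b2 : ℕ) : cpred M.code j b b2 = M.pred j b b2 := by
  unfold cpred pred flagOf
  rw [code_K, code_g]
  by_cases h : j / 2 % 2 = 1
  · rw [if_pos h, if_pos (by simp [h])]
  · have h' : ¬ ((j / 2 % 2 == 1) = true) := by simp [h]
    rw [if_neg h, if_neg h']

lemma prd_code (s : Bool) (i : ℕ) : qdec (cprd s.toNat M.code i) = M.prd s i := by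
  have hT := M.T_pos
  unfold cprd prd
  rw [code_K, code_T, code_h, ← pow_two]
  by_cases hs : s = dirOf (i / (4 * M.K ^ 2))
  · rw [if_pos hs.symm, if_pos ((dir_iff s _).2 hs), qdec_pred (by omega), pred_code]
    push_cast
    rfl
  · have hs' : ¬ s.toNat = i / (4 * M.K ^ 2) % 2 := fun h => hs ((dir_iff s _).1 h)
    rw [if_neg hs', if_neg (fun h => hs h.symm)]
    unfold qdec
    simp

lemma a4_code (s : Bool) (τ : ℕ) :
    qdec (ca4 s.toNat M.code τ) = (1 / 2 - M.Cc s τ) / (2 * M.T) := by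
  have hT := M.T_pos
  have hK := M.K_pos
  have hKQ := M.KQ_pos
  have hTQ := M.TQ_pos
  unfold ca4
  rw [C_code, qdec_pred (by
    rw [code_K, code_T]
    have : 0 < 16 * (M.K * M.K) * M.T := by positivity
    omega), code_K, code_T]
  push_cast
  field_simp
  ring

lemma a5_code (s : Bool) (τ : ℕ) :
    qdec (ca5 s.toNat M.code τ) = (M.Aa s τ - M.Cc s τ) / M.T := by
  have hT := M.T_pos
  have hK := M.K_pos
  have hKQ := M.KQ_pos
  have hTQ := M.TQ_pos
  unfold ca5 Aa pushes
  rw [C_code, (M.act_code s _ _).2.1, qdec_pred (by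
    rw [code_K, code_T]
    have : 0 < 8 * (M.K * M.K) * M.T := by positivity
    omega), code_K, code_T]
  push_cast
  field_simp

lemma lam_code (s : Bool) (τ : ℕ) : M.lam s τ =
    (cQ M.code s.toNat (τ / M.K) : ℚ) / cP M.code s.toNat (τ / M.K) (τ % M.K) := by
  unfold lam pushes
  rw [(M.act_code s _ _).2.2, Q_code]

lemma b5_code (s : Bool) (τ : ℕ) :
    qdec (cb5 s.toNat M.code τ) = 2 * (M.lam s τ - 1) := by
  have hP := M.P_pos s (τ / M.K) (τ % M.K)
  have hPQ : (0 : ℚ) < cP M.code s.toNat (τ / M.K) (τ % M.K) := by exact_mod_cast hP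
  unfold cb5
  rw [lam_code, code_K, qdec_pred hP]
  push_cast
  field_simp

lemma a6_code (s : Bool) (τ : ℕ) : qdec (ca6 s.toNat M.code τ)
    = -(1 / 2 - M.Aa s τ) / (2 * M.lam s τ * M.T) := by
  have hT := M.T_pos
  have hK := M.K_pos
  have hKQ := M.KQ_pos
  have hTQ := M.TQ_pos
  have hP := M.P_pos s (τ / M.K) (τ % M.K)
  have hPQ : (0 : ℚ) < cP M.code s.toNat (τ / M.K) (τ % M.K) := by exact_mod_cast hP
  have hQ := M.Q_pos s (τ / M.K)
  have hQQ : (0 : ℚ) < cQ M.code s.toNat (τ / M.K) := by exact_mod_cast hQ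
  unfold ca6
  rw [lam_code]
  unfold Aa pushes
  rw [(M.act_code s _ _).2.1, code_K, code_T, qdec_pred (by
    have : 0 < 16 * (M.K * M.K) * cQ M.code s.toNat (τ / M.K) * M.T := by positivity
    omega)]
  push_cast
  field_simp
  ring

lemma b6_code (s : Bool) (τ : ℕ) : qdec (cb6 s.toNat M.code τ) = -1 / (2 * M.lam s τ) := by
  have hP := M.P_pos s (τ / M.K) (τ % M.K)
  have hPQ : (0 : ℚ) < cP M.code s.toNat (τ / M.K) (τ % M.K) := by exact_mod_cast hP
  have hQ := M.Q_pos s (τ / M.K)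
  have hQQ : (0 : ℚ) < cQ M.code s.toNat (τ / M.K) := by exact_mod_cast hQ
  unfold cb6
  rw [lam_code, code_K, qdec_pred (by omega)]
  push_cast
  field_simp
  ring

lemma qz : qdec (0, 0, 0) = 0 := by simp [qdec]

lemma shear_code {r : ℕ} (hr : r < 14) (i : ℕ) :
    (M.shear r).k = kr r ∧ (M.shear r).l = lr r ∧ cN r M.code = (M.shear r).N ∧
    1 ≤ (M.shear r).N ∧ qdec (ca r M.code i) = (M.shear r).a i ∧
    qdec (cb r M.code i) = (M.shear r).b i := by
  have hT := M.T_pos
  have hK := M.K_pos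
  have h1 : 1 ≤ 2 * M.K * M.T := by
    have : 0 < 2 * M.K * M.T := by positivity
    omega
  have h2 : 1 ≤ 4 * M.K ^ 2 * M.T := by
    have : 0 < 4 * M.K ^ 2 * M.T := by positivity
    omega
  have h3 : cN 12 M.code = 4 * M.K ^ 2 * M.T := by
    show 4 * (cK M.code * cK M.code) * cT M.code = _
    rw [code_K, code_T, pow_two]
  have hhalf : qdec (1, 0, 1) = 1 / 2 := by
    unfold qdec
    norm_num
  have hshift : qdec (i, i / cK M.code, cT M.code - 1)
      = ((i : ℚ) - ((i / M.K : ℕ) : ℚ)) / M.T := by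
    rw [code_K, code_T, qdec_pred hT]
  have hnew : qdec (cnewj M.code (i / cK M.code) (i % cK M.code), i, cT M.code - 1)
      = ((M.newj i : ℚ) - (i : ℚ)) / M.T := by
    unfold newj
    rw [(M.act_code true _ _).1, code_K, code_T, qdec_pred hT]
  interval_cases r
  · exact ⟨rfl, rfl, rfl, h1, M.det_code true i, qz⟩
  · exact ⟨rfl, rfl, rfl, h1, M.det_code false i, qz⟩
  · exact ⟨rfl, rfl, rfl, by show 1 ≤ 2 * M.T; omega, hshift, qz⟩
  · exact ⟨rfl, rfl, rfl, by show 1 ≤ 2 * M.T; omega, hshift, qz⟩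
  · exact ⟨rfl, rfl, rfl, hT, M.a4_code false i, hhalf⟩
  · exact ⟨rfl, rfl, rfl, by show 1 ≤ 2 * M.T; omega, M.a5_code false i, M.b5_code false i⟩
  · exact ⟨rfl, rfl, rfl, hT, M.a6_code false i, M.b6_code false i⟩
  · exact ⟨rfl, rfl, rfl, hT, M.a4_code true i, hhalf⟩
  · exact ⟨rfl, rfl, rfl, by show 1 ≤ 2 * M.T; omega, M.a5_code true i, M.b5_code true i⟩
  · exact ⟨rfl, rfl, rfl, hT, M.a6_code true i, M.b6_code true i⟩
  · exact ⟨rfl, rfl, rfl, by show 1 ≤ 2 * M.T; omega, hnew, qz⟩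
  · exact ⟨rfl, rfl, rfl, by show 1 ≤ 2 * M.T; omega, hnew, qz⟩
  · exact ⟨rfl, rfl, h3, h2, M.prd_code true i, qz⟩
  · exact ⟨rfl, rfl, h3, h2, M.prd_code false i, qz⟩

lemma enc_code (l : List ℕ) :
    ((cenc M.code l).1 : ℚ) / ((cenc M.code l).2 + 1) = enc M.K l := by
  have hK := M.K_pos
  have hKQ := M.KQ_pos
  induction l with
  | nil =>
    simp only [cenc, List.foldr_nil, enc]
    rw [code_K]
    have h1 : ((2 * (2 * M.K - 1) - 1 : ℕ) : ℚ) + 1 = 2 * (2 * M.K - 1) := by
      have h2 : 2 * (2 * M.K - 1) - 1 + 1 = 2 * (2 * M.K - 1) := Nat.sub_add_cancel (by omega)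
      have h3 : ((2 * M.K - 1 : ℕ) : ℚ) = 2 * M.K - 1 := by
        rw [Nat.cast_sub (by omega)]
        push_cast
        ring
      have h4 : (((2 * (2 * M.K - 1) - 1 + 1 : ℕ)) : ℚ) = ((2 * (2 * M.K - 1) : ℕ) : ℚ) := by
        rw [h2]
      push_cast at h4
      rw [h3] at h4
      exact h4
    rw [h1]
  | cons d l ih =>
    have hv : cenc M.code (d :: l) = (2 * cK M.code * ((cenc M.code l).2 + 1)
        + 4 * (d * ((cenc M.code l).2 + 1) + (cenc M.code l).1),
        8 * cK M.code * ((cenc M.code l).2 + 1) - 1) := rfl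
    rw [hv, code_K]
    simp only [enc]
    rw [← ih]
    have hpos : (0 : ℚ) < (cenc M.code l).2 + 1 := by positivity
    have h1 : ((8 * M.K * ((cenc M.code l).2 + 1) - 1 : ℕ) : ℚ) + 1
        = 8 * M.K * ((cenc M.code l).2 + 1) := by
      have h2 : 0 < 8 * M.K * ((cenc M.code l).2 + 1) := by positivity
      have h3 : 8 * M.K * ((cenc M.code l).2 + 1) - 1 + 1 = 8 * M.K * ((cenc M.code l).2 + 1) :=
        Nat.sub_add_cancel h2
      exact_mod_cast h3
    rw [h1]
    push_cast
    field_simp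
    ring

lemma V_code (w : List (Fin (M.nA + 1))) (l : Fin 3) :
    qdec (cV l (M.code, w.map Fin.val)) = M.start0 w l := by
  have hT := M.T_pos
  have hTQ := M.TQ_pos
  have hj : ((M.conf0 w).j : ℚ) = (cj0 M.code : ℕ) := rfl
  have hgen : ∀ u : List ℕ, qdec (cj0 M.code * ((cenc M.code u).2 + 1) + (cenc M.code u).1, 0,
      ((cenc M.code u).2 + 1) * cT M.code - 1) = ((cj0 M.code : ℕ) + enc M.K u) / M.T := by
    intro u
    rw [code_T, qdec_pred (by
      have : 0 < ((cenc M.code u).2 + 1) * M.T := by positivity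
      omega), ← enc_code]
    have hpos : (0 : ℚ) < (cenc M.code u).2 + 1 := by positivity
    push_cast
    field_simp
    ring
  fin_cases l
  · show _ = (((M.conf0 w).j : ℚ) + enc M.K ((M.conf0 w).S false)) / M.T
    rw [hj]
    exact hgen []
  · show _ = (((M.conf0 w).j : ℚ) + enc M.K ((M.conf0 w).S true)) / M.T
    rw [hj]
    exact hgen (w.map Fin.val)
  · show qdec (2 * cj0 M.code + 1, 0, 4 * cT M.code - 1)
      = (((M.conf0 w).j : ℚ) + 1 / 2) / (2 * M.T)
    rw [hj, code_T, qdec_pred (by omega)]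
    push_cast
    field_simp
    ring

theorem code_compile (w : List (Fin (M.nA + 1))) (l : Fin 3) :
    (cF l (M.code, w.map Fin.val)).map tdec = compile M w l := by
  unfold cF compile
  rw [List.map_append, List.map_flatMap]
  congr 1
  · apply List.flatMap_congr
    intro r hr
    have hr' := List.mem_range.1 hr
    obtain ⟨_, hl, hN, hN1, _, _⟩ := M.shear_code hr' 0
    unfold shearTerms
    rw [hl]
    by_cases h : lr r = l
    · rw [if_pos h, if_pos h]
      unfold cG
      simp only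
      rw [List.map_flatMap, hN]
      apply List.flatMap_congr
      intro i _
      obtain ⟨hk, _, _, _, ha, hb⟩ := M.shear_code hr' i
      exact cwin_dec hk hN1 ha hb
    · rw [if_neg h, if_neg h]
      rfl
  · rw [List.map_singleton, tdec_cinit, V_code]

end Machine

theorem compile_isAlgorithm : IsAlgorithm compile :=
  ⟨cF, fun l => (p_cF l).to_comp, fun M w l => M.code_compile w l⟩

end Vale.Agent.P113
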