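import Vale.Agent.P113.Defs

namespace Vale.Agent.P113

/-- Codes of rationals: `(p, n, d)` stands for `(p - n)/(d + 1)`. -/
abbrev QCode := ℕ × ℕ × ℕ

/-- the rational with a given code -/
def qdec (c : QCode) : ℚ := ((c.1 : ℚ) - c.2.1) / (c.2.2 + 1)

/-- Codes of bumps: `(true, k, j, a, b, _)` and `(false, k, _, a, b, l)`. -/
abbrev BCode := Bool × ℕ × ℕ × QCode × QCode × QCode

/-- the bump with a given code -/
def bdec (c : BCode) : Bump :=
  if c.1 then .rho c.2.1 c.2.2.1 (qdec c.2.2.2.1) (qdec c.2.2.2.2.1)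
  else .plat c.2.1 (qdec c.2.2.2.1) (qdec c.2.2.2.2.1) (qdec c.2.2.2.2.2)

/-- Codes of terms: `q`, `m`, `n` (as a difference), `lns`, the list `[tb, tp, h 0, h 1, h 2]`. -/
abbrev TCode := QCode × ℕ × (ℕ × ℕ) × List QCode × List (List BCode)

/-- the term with a given code -/
def tdec (c : TCode) : Term where
  q := qdec c.1
  m := c.2.1
  n := (c.2.2.1.1 : ℤ) - c.2.2.1.2
  lns := c.2.2.2.1.map qdec
  tb := (c.2.2.2.2.getD 0 []).map bdec
  tp := (c.2.2.2.2.getD 1 []).map bdec
  h := ![(c.2.2.2.2.getD 2 []).map bdec, (c.2.2.2.2.getD 3 []).map bdec,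
    (c.2.2.2.2.getD 4 []).map bdec]

/-- Codes of machines: `nS`, `nA`, the start state, the list of halting flags, the table. -/
abbrev MCode := ℕ × ℕ × ℕ × List ℕ × List (List (ℕ × ℕ × ℕ))

/-- code of a move -/
def mvCode : Option Bool → ℕ
  | none => 0
  | some false => 1
  | some true => 2

/-- the code of a machine -/
def Machine.code (M : Machine) : MCode :=
  (M.nS, M.nA, M.start, List.ofFn fun q => if M.halting q then 1 else 0,
    List.ofFn fun q => List.ofFn fun s =>
      (((M.step q s).1 : ℕ), ((M.step q s).2.1 : ℕ), mvCode (M.step q s).2.2))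

/-- `C` is computed by an algorithm: there is a function on codes, computable in the sense of
recursion theory, that from the code of `M` and the word `w` gives codes of the terms of `C M w`. -/
def IsAlgorithm (C : (M : Machine) → List (Fin (M.nA + 1)) → Fin 3 → List Term) : Prop :=
  ∃ F : Fin 3 → MCode × List ℕ → List TCode, (∀ l, Computable (F l)) ∧
    ∀ (M : Machine) (w : List (Fin (M.nA + 1))) (l : Fin 3),
      (F l (M.code, w.map Fin.val)).map tdec = C M w l

end Vale.Agent.P113
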