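import Vale.Agent.P113.Traj

namespace Vale.Agent.P113

open Set

/-! ### The compiler -/

lemma evalList_append (ν : ℝ) (L L' : List Term) (t : ℝ) (x : E) :
    evalList ν (L ++ L') t x = evalList ν L t x + evalList ν L' t x := by
  simp [evalList]

lemma evalList_flatMap (ν : ℝ) (n : ℕ) (F : ℕ → List Term) (t : ℝ) (x : E) :
    evalList ν ((List.range n).flatMap F) t x = ∑ i ∈ Finset.range n, evalList ν (F i) t x := by
  induction n with
  | zero => simp [evalList]
  | succ n ih =>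
    rw [List.range_succ, List.flatMap_append, evalList_append, ih, Finset.sum_range_succ]
    simp

lemma eval_mkT (ν : ℝ) (k : Fin 3) (q : ℚ) (m : ℕ) (tb g : Bump) (t : ℝ) (x : E) :
    (mkT k q m tb g).eval ν t x
      = (q : ℝ) * ν ^ m * kappa ^ (-2 : ℤ) * per tb.fn t * per g.fn (x k) := by
  unfold Term.eval mkT
  have : ∏ i, ((if i = k then [g] else []).map fun g => per g.fn (x i)).prod = per g.fn (x k) := by
    rw [Finset.prod_eq_single k]
    · simp
    · intro i _ hi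
      simp [hi]
    · intro h
      exact absurd (Finset.mem_univ _) h
  simp only [this]
  simp

lemma kappa_zpow : kappa ^ (-2 : ℤ) = 1 / kappa * (1 / kappa) := by
  rw [zpow_neg]
  norm_cast
  rw [pow_two]
  field_simp

lemma eval_winTerms (ν : ℝ) (r : ℕ) (s : Shear) {i : ℕ} (hi : i < s.N) (t : ℝ) (x : E) :
    evalList ν (winTerms r s i) t x
      = dth r t * (1 / kappa * ((winA s i : ℝ) * per (B0 s.N i).fn (x s.k)
          + (s.b i : ℝ) * per (B1 s.N i).fn (x s.k)))
        - ν * (th r t * (1 / kappa * ((winA s i : ℝ) * per (deriv (deriv (B0 s.N i).fn)) (x s.k)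
          + (s.b i : ℝ) * per (deriv (deriv (B1 s.N i).fn)) (x s.k)))) := by
  rw [per_dd0 hi, per_dd1 hi]
  unfold evalList winTerms dth th
  simp only [List.map_cons, List.map_nil, List.sum_cons, List.sum_nil, eval_mkT, kappa_zpow,
    pow_zero, pow_one]
  push_cast
  ring

lemma eval_shearTerms (ν : ℝ) (l : Fin 3) (r : ℕ) (s : Shear) (t : ℝ) (x : E) :
    evalList ν (shearTerms l r s) t x
      = if s.l = l then dth r t * win s (x s.k) - ν * (th r t * ddwin s (x s.k)) else 0 := by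
  unfold shearTerms
  split_ifs
  · rw [evalList_flatMap]
    unfold win ddwin
    rw [Finset.mul_sum, Finset.mul_sum, Finset.mul_sum, ← Finset.sum_sub_distrib]
    apply Finset.sum_congr rfl
    intro i hi
    exact eval_winTerms ν r s (Finset.mem_range.1 hi) t x
  · simp [evalList]

lemma eval_initTerm (ν : ℝ) (v : ℚ) (t : ℝ) (x : E) :
    evalList ν [initTerm v] t x = dth0 t * v := by
  unfold evalList initTerm Term.eval dth0
  simp
  ring

theorem force_compile (ν : ℝ) (M : Machine) (w : List (Fin (M.nA + 1))) :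
    force ν (compile M w) = frc ν M.shear (M.start0 w) := by
  funext t x l
  unfold force compile frc
  rw [evalList_append, evalList_flatMap, eval_initTerm]
  congr 1
  apply Finset.sum_congr rfl
  intro r _
  rw [eval_shearTerms]

lemma mem_compile {M : Machine} {w : List (Fin (M.nA + 1))} {l : Fin 3} {τ : Term}
    (h : τ ∈ compile M w l) : (∃ r s i, i < s.N ∧ τ ∈ winTerms r s i) ∨
      τ = initTerm (M.start0 w l) := by
  unfold compile at h
  rw [List.mem_append, List.mem_flatMap, List.mem_singleton] at h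
  rcases h with ⟨r, _, h⟩ | h
  · left
    unfold shearTerms at h
    split_ifs at h
    · rw [List.mem_flatMap] at h
      obtain ⟨i, hi, h⟩ := h
      exact ⟨r, _, i, List.mem_range.1 hi, h⟩
    · simp at h
  · right; exact h

lemma winTerms_form {r : ℕ} {s : Shear} {i : ℕ} (hi : i < s.N) {τ : Term}
    (h : τ ∈ winTerms r s i) : ∃ k q m tb g, τ = mkT k q m tb g ∧ tb.Ok ∧ g.Ok := by
  have hN : (16 * (s.N : ℚ)) ≠ 0 := by
    have : (0 : ℚ) < s.N := by exact_mod_cast (by omega : 0 < s.N)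
    positivity
  have hb : ∀ j, (BT j r).Ok := by
    intro j
    show (64 : ℚ) ≠ 0
    norm_num
  have h0 : (B0 s.N i).Ok := ⟨hN, by norm_num⟩
  have h1 : (B1 s.N i).Ok := ⟨hN, by norm_num⟩
  simp only [winTerms, List.mem_cons, List.not_mem_nil, or_false] at h
  rcases h with h | h | h | h | h | h | h | h
  · exact ⟨_, _, _, _, _, h, hb _, h0⟩
  · exact ⟨_, _, _, _, _, h, hb _, h1⟩
  all_goals exact ⟨_, _, _, _, _, h, hb _, hN⟩

lemma mkT_Ok {k : Fin 3} {q : ℚ} {m : ℕ} {tb g : Bump} (h1 : tb.Ok) (h2 : g.Ok) :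
    (mkT k q m tb g).Ok := by
  refine ⟨by simp [mkT], by simp [mkT], ?_, ?_⟩
  · intro b hb
    simp only [mkT, List.mem_singleton] at hb
    rw [hb]; exact h1
  · intro i b hb
    simp only [mkT] at hb
    split_ifs at hb
    · rw [List.mem_singleton] at hb
      rw [hb]; exact h2
    · simp at hb

lemma compile_Ok {M : Machine} {w : List (Fin (M.nA + 1))} {l : Fin 3} {τ : Term}
    (h : τ ∈ compile M w l) : τ.Ok := by
  rcases mem_compile h with ⟨r, s, i, hi, h⟩ | h
  · obtain ⟨k, q, m, tb, g, rfl, h1, h2⟩ := winTerms_form hi h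
    exact mkT_Ok h1 h2
  · rw [h]
    refine ⟨by simp [initTerm], ?_, by simp [initTerm], by simp [initTerm]⟩
    intro b hb
    simp only [initTerm, List.mem_singleton] at hb
    rw [hb]
    show (64 : ℚ) ≠ 0
    norm_num

lemma compile_vanish {M : Machine} {w : List (Fin (M.nA + 1))} {l : Fin 3} {τ : Term}
    (h : τ ∈ compile M w l) (hp : τ.isPeriodic = false) (ν : ℝ) {t : ℝ} (ht : 1 ≤ t) (x : E) :
    τ.eval ν t x = 0 := by
  rcases mem_compile h with ⟨r, s, i, hi, h⟩ | h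
  · obtain ⟨k, q, m, tb, g, rfl, h1, h2⟩ := winTerms_form hi h
    simp [Term.isPeriodic, mkT] at hp
  · rw [h]
    have : (BI 1).fn t = 0 := by
      rw [BI1_fn]
      exact deriv_rho_zero (le_abs.2 (Or.inl (by linarith)))
    unfold Term.eval initTerm
    simp [this]

lemma compile_periodic (M : Machine) (w w' : List (Fin (M.nA + 1))) (l : Fin 3) :
    (compile M w l).filter Term.isPeriodic = (compile M w' l).filter Term.isPeriodic := by
  unfold compile
  rw [List.filter_append, List.filter_append]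
  congr 1

/-! ### Trajectories -/

lemma IsTrajectory.unique {u : ℝ → E → E} (hs : ContDiff ℝ (⊤ : ℕ∞) fun q : ℝ × E => u q.1 q.2)
    {a : E} {X Y : ℝ → E} (hX : IsTrajectory u a X) (hY : IsTrajectory u a Y) {t : ℝ}
    (ht : 0 ≤ t) : X t = Y t := by
  have hc : ∀ {Z : ℝ → E}, IsTrajectory u a Z → ∀ T, ContinuousOn Z (Icc 0 T) := by
    intro Z hZ T s hs
    exact ((hZ.2 s hs.1).continuousWithinAt).mono Icc_subset_Ici_self
  obtain ⟨R1, hR1⟩ := (isCompact_Icc.image_of_continuousOn (hc hX t)).isBounded.subset_closedBall 0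
  obtain ⟨R2, hR2⟩ := (isCompact_Icc.image_of_continuousOn (hc hY t)).isBounded.subset_closedBall 0
  set B : Set E := Metric.closedBall 0 (max R1 R2) with hB
  have hXB : ∀ s ∈ Icc 0 t, X s ∈ B := fun s hs =>
    Metric.closedBall_subset_closedBall (le_max_left _ _) (hR1 (mem_image_of_mem X hs))
  have hYB : ∀ s ∈ Icc 0 t, Y s ∈ B := fun s hs =>
    Metric.closedBall_subset_closedBall (le_max_right _ _) (hR2 (mem_image_of_mem Y hs))
  obtain ⟨K, hK⟩ := (hs.contDiffOn (s := Icc 0 t ×ˢ B)).exists_lipschitzOnWith (by simp)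
    ((convex_Icc 0 t).prod (convex_closedBall 0 _)) (isCompact_Icc.prod (isCompact_closedBall 0 _))
  have hv : ∀ s ∈ Ico 0 t, LipschitzOnWith K (u s) B := by
    intro s hs x hx y hy
    have h1 := hK (x := (s, x)) ⟨Ico_subset_Icc_self hs, hx⟩ (y := (s, y))
      ⟨Ico_subset_Icc_self hs, hy⟩
    simpa [Prod.edist_eq] using h1
  have hd : ∀ {Z : ℝ → E}, IsTrajectory u a Z → ∀ s ∈ Ico 0 t,
      HasDerivWithinAt Z (u s (Z s)) (Ici s) s := by
    intro Z hZ s hs
    exact (hZ.2 s hs.1).mono (Ici_subset_Ici.2 hs.1)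
  exact ODE_solution_unique_of_mem_Icc_right hv (hc hX t) (hd hX)
    (fun s hs => hXB s (Ico_subset_Icc_self hs)) (hc hY t) (hd hY)
    (fun s hs => hYB s (Ico_subset_Icc_self hs)) (by rw [hX.1, hY.1]) (right_mem_Icc.2 ht)

lemma frc_contDiff (ν : ℝ) (sh : ℕ → Shear) (hkl : ∀ r, (sh r).k ≠ (sh r).l) (V : Fin 3 → ℚ) :
    ContDiff ℝ (⊤ : ℕ∞) fun q : ℝ × E => frc ν sh V q.1 q.2 := by
  rw [contDiff_pi]
  intro j
  have hs := vel_contDiff sh V
  have h1 : (fun q : ℝ × E => frc ν sh V q.1 q.2 j) = fun q : ℝ × E =>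
      fderiv ℝ (fun q : ℝ × E => vel sh V q.1 q.2) q (1, 0) j
        + ∑ i, vel sh V q.1 q.2 i * dx i (vel sh V q.1) q.2 j
        - ν * ∑ i, dx i (dx i (vel sh V q.1)) q.2 j := by
    funext q
    have h2 := vel_eqn ν sh hkl V q.1 q.2 j
    rw [(slice_dt hs q.1 q.2).deriv] at h2
    linarith
  rw [h1]
  have hp := contDiff_pi.1 hs
  have hd : ∀ i j, ContDiff ℝ (⊤ : ℕ∞) fun q : ℝ × E => dx i (vel sh V q.1) q.2 j :=
    fun i j => contDiff_pi.1 (smooth_dx hs i) j
  have hdd : ∀ i j, ContDiff ℝ (⊤ : ℕ∞) fun q : ℝ × E => dx i (dx i (vel sh V q.1)) q.2 j :=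
    fun i j => contDiff_pi.1 (smooth_dx (u := fun t => dx i (vel sh V t)) (smooth_dx hs i) i) j
  have ht : ContDiff ℝ (⊤ : ℕ∞) fun q : ℝ × E =>
      fderiv ℝ (fun q : ℝ × E => vel sh V q.1 q.2) q (1, 0) :=
    (hs.fderiv_right (m := (⊤ : ℕ∞)) (by simp)).clm_apply contDiff_const
  exact ((contDiff_pi.1 ht j).add (ContDiff.sum fun i _ => (hp i).mul (hd i j))).sub
    (contDiff_const.mul (ContDiff.sum fun i _ => hdd i j))

lemma ddwin_add_one (s : Shear) (y : ℝ) : ddwin s (y + 1) = ddwin s y := by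
  unfold ddwin
  simp only [per_add_one]

lemma frc_per (ν : ℝ) (sh : ℕ → Shear) (V : Fin 3 → ℚ) (t : ℝ) (x : E) (i : Fin 3) :
    frc ν sh V t (x + e i) = frc ν sh V t x := by
  funext l
  unfold frc
  congr 1
  apply Finset.sum_congr rfl
  intro r _
  have h1 : win (sh r) ((x + e i) (sh r).k) = win (sh r) (x (sh r).k) := by
    rw [Pi.add_apply, e_apply]
    split_ifs
    · exact win_add_one _ _
    · rw [add_zero]
  have h2 : ddwin (sh r) ((x + e i) (sh r).k) = ddwin (sh r) (x (sh r).k) := by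
    rw [Pi.add_apply, e_apply]
    split_ifs
    · exact ddwin_add_one _ _
    · rw [add_zero]
  rw [h1, h2]

/-- lower and upper corners of the box -/
def lo : Fin 3 → ℚ := ![-1, -1, 7 / 10]
def hi : Fin 3 → ℚ := ![2, 2, 8 / 10]

theorem hit_iff (M : Machine) (w : List (Fin (M.nA + 1))) :
    (∃ t ≥ (0 : ℝ), ∃ n : Fin 3 → ℤ, ∀ i, (lo i : ℝ) < traj M.shear (M.start0 w) t i + n i ∧
      traj M.shear (M.start0 w) t i + n i < (hi i : ℝ)) ↔ M.Halts w := by
  constructor
  · rintro ⟨t, _, n, h⟩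
    by_contra hcon
    obtain ⟨h1, h2⟩ := M.traj_not_halt w hcon t
    obtain ⟨h3, h4⟩ := h 2
    have hlo : ((lo 2 : ℚ) : ℝ) = 7 / 10 := by simp [lo]
    have hhi : ((hi 2 : ℚ) : ℝ) = 8 / 10 := by simp [hi]
    rw [hlo] at h3
    rw [hhi] at h4
    have h5 : (0 : ℝ) < n 2 := by linarith
    have h6 : (n 2 : ℝ) < 1 := by linarith
    have h7 : (0 : ℤ) < n 2 := by exact_mod_cast h5
    have h8 : n 2 < 1 := by exact_mod_cast h6
    omega
  · intro h
    obtain ⟨t, ht, hz⟩ := M.traj_halt w h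
    refine ⟨t, ht, ![-⌊traj M.shear (M.start0 w) t 0⌋, -⌊traj M.shear (M.start0 w) t 1⌋, 0], ?_⟩
    have hf : ∀ y : ℝ, (-1 : ℝ) < y - ⌊y⌋ ∧ y - ⌊y⌋ < 2 := by
      intro y
      have h1 := Int.floor_le y
      have h2 := Int.lt_floor_add_one y
      constructor <;> linarith
    intro i
    fin_cases i
    · have := hf (traj M.shear (M.start0 w) t 0)
      simpa [lo, hi, sub_eq_add_neg] using this
    · have := hf (traj M.shear (M.start0 w) t 1)
      simpa [lo, hi, sub_eq_add_neg] using this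
    · show ((lo 2 : ℚ) : ℝ) < traj M.shear (M.start0 w) t 2 + ((0 : ℤ) : ℝ) ∧
        traj M.shear (M.start0 w) t 2 + ((0 : ℤ) : ℝ) < ((hi 2 : ℚ) : ℝ)
      have hlo : ((lo 2 : ℚ) : ℝ) = 7 / 10 := by simp [lo]
      have hhi : ((hi 2 : ℚ) : ℝ) = 8 / 10 := by simp [hi]
      rw [hlo, hhi, hz]
      norm_num

theorem main (ν : ℝ) (hν : 0 < ν) (M : Machine) (w : List (Fin (M.nA + 1))) :
    (ContDiff ℝ (⊤ : ℕ∞) fun q : ℝ × E => force ν (compile M w) q.1 q.2) ∧
    (∀ t x i, force ν (compile M w) t (x + e i) = force ν (compile M w) t x) ∧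
    ∃ u : ℝ → E → E, (ContDiff ℝ (⊤ : ℕ∞) fun q : ℝ × E => u q.1 q.2) ∧
      (∀ T > 0, IsClassical ν (force ν (compile M w)) T u (fun _ _ => 0) ∧
        ∀ v q, IsClassical ν (force ν (compile M w)) T v q →
          ∀ t ∈ Icc 0 T, ∀ x, v t x = u t x ∧ q t x = 0) ∧
      ∃ X : ℝ → E, IsTrajectory u 0 X ∧ (∀ Y, IsTrajectory u 0 Y → ∀ t ≥ 0, Y t = X t) ∧
        ((∃ t ≥ (0 : ℝ), ∃ n : Fin 3 → ℤ, ∀ i, (lo i : ℝ) < X t i + n i ∧ X t i + n i < (hi i : ℝ))
          ↔ M.Halts w) := by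
  rw [force_compile]
  have hkl := M.shear_kl
  have hs := vel_contDiff M.shear (M.start0 w)
  refine ⟨frc_contDiff ν M.shear hkl _, frc_per ν M.shear _, vel M.shear (M.start0 w), hs, ?_, ?_⟩
  · intro T hT
    have hc : IsClassical ν (frc ν M.shear (M.start0 w)) T (vel M.shear (M.start0 w))
        (fun _ _ => 0) :=
      classical_of_smooth hs (vel_per M.shear _) (vel_div M.shear hkl _)
        (vel_eqn ν M.shear hkl _) (vel_init M.shear _) hT
    exact ⟨hc, fun v q hv => IsClassical.unique hν.le hT hv hc⟩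
  · have hX : IsTrajectory (vel M.shear (M.start0 w)) 0 (traj M.shear (M.start0 w)) :=
      ⟨traj_zero _ _, fun t ht => (traj_hasDerivAt M.shear hkl _ ht).hasDerivWithinAt⟩
    exact ⟨traj M.shear (M.start0 w), hX, fun Y hY t ht => IsTrajectory.unique hs hY hX ht,
      hit_iff M w⟩

end Vale.Agent.P113
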