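import Vale.Agent.P113.Defs

namespace Vale.Agent.P113

def dirOf (j : ℕ) : Bool := j % 2 == 1
def flagOf (j : ℕ) : Bool := j / 2 % 2 == 1

structure Conf where
  j : ℕ
  S : Bool → List ℕ

def Conf.pop (c : Conf) (s : Bool) : List ℕ := if s = dirOf c.j then (c.S s).tail else c.S s

/-- A tabulated shear: it moves coordinate `l` by `a i + b i * t` when coordinate `k` is
`(i + 1/2)/N + t`, `|t| ≤ 1/(4N)`. -/
structure Shear where
  k : Fin 3
  l : Fin 3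
  N : ℕ
  a : ℕ → ℚ
  b : ℕ → ℚ

/-- value of a stack -/
def enc (K : ℕ) : List ℕ → ℚ
  | [] => K / (2 * (2 * K - 1))
  | d :: l => 1 / 4 + (d + enc K l) / (2 * K)

def encP (K : ℕ) : List ℕ → ℚ
  | [] => 1 / 2
  | d :: l => 1 / 4 + (d + encP K l) / (2 * K)

namespace Machine
variable (M : Machine)

def g : ℕ := M.nA + 1
def J : ℕ := 4 * (M.nS + 1)
def K : ℕ := 2 * (M.g + M.J * M.g)
def T : ℕ := M.J * M.K

/-- new mode and pushed digits, in mode `j` reading digit `a` -/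
def act (j a : ℕ) : ℕ × (Bool → List ℕ) :=
  if M.g ≤ a then (j, fun c => if c = dirOf j then [] else [a])
  else
    match (M.step (Fin.ofNat (M.nS + 1) (j / 4)) (Fin.ofNat (M.nA + 1) a)) with
    | (q, s, some d) =>
      (4 * (q : ℕ) + d.toNat, fun c => if c = d then [] else [(s : ℕ), M.g + j * M.g + a])
    | (q, s, none) =>
      (4 * (q : ℕ) + 2 + (dirOf j).toNat,
        fun c => if c = dirOf j then [(s : ℕ)] else [M.g + j * M.g + a])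

def haltN (j : ℕ) : Bool := M.halting (Fin.ofNat (M.nS + 1) (j / 4))

/-- the digit block (mode, digit) from which mode `j'` with top digits `b, b2` was reached -/
def pred (j b b2 : ℕ) : ℕ :=
  if flagOf j then ((b - M.g) / M.g) * M.K + (b - M.g) % M.g
  else if M.g ≤ b then j * M.K + b
  else ((b2 - M.g) / M.g) * M.K + (b2 - M.g) % M.g

/-- the initial simulator configuration -/
def conf0 (w : List (Fin (M.nA + 1))) : Conf :=
  ⟨4 * (M.start : ℕ) + 1, fun s => if s then w.map Fin.val else []⟩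

def half : ℕ := M.g + M.J * M.g

/-- centre of the window that contains the stack `s`, in block `τ` -/
def Cc (s : Bool) (τ : ℕ) : ℚ :=
  if dirOf (τ / M.K) = s then 1 / 4 + (((τ % M.K : ℕ) : ℚ) + 1 / 2) / (2 * M.K) else 1 / 2

def pushes (s : Bool) (τ : ℕ) : List ℕ := (M.act (τ / M.K) (τ % M.K)).2 s

def newj (τ : ℕ) : ℕ := (M.act (τ / M.K) (τ % M.K)).1

def Aa (s : Bool) (τ : ℕ) : ℚ := encP M.K (M.pushes s τ)

def lam (s : Bool) (τ : ℕ) : ℚ :=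
  (if dirOf (τ / M.K) = s then 2 * (M.K : ℚ) else 1) / (2 * (M.K : ℚ)) ^ (M.pushes s τ).length

def det (s : Bool) (i : ℕ) : ℚ :=
  if dirOf (i / (2 * M.K)) = s then
    if M.haltN (i / (2 * M.K)) then 3 / 4 - (((i / (2 * M.K) : ℕ) : ℚ) + 1 / 2) / (2 * M.T)
    else (((i / (2 * M.K) * M.K + (i % (2 * M.K) - M.half) : ℕ) : ℚ) - ((i / (2 * M.K) : ℕ) : ℚ))
      / (2 * M.T)
  else 0

def prd (s : Bool) (i : ℕ) : ℚ :=
  if dirOf (i / (4 * M.K ^ 2)) = s then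
    (((i / (4 * M.K ^ 2) : ℕ) : ℚ) - ((M.pred (i / (4 * M.K ^ 2))
      ((i % (4 * M.K ^ 2) - M.K ^ 2) / (2 * M.K))
      ((i % (4 * M.K ^ 2) - M.K ^ 2) % (2 * M.K) - M.half) : ℕ) : ℚ)) / (2 * M.T)
  else 0

/-- the fourteen shears of one simulated step -/
def shear (r : ℕ) : Shear :=
  match r with
  | 0 => ⟨1, 2, 2 * M.K * M.T, M.det true, fun _ => 0⟩
  | 1 => ⟨0, 2, 2 * M.K * M.T, M.det false, fun _ => 0⟩
  | 2 => ⟨2, 0, 2 * M.T, fun τ => ((τ : ℚ) - ((τ / M.K : ℕ) : ℚ)) / M.T, fun _ => 0⟩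
  | 3 => ⟨2, 1, 2 * M.T, fun τ => ((τ : ℚ) - ((τ / M.K : ℕ) : ℚ)) / M.T, fun _ => 0⟩
  | 4 => ⟨0, 2, M.T, fun τ => (1 / 2 - M.Cc false τ) / (2 * M.T), fun _ => 1 / 2⟩
  | 5 => ⟨2, 0, 2 * M.T, fun τ => (M.Aa false τ - M.Cc false τ) / M.T,
      fun τ => 2 * (M.lam false τ - 1)⟩
  | 6 => ⟨0, 2, M.T, fun τ => -(1 / 2 - M.Aa false τ) / (2 * M.lam false τ * M.T),
      fun τ => -1 / (2 * M.lam false τ)⟩
  | 7 => ⟨1, 2, M.T, fun τ => (1 / 2 - M.Cc true τ) / (2 * M.T), fun _ => 1 / 2⟩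
  | 8 => ⟨2, 1, 2 * M.T, fun τ => (M.Aa true τ - M.Cc true τ) / M.T,
      fun τ => 2 * (M.lam true τ - 1)⟩
  | 9 => ⟨1, 2, M.T, fun τ => -(1 / 2 - M.Aa true τ) / (2 * M.lam true τ * M.T),
      fun τ => -1 / (2 * M.lam true τ)⟩
  | 10 => ⟨2, 0, 2 * M.T, fun τ => ((M.newj τ : ℚ) - (τ : ℚ)) / M.T, fun _ => 0⟩
  | 11 => ⟨2, 1, 2 * M.T, fun τ => ((M.newj τ : ℚ) - (τ : ℚ)) / M.T, fun _ => 0⟩
  | 12 => ⟨0, 2, 4 * M.K ^ 2 * M.T, M.prd true, fun _ => 0⟩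
  | _ => ⟨1, 2, 4 * M.K ^ 2 * M.T, M.prd false, fun _ => 0⟩

/-- the position that encodes a simulator configuration -/
def pos (c : Conf) : Fin 3 → ℚ :=
  ![((c.j : ℚ) + enc M.K (c.S false)) / M.T, ((c.j : ℚ) + enc M.K (c.S true)) / M.T,
    ((c.j : ℚ) + 1 / 2) / (2 * M.T)]

/-- the initial displacement -/
def start0 (w : List (Fin (M.nA + 1))) : Fin 3 → ℚ := M.pos (M.conf0 w)

end Machine

def winA (s : Shear) (i : ℕ) : ℚ := s.a i - s.b i * ((i + 1 / 2) / s.N)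

def B0 (N i : ℕ) : Bump := .plat 0 (16 * N) (16 * i + 2) 12
def B1 (N i : ℕ) : Bump := .plat 1 (16 * N) (16 * i + 2) 12

def BT (j r : ℕ) : Bump := .rho 0 j 64 (4 * r + 6)
def BI (j : ℕ) : Bump := .rho 0 j 64 2

def mkT (k : Fin 3) (q : ℚ) (m : ℕ) (tb g : Bump) : Term :=
  ⟨q, m, -2, [], [], [tb], fun i => if i = k then [g] else []⟩

def winTerms (r : ℕ) (s : Shear) (i : ℕ) : List Term :=
  [mkT s.k (4096 * winA s i) 0 (BT 1 r) (B0 s.N i),
   mkT s.k (4096 * s.b i) 0 (BT 1 r) (B1 s.N i),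
   mkT s.k (-64 * winA s i * (16 * s.N) ^ 2) 1 (BT 0 r) (.rho 0 1 (16 * s.N) (16 * i + 2)),
   mkT s.k (64 * winA s i * (16 * s.N) ^ 2) 1 (BT 0 r) (.rho 0 1 (16 * s.N) (16 * i + 2 + 12)),
   mkT s.k (-128 * s.b i * (16 * s.N)) 1 (BT 0 r) (.rho 0 0 (16 * s.N) (16 * i + 2)),
   mkT s.k (128 * s.b i * (16 * s.N)) 1 (BT 0 r) (.rho 0 0 (16 * s.N) (16 * i + 2 + 12)),
   mkT s.k (-64 * s.b i * (16 * s.N) ^ 2) 1 (BT 0 r) (.rho 1 1 (16 * s.N) (16 * i + 2)),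
   mkT s.k (64 * s.b i * (16 * s.N) ^ 2) 1 (BT 0 r) (.rho 1 1 (16 * s.N) (16 * i + 2 + 12))]

def shearTerms (l : Fin 3) (r : ℕ) (s : Shear) : List Term :=
  if s.l = l then (List.range s.N).flatMap (winTerms r s) else []

def initTerm (v : ℚ) : Term := ⟨4096 * v, 0, -1, [], [BI 1], [], fun _ => []⟩

/-- the compiler: lists of terms for the three components of the force -/
def compile (M : Machine) (w : List (Fin (M.nA + 1))) (l : Fin 3) : List Term :=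
  (List.range 14).flatMap (fun r => shearTerms l r (M.shear r)) ++ [initTerm (M.start0 w l)]

end Vale.Agent.P113
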