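import Mathlib

namespace Vale.Agent.P113

open MeasureTheory Set

/-- `ρ(s) = exp(-1/(1-s²))` for `|s| < 1` and `0` otherwise. -/
noncomputable def rho (s : ℝ) : ℝ := if |s| < 1 then Real.exp (-1 / (1 - s ^ 2)) else 0

/-- `κ = ∫ ρ`. -/
noncomputable def kappa : ℝ := ∫ s, rho s

/-- `σ(s) = ∫_{-∞}^s ρ`. -/
noncomputable def sigma (s : ℝ) : ℝ := ∫ x in Iic s, rho x

/-- `π_ℓ(s) = σ(s) - σ(s - ℓ)`. -/
noncomputable def plat (l s : ℝ) : ℝ := sigma s - sigma (s - l)

/-- `1`-periodization. -/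
noncomputable def per (g : ℝ → ℝ) (y : ℝ) : ℝ := ∑' m : ℤ, g (y + m)

abbrev E := Fin 3 → ℝ

/-- the `i`-th standard basis vector of `ℝ³` -/
noncomputable def e (i : Fin 3) : E := Pi.single i 1

/-- the `i`-th partial derivative of a vector field -/
noncomputable def dx (i : Fin 3) (v : E → E) (x : E) : E := fderiv ℝ v x (e i)

/-- Classical solutions `(u, p)` on `[0,T]` of the forced incompressible Navier-Stokes equations on
the flat torus `(ℝ/ℤ)³` from rest: `u`, `∂ₜ u`, the spatial derivatives of `u` up to order two, `p`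
and `∇ p` are continuous on `[0,T] × 𝕋³` (functions on the torus being `1`-periodic functions on
`ℝ³`), `p` has mean zero, and the equations hold pointwise. -/
structure IsClassical (ν : ℝ) (f : ℝ → E → E) (T : ℝ) (u : ℝ → E → E) (p : ℝ → E → ℝ) : Prop where
  per_u : ∀ t ∈ Icc 0 T, ∀ x i, u t (x + e i) = u t x
  per_p : ∀ t ∈ Icc 0 T, ∀ x i, p t (x + e i) = p t x
  diff_u : ∀ t ∈ Icc 0 T, ContDiff ℝ 2 (u t)
  diff_p : ∀ t ∈ Icc 0 T, ContDiff ℝ 1 (p t)
  diff_t : ∀ x, DifferentiableOn ℝ (fun s => u s x) (Icc 0 T)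
  cont_u : ContinuousOn (fun q : ℝ × E => u q.1 q.2) (Icc 0 T ×ˢ univ)
  cont_t : ContinuousOn (fun q : ℝ × E => derivWithin (fun s => u s q.2) (Icc 0 T) q.1)
    (Icc 0 T ×ˢ univ)
  cont_dx : ∀ i, ContinuousOn (fun q : ℝ × E => dx i (u q.1) q.2) (Icc 0 T ×ˢ univ)
  cont_dxx : ∀ i j, ContinuousOn (fun q : ℝ × E => dx i (dx j (u q.1)) q.2) (Icc 0 T ×ˢ univ)
  cont_p : ContinuousOn (fun q : ℝ × E => p q.1 q.2) (Icc 0 T ×ˢ univ)
  cont_dp : ∀ i, ContinuousOn (fun q : ℝ × E => fderiv ℝ (p q.1) q.2 (e i)) (Icc 0 T ×ˢ univ)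
  mean_p : ∀ t ∈ Icc 0 T, ∫ x in Icc (0 : E) 1, p t x = 0
  div_free : ∀ t ∈ Icc 0 T, ∀ x, ∑ i, dx i (u t) x i = 0
  eqn : ∀ t ∈ Icc 0 T, ∀ x, ∀ j,
    derivWithin (fun s => u s x) (Icc 0 T) t j + ∑ i, u t x i * dx i (u t) x j
      = - fderiv ℝ (p t) x (e j) + ν * ∑ i, dx i (dx i (u t)) x j + f t x j
  init : ∀ x, u 0 x = 0

/-- A deterministic one-tape Turing machine: states `0, …, nS`, tape symbols `0, …, nA` with blank
`0`; `step q s = (q', s', m)` means: in state `q` reading `s`, write `s'`, go to state `q'`, and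
move right (`m = some true`), left (`m = some false`) or stay (`m = none`). -/
structure Machine where
  nS : ℕ
  nA : ℕ
  start : Fin (nS + 1)
  halting : Fin (nS + 1) → Bool
  step : Fin (nS + 1) → Fin (nA + 1) → Fin (nS + 1) × Fin (nA + 1) × Option Bool

namespace Machine
variable (M : Machine)

/-- configurations: state, head position, two-sided tape -/
structure Cfg where
  state : Fin (M.nS + 1)
  head : ℤ
  tape : ℤ → Fin (M.nA + 1)

/-- displacement of the head -/
def move : Option Bool → ℤ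
  | none => 0
  | some true => 1
  | some false => -1

/-- one step of the machine -/
def next (C : M.Cfg) : M.Cfg :=
  ⟨(M.step C.state (C.tape C.head)).1, C.head + move (M.step C.state (C.tape C.head)).2.2,
    Function.update C.tape C.head (M.step C.state (C.tape C.head)).2.1⟩

/-- initial configuration: the input `w` on cells `0, 1, …`, head on cell `0`, blank elsewhere -/
def init (w : List (Fin (M.nA + 1))) : M.Cfg :=
  ⟨M.start, 0, fun z => if 0 ≤ z then w.getD z.toNat 0 else 0⟩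

/-- `M` halts on `w`: it reaches a halting state after finitely many steps, possibly none -/
def Halts (w : List (Fin (M.nA + 1))) : Prop :=
  ∃ n : ℕ, M.halting ((M.next^[n] (M.init w)).state) = true

end Machine

/-- descriptions of bumps: `s ↦ s^k ρ^{(j)}(a s - b)` and `s ↦ s^k π_l(a s - b)` -/
inductive Bump where
  | rho (k j : ℕ) (a b : ℚ)
  | plat (k : ℕ) (a b l : ℚ)

/-- the function described -/
noncomputable def Bump.fn : Bump → ℝ → ℝ
  | .rho k j a b => fun s => s ^ k * iteratedDeriv j P113.rho ((a : ℝ) * s - b)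
  | .plat k a b l => fun s => s ^ k * P113.plat l ((a : ℝ) * s - b)

/-- `a ≠ 0` and `l > 0` -/
def Bump.Ok : Bump → Prop
  | .rho _ _ a _ => a ≠ 0
  | .plat _ a _ l => a ≠ 0 ∧ 0 < l

/-- A term `q ν^m κ^n (∏ ln r_i) θ(t) h_0(x_0) h_1(x_1) h_2(x_2)`: `θ` is the product of the bumps
in `tb` at `t` and of the periodizations of the bumps in `tp` at `t`; `h i` lists the bumps whose
periodizations are multiplied to give the function of `x_i`. -/
structure Term where
  q : ℚ
  m : ℕ
  n : ℤ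
  lns : List ℚ
  tb : List Bump
  tp : List Bump
  h : Fin 3 → List Bump

namespace Term

/-- the value of a term -/
noncomputable def eval (ν : ℝ) (τ : Term) (t : ℝ) (x : E) : ℝ :=
  ((τ.q : ℝ) * ν ^ τ.m * kappa ^ τ.n * (τ.lns.map fun r => Real.log (r : ℝ)).prod) *
    ((τ.tb.map fun g => g.fn t).prod * (τ.tp.map fun g => per g.fn t).prod) *
    ∏ i, ((τ.h i).map fun g => per g.fn (x i)).prod

/-- all bumps are legal and all logarithms are of positive rationals -/
def Ok (τ : Term) : Prop :=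
  (∀ r ∈ τ.lns, 0 < r) ∧ (∀ g ∈ τ.tb, g.Ok) ∧ (∀ g ∈ τ.tp, g.Ok) ∧ ∀ i, ∀ g ∈ τ.h i, g.Ok

/-- a term is periodic if its time factor is `1` or a product of periodizations only -/
def isPeriodic (τ : Term) : Bool := τ.tb.isEmpty

end Term

/-- the function given by a finite list of terms -/
noncomputable def evalList (ν : ℝ) (L : List Term) (t : ℝ) (x : E) : ℝ :=
  (L.map fun τ => τ.eval ν t x).sum

/-- the force -/
noncomputable def force (ν : ℝ) (L : Fin 3 → List Term) (t : ℝ) (x : E) : E :=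
  fun l => evalList ν (L l) t x

/-- `X` is the trajectory of `a` in the velocity field `u`: `X(0) = a` and `X'(t) = u(t, X(t))` for
all `t ≥ 0` -/
def IsTrajectory (u : ℝ → E → E) (a : E) (X : ℝ → E) : Prop :=
  X 0 = a ∧ ∀ t ≥ 0, HasDerivWithinAt X (u t (X t)) (Ici 0) t

end Vale.Agent.P113
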