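import Vale.Agent.P113.NS

namespace Vale.Agent.P113

open MeasureTheory Set

/-- Uniqueness of classical solutions on `[0,T]`. -/
theorem IsClassical.unique {ν : ℝ} {f : ℝ → E → E} {T : ℝ} {u v : ℝ → E → E} {p q : ℝ → E → ℝ}
    (hν : 0 ≤ ν) (hT : 0 < T) (hu : IsClassical ν f T u p) (hv : IsClassical ν f T v q) :
    ∀ t ∈ Icc 0 T, ∀ x, u t x = v t x ∧ p t x = q t x := by
  -- notation
  set K : Set E := Icc (0 : E) 1 with hK
  have hKc : IsCompact K := isCompact_Icc
  have hKm : MeasurableSet K := measurableSet_Icc
  set μ : Measure E := volume.restrict K with hμ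
  haveI : IsFiniteMeasure μ := ⟨by rw [hμ, Measure.restrict_apply_univ]; exact hKc.measure_lt_top⟩
  let w : ℝ → E → E := fun t x => u t x - v t x
  let wt : ℝ → E → E := fun t x =>
    derivWithin (fun s => u s x) (Icc 0 T) t - derivWithin (fun s => v s x) (Icc 0 T) t
  have hwcont : ContinuousOn (fun r : ℝ × E => w r.1 r.2) (Icc 0 T ×ˢ univ) := hu.cont_u.sub hv.cont_u
  have hwtcont : ContinuousOn (fun r : ℝ × E => wt r.1 r.2) (Icc 0 T ×ˢ univ) := hu.cont_t.sub hv.cont_t
  let G : ℝ → E → ℝ := fun t x => ∑ j, w t x j ^ 2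
  let D : ℝ → E → ℝ := fun t x => 2 * ∑ j, w t x j * wt t x j
  have hcj : ∀ j, ContinuousOn (fun r : ℝ × E => w r.1 r.2 j) (Icc 0 T ×ˢ univ) :=
    fun j => (continuous_apply j).comp_continuousOn hwcont
  have hctj : ∀ j, ContinuousOn (fun r : ℝ × E => wt r.1 r.2 j) (Icc 0 T ×ˢ univ) :=
    fun j => (continuous_apply j).comp_continuousOn hwtcont
  have hGcont : ContinuousOn (fun r : ℝ × E => G r.1 r.2) (Icc 0 T ×ˢ univ) := by
    apply continuousOn_finsetSum
    intro j _
    exact (hcj j).pow 2
  have hDcont : ContinuousOn (fun r : ℝ × E => D r.1 r.2) (Icc 0 T ×ˢ univ) := by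
    apply ContinuousOn.mul continuousOn_const
    apply continuousOn_finsetSum
    intro j _
    exact (hcj j).mul (hctj j)
  -- slices
  have slice : ∀ (φ : ℝ → E → ℝ), ContinuousOn (fun r : ℝ × E => φ r.1 r.2) (Icc 0 T ×ˢ univ) →
      ∀ t ∈ Icc 0 T, Continuous (φ t) := by
    intro φ hφ t ht
    rw [← continuousOn_univ]
    exact hφ.comp (f := fun x : E => (t, x)) (by fun_prop) (fun x _ => ⟨ht, mem_univ _⟩)
  have slice' : ∀ (φ : ℝ → E → ℝ), ContinuousOn (fun r : ℝ × E => φ r.1 r.2) (Icc 0 T ×ˢ univ) →
      ∀ x, ContinuousOn (fun t => φ t x) (Icc 0 T) := by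
    intro φ hφ x
    exact hφ.comp (f := fun t : ℝ => (t, x)) (by fun_prop) (fun t ht => ⟨ht, mem_univ _⟩)
  have bnd : ∀ (φ : ℝ → E → ℝ), ContinuousOn (fun r : ℝ × E => φ r.1 r.2) (Icc 0 T ×ˢ univ) →
      ∃ C, ∀ t ∈ Icc 0 T, ∀ x ∈ K, ‖φ t x‖ ≤ C := by
    intro φ hφ
    obtain ⟨C, hC⟩ := (isCompact_Icc.prod hKc).exists_bound_of_continuousOn
      (hφ.mono (prod_mono le_rfl (subset_univ K)))
    exact ⟨C, fun t ht x hx => hC (t, x) ⟨ht, hx⟩⟩
  obtain ⟨MG, hMG⟩ := bnd G hGcont
  obtain ⟨MD, hMD⟩ := bnd D hDcont
  -- bound on the gradient of v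
  have hgrad : ∃ C, 0 ≤ C ∧ ∀ i j, ∀ t ∈ Icc 0 T, ∀ x ∈ K, |dx i (v t) x j| ≤ C := by
    have h1 : ∀ i j, ∃ C, ∀ t ∈ Icc 0 T, ∀ x ∈ K, ‖dx i (v t) x j‖ ≤ C := fun i j =>
      bnd (fun t x => dx i (v t) x j) ((continuous_apply j).comp_continuousOn (hv.cont_dx i))
    choose C hC using h1
    refine ⟨∑ i, ∑ j, |C i j|, by positivity, ?_⟩
    intro i j t ht x hx
    calc |dx i (v t) x j| ≤ C i j := hC i j t ht x hx
      _ ≤ |C i j| := le_abs_self _
      _ ≤ ∑ j, |C i j| := Finset.single_le_sum (f := fun j => |C i j|) (fun j _ => abs_nonneg _) (Finset.mem_univ j)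
      _ ≤ ∑ i, ∑ j, |C i j| := Finset.single_le_sum (f := fun i => ∑ j, |C i j|)
          (fun i _ => Finset.sum_nonneg fun j _ => abs_nonneg _) (Finset.mem_univ i)
  obtain ⟨C, hC0, hC⟩ := hgrad
  -- energy inequality
  have henergy : ∀ t ∈ Icc 0 T, ∫ x, D t x ∂μ ≤ 6 * C * ∫ x, G t x ∂μ := by
    intro t ht
    have hUc := hu.diff_u t ht
    have hVc := hv.diff_u t ht
    have hPc : ContDiff ℝ 1 (fun x => p t x - q t x) := (hu.diff_p t ht).sub (hv.diff_p t ht)
    have hWc : ContDiff ℝ 2 (w t) := hUc.sub hVc
    have hcomp : ∀ {V : E → E} {n : WithTop ℕ∞} (_ : ContDiff ℝ n V) (j : Fin 3), ContDiff ℝ n (fun y => V y j) :=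
      fun {V n} h j => (contDiff_apply ℝ ℝ j).comp h
    let F : Fin 3 → E → ℝ := fun i y => -(u t y i) * ∑ j, w t y j ^ 2 - 2 * (p t y - q t y) * w t y i
          + 2 * ν * ∑ j, w t y j * dx i (w t) y j
    have hFc : ∀ i, ContDiff ℝ 1 (F i) := by
      intro i
      have c1 : ContDiff ℝ 1 (fun y => u t y i) := (hcomp hUc i).of_le (by norm_num)
      have c2 : ∀ j, ContDiff ℝ 1 (fun y => w t y j) := fun j => (hcomp hWc j).of_le (by norm_num)
      have c3 : ∀ j, ContDiff ℝ 1 (fun y => dx i (w t) y j) := fun j => hcomp (dx_contDiff hWc i) j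
      apply ContDiff.add
      · apply ContDiff.sub
        · apply ContDiff.mul c1.neg
          apply ContDiff.sum
          intro j _
          exact (c2 j).pow 2
        · exact (contDiff_const.mul hPc).mul (c2 i)
      · apply contDiff_const.mul
        apply ContDiff.sum
        intro j _
        exact (c2 j).mul (c3 j)
    have hwper : ∀ x i, w t (x + e i) = w t x := by
      intro x i
      simp only [w, hu.per_u t ht x i, hv.per_u t ht x i]
    have hdxper : ∀ k x i, dx k (w t) (x + e i) = dx k (w t) x := by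
      intro k x i
      unfold dx
      have h1 : fderiv ℝ (fun y => w t (y + e i)) x = fderiv ℝ (w t) (x + e i) :=
        fderiv_comp_add_right (e i)
      have h2 : (fun y => w t (y + e i)) = w t := funext fun y => hwper y i
      rw [← h1, h2]
    have hFper : ∀ i x, F i (x + e i) = F i x := by
      intro i x
      simp only [F, hu.per_u t ht x i, hwper, hdxper, hu.per_p t ht x i, hv.per_p t ht x i]
    have hint := integral_div_zero F hFc hFper
    have hid : ∀ x, D t x = ∑ i, fderiv ℝ (F i) x (e i)
        - 2 * ν * ∑ i, ∑ j, dx i (w t) x j ^ 2 - 2 * ∑ i, ∑ j, w t x j * w t x i * dx i (v t) x j := by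
      intro x
      refine energy_identity ν (u t) (v t) (fun y => p t y - q t y) hUc hVc hPc (hu.div_free t ht)
        (hv.div_free t ht) (w t) rfl x (wt t x) ?_
      intro j
      have h1 := hu.eqn t ht x j
      have h2 := hv.eqn t ht x j
      have h3 : fderiv ℝ (fun y => p t y - q t y) x (e j) = fderiv ℝ (p t) x (e j) - fderiv ℝ (q t) x (e j) := by
        rw [fderiv_fun_sub ((hu.diff_p t ht).differentiable (by norm_num) x)
          ((hv.diff_p t ht).differentiable (by norm_num) x)]
        rfl
      rw [h3]
      simp only [wt, Pi.sub_apply]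
      linear_combination h1 - h2
    have hle : ∀ x ∈ K, D t x ≤ ∑ i, fderiv ℝ (F i) x (e i) + 6 * C * G t x := by
      intro x hx
      rw [hid x]
      have h1 : 0 ≤ 2 * ν * ∑ i, ∑ j, dx i (w t) x j ^ 2 := by positivity
      have h2 : -(2 * ∑ i, ∑ j, w t x j * w t x i * dx i (v t) x j) ≤ 6 * C * G t x := by
        have h3 : ∀ i j, -(w t x j * w t x i * dx i (v t) x j) ≤ C * ((w t x j ^ 2 + w t x i ^ 2) / 2) := by
          intro i j
          have h4 : -(w t x j * w t x i * dx i (v t) x j) ≤ |w t x j| * |w t x i| * C := by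
            calc -(w t x j * w t x i * dx i (v t) x j) ≤ |w t x j * w t x i * dx i (v t) x j| := neg_le_abs _
              _ = |w t x j| * |w t x i| * |dx i (v t) x j| := by rw [abs_mul, abs_mul]
              _ ≤ |w t x j| * |w t x i| * C := by
                apply mul_le_mul_of_nonneg_left (hC i j t ht x hx) (by positivity)
          have h5 : |w t x j| * |w t x i| ≤ (w t x j ^ 2 + w t x i ^ 2) / 2 := by
            have := sq_nonneg (|w t x j| - |w t x i|)
            have e1 := sq_abs (w t x j)
            have e2 := sq_abs (w t x i)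
            nlinarith
          nlinarith [mul_le_mul_of_nonneg_right h5 hC0]
        have h6 : -(2 * ∑ i, ∑ j, w t x j * w t x i * dx i (v t) x j)
            = 2 * ∑ i, ∑ j, -(w t x j * w t x i * dx i (v t) x j) := by
          simp only [Finset.sum_neg_distrib]
          ring
        rw [h6]
        calc 2 * ∑ i, ∑ j, -(w t x j * w t x i * dx i (v t) x j)
            ≤ 2 * ∑ i : Fin 3, ∑ j : Fin 3, C * ((w t x j ^ 2 + w t x i ^ 2) / 2) := by
              apply mul_le_mul_of_nonneg_left _ (by norm_num)
              exact Finset.sum_le_sum fun i _ => Finset.sum_le_sum fun j _ => h3 i j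
          _ = 6 * C * G t x := by
              simp only [G, Fin.sum_univ_three]
              ring
      linarith
    have hdivcont : Continuous (fun x => ∑ i, fderiv ℝ (F i) x (e i)) := by
      apply continuous_finsetSum
      intro i _
      exact ((hFc i).continuous_fderiv (by norm_num)).clm_apply continuous_const
    have hI1 : IntegrableOn (fun x => ∑ i, fderiv ℝ (F i) x (e i)) K :=
      hdivcont.continuousOn.integrableOn_compact hKc
    have hI2 : IntegrableOn (fun x => 6 * C * G t x) K :=
      ((slice G hGcont t ht).const_mul _ |>.continuousOn).integrableOn_compact hKc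
    have hI3 : IntegrableOn (D t) K := (slice D hDcont t ht).continuousOn.integrableOn_compact hKc
    calc ∫ x, D t x ∂μ ≤ ∫ x in K, (∑ i, fderiv ℝ (F i) x (e i) + 6 * C * G t x) :=
          setIntegral_mono_on hI3 (hI1.add hI2) hKm hle
      _ = (∫ x in K, ∑ i, fderiv ℝ (F i) x (e i)) + ∫ x in K, 6 * C * G t x := integral_add hI1 hI2
      _ = 6 * C * ∫ x, G t x ∂μ := by
          rw [hint, zero_add, integral_const_mul]
  -- the energy
  let En : ℝ → ℝ := fun t => ∫ x, G t x ∂μ
  have hEncont : ContinuousOn En (Icc 0 T) := by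
    apply MeasureTheory.continuousOn_of_dominated (bound := fun _ => MG)
    · intro t ht
      exact (slice G hGcont t ht).aestronglyMeasurable
    · intro t ht
      rw [hμ, ae_restrict_iff' hKm]
      exact Filter.Eventually.of_forall fun x hx => hMG t ht x hx
    · exact integrable_const _
    · exact Filter.Eventually.of_forall fun x => slice' G hGcont x
  have hEnderiv : ∀ t ∈ Ioo 0 T, HasDerivAt En (∫ x, D t x ∂μ) t := by
    intro t ht
    have htI : t ∈ Icc 0 T := Ioo_subset_Icc_self ht
    refine (hasDerivAt_integral_of_dominated_loc_of_deriv_le (s := Ioo 0 T) (bound := fun _ => MD)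
      (Ioo_mem_nhds ht.1 ht.2) ?_ ?_ ?_ ?_ (integrable_const _) ?_).2
    · filter_upwards [Ioo_mem_nhds ht.1 ht.2] with s hs
      exact (slice G hGcont s (Ioo_subset_Icc_self hs)).aestronglyMeasurable
    · exact ((slice G hGcont t htI).continuousOn).integrableOn_compact hKc
    · exact (slice D hDcont t htI).aestronglyMeasurable
    · rw [hμ, ae_restrict_iff' hKm]
      exact Filter.Eventually.of_forall fun x hx s hs => hMD s (Ioo_subset_Icc_self hs) x hx
    · apply Filter.Eventually.of_forall
      intro x s hs
      have hsI : s ∈ Icc 0 T := Ioo_subset_Icc_self hs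
      have hn : Icc 0 T ∈ nhds s := Icc_mem_nhds hs.1 hs.2
      have h1 : HasDerivAt (fun r => w r x) (wt s x) s :=
        ((hu.diff_t x s hsI).hasDerivWithinAt.hasDerivAt hn).sub
          ((hv.diff_t x s hsI).hasDerivWithinAt.hasDerivAt hn)
      have h2 : ∀ j, HasDerivAt (fun r => w r x j) (wt s x j) s := fun j => (hasDerivAt_pi.1 h1) j
      have h3 : HasDerivAt (fun r => ∑ j, w r x j ^ 2) (∑ j, (2 * w s x j * wt s x j)) s := by
        apply HasDerivAt.fun_sum
        intro j _
        have := (h2 j).fun_pow 2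
        simpa using this
      have h4 : ∑ j, (2 * w s x j * wt s x j) = D s x := by
        simp only [D, Finset.mul_sum]
        apply Finset.sum_congr rfl
        intro j _
        ring
      rw [h4] at h3
      exact h3
  have hEn0 : En 0 = 0 := by
    have : ∀ x, G 0 x = 0 := by
      intro x
      simp only [G, w, hu.init x, hv.init x, sub_self, Pi.zero_apply]
      simp
    simp only [En, this, integral_zero]
  have hanti : AntitoneOn (fun t => Real.exp (-(6 * C) * t) * En t) (Icc 0 T) := by
    have hder : ∀ t ∈ Ioo 0 T, HasDerivAt (fun t => Real.exp (-(6 * C) * t) * En t)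
        (Real.exp (-(6 * C) * t) * (-(6 * C)) * En t + Real.exp (-(6 * C) * t) * ∫ x, D t x ∂μ) t := by
      intro t ht
      have h1 : HasDerivAt (fun t : ℝ => Real.exp (-(6 * C) * t)) (Real.exp (-(6 * C) * t) * (-(6 * C))) t := by
        have := ((hasDerivAt_id' t).const_mul (-(6 * C))).exp
        rw [mul_one] at this
        exact this
      exact h1.mul (hEnderiv t ht)
    apply antitoneOn_of_deriv_nonpos (convex_Icc 0 T)
    · exact (by fun_prop : Continuous fun t : ℝ => Real.exp (-(6 * C) * t)).continuousOn.mul hEncont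
    · rw [interior_Icc]
      intro t ht
      exact (hder t ht).differentiableAt.differentiableWithinAt
    · rw [interior_Icc]
      intro t ht
      rw [(hder t ht).deriv]
      have h1 := henergy t (Ioo_subset_Icc_self ht)
      have h2 := Real.exp_pos (-(6 * C) * t)
      have h3 : ∫ x, D t x ∂μ ≤ 6 * C * En t := h1
      nlinarith [mul_le_mul_of_nonneg_left h3 h2.le]
  have hw0 : ∀ t ∈ Icc 0 T, ∀ x, w t x = 0 := by
    intro t ht
    have h1 := hanti (left_mem_Icc.2 hT.le) ht ht.1
    simp only [hEn0, mul_zero] at h1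
    have hGnn : ∀ x, 0 ≤ G t x := fun x => Finset.sum_nonneg fun j _ => sq_nonneg _
    have h2 : En t ≤ 0 := by
      by_contra hcon
      push Not at hcon
      have := mul_pos (Real.exp_pos (-(6 * C) * t)) hcon
      linarith
    have h3 : En t = 0 := le_antisymm h2 (integral_nonneg hGnn)
    have hcG := slice G hGcont t ht
    -- zero on the open cube, hence on the closed cube
    have h4 : ∀ x ∈ interior K, G t x = 0 := by
      have hae : G t =ᵐ[μ] 0 :=
        (integral_eq_zero_iff_of_nonneg hGnn (hcG.continuousOn.integrableOn_compact hKc)).1 h3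
      have hae2 : G t =ᵐ[volume.restrict (interior K)] 0 :=
        ae_restrict_of_ae_restrict_of_subset interior_subset hae
      have := MeasureTheory.Measure.eqOn_open_of_ae_eq hae2 isOpen_interior hcG.continuousOn
        continuousOn_const
      exact this
    have h5 : ∀ x ∈ K, G t x = 0 := by
      have hcl : K ⊆ closure (interior K) := by
        rw [hK, ← pi_univ_Icc, interior_pi_set finite_univ]
        simp only [interior_Icc]
        rw [closure_pi_set]
        intro x hx i hi
        show x i ∈ closure (Ioo ((0 : E) i) ((1 : E) i))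
        rw [closure_Ioo (by simp)]
        exact hx i hi
      intro x hx
      have hcloser : IsClosed {x | G t x = 0} := isClosed_eq hcG continuous_const
      exact (hcloser.closure_subset_iff.2 h4) (hcl hx)
    have hper : ∀ x i, G t (x + e i) = G t x := by
      intro x i
      simp only [G, w, hu.per_u t ht x i, hv.per_u t ht x i]
    intro x
    have h6 := periodic_zero hper h5 x
    funext j
    have h7 := (Finset.sum_eq_zero_iff_of_nonneg (fun j _ => sq_nonneg (w t x j))).1 h6 j (Finset.mem_univ j)
    simpa using h7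
  have huv : ∀ t ∈ Icc 0 T, ∀ x, u t x = v t x := fun t ht x => sub_eq_zero.1 (hw0 t ht x)
  intro t ht
  have hutv : u t = v t := funext (huv t ht)
  have hP : ∀ x, p t x - q t x = p t 0 - q t 0 := by
    have hd : ∀ x, fderiv ℝ (fun y => p t y - q t y) x = 0 := by
      intro x
      have hdiff : Differentiable ℝ (fun y => p t y - q t y) :=
        ((hu.diff_p t ht).differentiable (by norm_num)).sub ((hv.diff_p t ht).differentiable (by norm_num))
      have hj : ∀ j, fderiv ℝ (fun y => p t y - q t y) x (e j) = 0 := by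
        intro j
        have h1 := hu.eqn t ht x j
        have h2 := hv.eqn t ht x j
        have h3 : derivWithin (fun s => u s x) (Icc 0 T) t = derivWithin (fun s => v s x) (Icc 0 T) t :=
          derivWithin_congr (fun s hs => huv s hs x) (huv t ht x)
        rw [h3, hutv] at h1
        rw [fderiv_fun_sub ((hu.diff_p t ht).differentiable (by norm_num) x)
          ((hv.diff_p t ht).differentiable (by norm_num) x)]
        rw [sub_apply]
        linarith
      apply ContinuousLinearMap.ext
      intro y
      have hy : y = ∑ i, y i • e i := by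
        funext k
        simp [e, Finset.sum_apply, Pi.single_apply]
      rw [hy, map_sum]
      simp only [map_smul, hj, smul_zero, Finset.sum_const_zero]
      rfl
    intro x
    have hdiff : Differentiable ℝ (fun y => p t y - q t y) :=
      ((hu.diff_p t ht).differentiable (by norm_num)).sub ((hv.diff_p t ht).differentiable (by norm_num))
    exact is_const_of_fderiv_eq_zero hdiff hd x 0
  have hmean : p t 0 - q t 0 = 0 := by
    have h1 := hu.mean_p t ht
    have h2 := hv.mean_p t ht
    have hpI : IntegrableOn (p t) K := (hu.diff_p t ht).continuous.continuousOn.integrableOn_compact hKc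
    have hqI : IntegrableOn (q t) K := (hv.diff_p t ht).continuous.continuousOn.integrableOn_compact hKc
    have h3 : ∫ x in K, (p t x - q t x) = 0 := by
      rw [integral_sub hpI hqI, h1, h2, sub_zero]
    simp only [hP] at h3
    rw [setIntegral_const, smul_eq_mul] at h3
    have hvol : volume.real K = 1 := by
      rw [hK, Measure.real, Real.volume_Icc_pi]
      simp
    rw [hvol, one_mul] at h3
    exact h3
  intro x
  refine ⟨huv t ht x, ?_⟩
  have := hP x
  rw [hmean] at this
  linarith

end Vale.Agent.P113
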