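import Vale.Agent.P113.Terms
import Vale.Agent.P113.Unique

namespace Vale.Agent.P113

open Set

/-! ### Time bumps -/


noncomputable def th (r : ℕ) (t : ℝ) : ℝ := 64 / kappa * per (BT 0 r).fn t
noncomputable def dth (r : ℕ) (t : ℝ) : ℝ := 4096 / kappa * per (BT 1 r).fn t
noncomputable def th0 (t : ℝ) : ℝ := 64 / kappa * (BI 0).fn t
noncomputable def dth0 (t : ℝ) : ℝ := 4096 / kappa * (BI 1).fn t

lemma BT0_fn (r : ℕ) : (BT 0 r).fn = fun t => rho (64 * t - (4 * r + 6)) := by
  funext t; simp [BT, Bump.fn]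

lemma BT1_fn (r : ℕ) : (BT 1 r).fn = fun t => deriv rho (64 * t - (4 * r + 6)) := by
  funext t; simp [BT, Bump.fn, iter1]

lemma BI0_fn : (BI 0).fn = fun t => rho (64 * t - 2) := by
  funext t; simp [BI, Bump.fn]

lemma BI1_fn : (BI 1).fn = fun t => deriv rho (64 * t - 2) := by
  funext t; simp [BI, Bump.fn, iter1]

lemma good_BT0 {r : ℕ} (hr : r < 14) : Good (BT 0 r).fn := by
  rw [BT0_fn]
  refine ⟨rho_contDiff.comp (by fun_prop), 1 / 64, by norm_num, ?_⟩
  intro s hs
  have h1 : (r : ℝ) ≤ 13 := by exact_mod_cast (by omega : r ≤ 13)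
  have h0 : (0 : ℝ) ≤ r := Nat.cast_nonneg r
  apply rho_zero
  rcases hs with hs | hs
  · exact le_abs.2 (Or.inr (by linarith))
  · exact le_abs.2 (Or.inl (by linarith))

lemma BT0_hasDerivAt (r : ℕ) (t : ℝ) : HasDerivAt (BT 0 r).fn (64 * (BT 1 r).fn t) t := by
  rw [BT0_fn, BT1_fn]
  have := (rho_deriv_hasDerivAt (64 * t - (4 * r + 6))).comp t (affine_hasDerivAt 64 (4 * r + 6) t)
  exact this.congr_deriv (mul_comm _ _)

lemma th_hasDerivAt {r : ℕ} (hr : r < 14) (t : ℝ) : HasDerivAt (th r) (dth r t) t := by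
  have h1 := (per_hasDerivAt (good_BT0 hr) t).const_mul (64 / kappa)
  have h2 : deriv (BT 0 r).fn = fun s => 64 * (BT 1 r).fn s :=
    funext fun s => (BT0_hasDerivAt r s).deriv
  have h3 : per (fun s => 64 * (BT 1 r).fn s) t = 64 * per (BT 1 r).fn t := by
    unfold per
    exact tsum_mul_left
  rw [h2, h3] at h1
  refine h1.congr_deriv ?_
  unfold dth
  ring

lemma th0_hasDerivAt (t : ℝ) : HasDerivAt th0 (dth0 t) t := by
  have h1 := (rho_deriv_hasDerivAt (64 * t - 2)).comp t (affine_hasDerivAt 64 2 t)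
  have h2 := h1.const_mul (64 / kappa)
  have h3 : th0 = fun y => 64 / kappa * (rho ∘ fun s => 64 * s - 2) y := by
    funext y
    unfold th0
    rw [BI0_fn]
    rfl
  rw [h3]
  refine h2.congr_deriv ?_
  unfold dth0
  rw [BI1_fn]
  ring

lemma th_contDiff {r : ℕ} (hr : r < 14) : ContDiff ℝ (⊤ : ℕ∞) (th r) :=
  contDiff_const.mul (per_contDiff (good_BT0 hr))

lemma th0_contDiff : ContDiff ℝ (⊤ : ℕ∞) th0 := by
  unfold th0
  rw [BI0_fn]
  exact contDiff_const.mul (rho_contDiff.comp (by fun_prop))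

lemma th_eq {r : ℕ} (hr : r < 14) (t : ℝ) :
    th r t = 64 / kappa * rho (64 * (t - ⌊t⌋) - (4 * r + 6)) := by
  unfold th
  rw [per_eq (good_BT0 hr), BT0_fn]

lemma th_ne {r : ℕ} (hr : r < 14) {t : ℝ} (h : th r t ≠ 0) :
    |64 * (t - ⌊t⌋) - (4 * r + 6)| < 1 := by
  by_contra hcon
  push Not at hcon
  rw [th_eq hr, rho_zero hcon, mul_zero] at h
  exact h rfl

lemma th_disj {r r' : ℕ} (hr : r < 14) (hr' : r' < 14) (hne : r ≠ r') {t : ℝ} (h : th r t ≠ 0) :
    th r' t = 0 := by
  by_contra h'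
  have h1 := abs_lt.1 (th_ne hr h)
  have h2 := abs_lt.1 (th_ne hr' h')
  rcases lt_or_gt_of_ne hne with hlt | hlt
  · have : (r : ℝ) + 1 ≤ r' := by exact_mod_cast hlt
    linarith [h1.1, h2.2, h1.2, h2.1]
  · have : (r' : ℝ) + 1 ≤ r := by exact_mod_cast hlt
    linarith [h1.1, h2.2, h1.2, h2.1]

lemma th0_disj {r : ℕ} (hr : r < 14) {t : ℝ} (h : th r t ≠ 0) : th0 t = 0 := by
  have h1 := abs_lt.1 (th_ne hr h)
  have h0 : (0 : ℝ) ≤ r := Nat.cast_nonneg r
  unfold th0
  rw [BI0_fn]
  simp only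
  rw [rho_zero, mul_zero]
  by_contra hcon
  push Not at hcon
  obtain ⟨h2, h3⟩ := abs_lt.1 hcon
  have hfl : ⌊t⌋ = 0 := Int.floor_eq_zero_iff.2 ⟨by linarith, by linarith⟩
  rw [hfl] at h1
  simp only [Int.cast_zero, sub_zero] at h1
  linarith [h1.1]

/-! ### The velocity and the force -/

noncomputable def vel (sh : ℕ → Shear) (V : Fin 3 → ℚ) (t : ℝ) (x : E) : E := fun l =>
  (∑ r ∈ Finset.range 14, if (sh r).l = l then th r t * win (sh r) (x (sh r).k) else 0)
    + th0 t * V l

noncomputable def frc (ν : ℝ) (sh : ℕ → Shear) (V : Fin 3 → ℚ) (t : ℝ) (x : E) : E := fun l =>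
  (∑ r ∈ Finset.range 14, if (sh r).l = l then dth r t * win (sh r) (x (sh r).k)
      - ν * (th r t * ddwin (sh r) (x (sh r).k)) else 0)
    + dth0 t * V l

lemma vel_contDiff (sh : ℕ → Shear) (V : Fin 3 → ℚ) :
    ContDiff ℝ (⊤ : ℕ∞) fun q : ℝ × E => vel sh V q.1 q.2 := by
  rw [contDiff_pi]
  intro l
  unfold vel
  apply ContDiff.add
  · apply ContDiff.sum
    intro r hr
    have hr' := Finset.mem_range.1 hr
    split_ifs
    · apply ContDiff.mul
      · exact (th_contDiff hr').comp contDiff_fst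
      · have : ContDiff ℝ (⊤ : ℕ∞) fun q : ℝ × E => q.2 (sh r).k := by fun_prop
        exact (win_contDiff (sh r)).comp this
    · exact contDiff_const
  · exact (th0_contDiff.comp contDiff_fst).mul contDiff_const

lemma dx_shear (sh : ℕ → Shear) (c : ℕ → ℝ) (φ φ' : ℕ → ℝ → ℝ)
    (hφ : ∀ r y, HasDerivAt (φ r) (φ' r y) y) (C : E) (i : Fin 3) (x : E) :
    dx i (fun y l => (∑ r ∈ Finset.range 14, if (sh r).l = l then c r * φ r (y (sh r).k) else 0)
      + C l) x
    = fun l => (∑ r ∈ Finset.range 14,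
        if (sh r).l = l then c r * e i (sh r).k * φ' r (x (sh r).k) else 0) + (0 : E) l := by
  have hcomp : ∀ l, HasFDerivAt (fun y : E => (∑ r ∈ Finset.range 14,
      if (sh r).l = l then c r * φ r (y (sh r).k) else 0) + C l)
      (∑ r ∈ Finset.range 14, if (sh r).l = l then (c r * φ' r (x (sh r).k)) •
        (ContinuousLinearMap.proj (R := ℝ) (φ := fun _ : Fin 3 => ℝ) (sh r).k) else 0) x := by
    intro l
    apply HasFDerivAt.add_const
    apply HasFDerivAt.fun_sum
    intro r _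
    split_ifs
    · have h1 : HasFDerivAt (fun y : E => y (sh r).k)
          (ContinuousLinearMap.proj (R := ℝ) (φ := fun _ : Fin 3 => ℝ) (sh r).k) x :=
        (ContinuousLinearMap.proj (R := ℝ) (φ := fun _ : Fin 3 => ℝ) (sh r).k).hasFDerivAt
      have h2 := (hφ r (x (sh r).k)).comp_hasFDerivAt x h1
      have h3 := h2.const_mul (c r)
      rw [smul_smul] at h3
      exact h3
    · exact hasFDerivAt_const _ _
  have h := (hasFDerivAt_pi.2 hcomp).fderiv
  unfold dx
  rw [h]
  funext l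
  simp only [ContinuousLinearMap.coe_pi', Pi.zero_apply, add_zero]
  rw [sum_apply]
  apply Finset.sum_congr rfl
  intro r _
  split_ifs
  · simp only [smul_apply, ContinuousLinearMap.proj_apply, smul_eq_mul]
    ring
  · simp

lemma dx_vel (sh : ℕ → Shear) (V : Fin 3 → ℚ) (t : ℝ) (i : Fin 3) (x : E) :
    dx i (vel sh V t) x = fun l => (∑ r ∈ Finset.range 14,
      if (sh r).l = l then th r t * e i (sh r).k * dwin (sh r) (x (sh r).k) else 0) + (0 : E) l :=
  dx_shear sh (fun r => th r t) (fun r => win (sh r)) (fun r => dwin (sh r))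
    (fun r y => win_hasDerivAt (sh r) y) (fun l => th0 t * V l) i x

lemma dxx_vel (sh : ℕ → Shear) (V : Fin 3 → ℚ) (t : ℝ) (i : Fin 3) (x : E) :
    dx i (dx i (vel sh V t)) x = fun l => (∑ r ∈ Finset.range 14,
      if (sh r).l = l then th r t * e i (sh r).k * e i (sh r).k * ddwin (sh r) (x (sh r).k) else 0)
        + (0 : E) l := by
  have h1 : dx i (vel sh V t) = fun x l => (∑ r ∈ Finset.range 14,
      if (sh r).l = l then th r t * e i (sh r).k * dwin (sh r) (x (sh r).k) else 0) + (0 : E) l :=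
    funext fun x => dx_vel sh V t i x
  rw [h1]
  exact dx_shear sh (fun r => th r t * e i (sh r).k) (fun r => dwin (sh r)) (fun r => ddwin (sh r))
    (fun r y => dwin_hasDerivAt (sh r) y) 0 i x

lemma vel_hasDerivAt (sh : ℕ → Shear) (V : Fin 3 → ℚ) (t : ℝ) (x : E) :
    HasDerivAt (fun s => vel sh V s x) (fun l => (∑ r ∈ Finset.range 14,
      if (sh r).l = l then dth r t * win (sh r) (x (sh r).k) else 0) + dth0 t * V l) t := by
  rw [hasDerivAt_pi]
  intro l
  unfold vel
  apply HasDerivAt.add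
  · apply HasDerivAt.fun_sum
    intro r hr
    split_ifs
    · exact (th_hasDerivAt (Finset.mem_range.1 hr) t).mul_const _
    · exact hasDerivAt_const _ _
  · exact (th0_hasDerivAt t).mul_const _

lemma e_apply (i k : Fin 3) : e i k = if k = i then 1 else 0 := by
  unfold e
  rw [Pi.single_apply]

lemma vel_eqn (ν : ℝ) (sh : ℕ → Shear) (hkl : ∀ r, (sh r).k ≠ (sh r).l) (V : Fin 3 → ℚ) (t : ℝ)
    (x : E) (j : Fin 3) :
    deriv (fun s => vel sh V s x) t j + ∑ i, vel sh V t x i * dx i (vel sh V t) x j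
      = ν * ∑ i, dx i (dx i (vel sh V t)) x j + frc ν sh V t x j := by
  have hnl : ∀ i, vel sh V t x i * dx i (vel sh V t) x j = 0 := by
    intro i
    rw [dx_vel]
    by_cases h : ∃ r, r < 14 ∧ th r t ≠ 0
    · obtain ⟨r, hr, hne⟩ := h
      have h1 : vel sh V t x i = if (sh r).l = i then th r t * win (sh r) (x (sh r).k) else 0 := by
        unfold vel
        rw [th0_disj hr hne, zero_mul, add_zero, Finset.sum_eq_single r]
        · intro r' hr' hrr
          rw [th_disj hr (Finset.mem_range.1 hr') hrr.symm hne]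
          simp
        · intro h
          exact absurd (Finset.mem_range.2 hr) h
      rw [h1]
      simp only [Pi.zero_apply, add_zero]
      rw [Finset.sum_eq_single r]
      · by_cases hi : (sh r).l = i
        · have : e i (sh r).k = 0 := by
            rw [e_apply, if_neg]
            rw [← hi]
            exact hkl r
          rw [this]
          simp
        · rw [if_neg hi, zero_mul]
      · intro r' hr' hrr
        rw [th_disj hr (Finset.mem_range.1 hr') hrr.symm hne]
        simp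
      · intro h
        exact absurd (Finset.mem_range.2 hr) h
    · push Not at h
      simp only [Pi.zero_apply, add_zero]
      rw [Finset.sum_eq_zero, mul_zero]
      intro r hr
      rw [h r (Finset.mem_range.1 hr)]
      simp
  rw [Finset.sum_eq_zero fun i _ => hnl i, add_zero, (vel_hasDerivAt sh V t x).deriv]
  have hlap : ∑ i, dx i (dx i (vel sh V t)) x j = ∑ r ∈ Finset.range 14,
      if (sh r).l = j then th r t * ddwin (sh r) (x (sh r).k) else 0 := by
    simp only [dxx_vel, Pi.zero_apply, add_zero]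
    rw [Finset.sum_comm]
    apply Finset.sum_congr rfl
    intro r _
    split_ifs
    · rw [Finset.sum_eq_single (sh r).k]
      · rw [e_apply, if_pos rfl]; ring
      · intro i _ hi
        rw [e_apply, if_neg (fun h => hi h.symm)]; ring
      · intro h
        exact absurd (Finset.mem_univ _) h
    · simp
  rw [hlap]
  unfold frc
  rw [Finset.mul_sum, ← add_assoc, ← Finset.sum_add_distrib]
  beta_reduce
  congr 1
  apply Finset.sum_congr rfl
  intro r _
  split_ifs <;> ring

lemma vel_div (sh : ℕ → Shear) (hkl : ∀ r, (sh r).k ≠ (sh r).l) (V : Fin 3 → ℚ) (t : ℝ) (x : E) :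
    ∑ i, dx i (vel sh V t) x i = 0 := by
  apply Finset.sum_eq_zero
  intro i _
  rw [dx_vel]
  simp only [Pi.zero_apply, add_zero]
  apply Finset.sum_eq_zero
  intro r _
  split_ifs with h
  · have : e i (sh r).k = 0 := by
      rw [e_apply, if_neg]
      rw [← h]
      exact hkl r
    rw [this]; ring
  · rfl

lemma vel_per (sh : ℕ → Shear) (V : Fin 3 → ℚ) (t : ℝ) (x : E) (i : Fin 3) :
    vel sh V t (x + e i) = vel sh V t x := by
  funext l
  unfold vel
  congr 1
  apply Finset.sum_congr rfl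
  intro r _
  have : win (sh r) ((x + e i) (sh r).k) = win (sh r) (x (sh r).k) := by
    rw [Pi.add_apply, e_apply]
    split_ifs
    · exact win_add_one _ _
    · rw [add_zero]
  rw [this]

lemma th_zero {r : ℕ} (hr : r < 14) : th r 0 = 0 := by
  by_contra h
  have h1 := abs_lt.1 (th_ne hr h)
  have h0 : (0 : ℝ) ≤ r := Nat.cast_nonneg r
  simp at h1
  linarith [h1.1]

lemma vel_init (sh : ℕ → Shear) (V : Fin 3 → ℚ) (x : E) : vel sh V 0 x = 0 := by
  funext l
  unfold vel
  have h1 : th0 0 = 0 := by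
    unfold th0
    rw [BI0_fn]
    simp only
    rw [rho_zero (by norm_num), mul_zero]
  rw [h1, zero_mul, add_zero, Pi.zero_apply]
  apply Finset.sum_eq_zero
  intro r hr
  rw [th_zero (Finset.mem_range.1 hr)]
  simp

/-! ### Classical solutions from smooth ones -/

lemma slice_dx {u : ℝ → E → E} (hs : ContDiff ℝ (⊤ : ℕ∞) fun q : ℝ × E => u q.1 q.2) (t : ℝ)
    (i : Fin 3) (x : E) : dx i (u t) x = fderiv ℝ (fun q : ℝ × E => u q.1 q.2) (t, x) (0, e i) := by
  have h1 : HasFDerivAt (fun q : ℝ × E => u q.1 q.2)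
      (fderiv ℝ (fun q : ℝ × E => u q.1 q.2) (t, x)) (t, x) :=
    (hs.differentiable (by simp) (t, x)).hasFDerivAt
  have h2 : HasFDerivAt (fun y : E => (t, y)) (ContinuousLinearMap.inr ℝ ℝ E) x :=
    hasFDerivAt_prodMk_right t x
  have h3 := h1.comp x h2
  have h4 : fderiv ℝ (u t) x = (fderiv ℝ (fun q : ℝ × E => u q.1 q.2) (t, x)).comp
      (ContinuousLinearMap.inr ℝ ℝ E) := h3.fderiv
  unfold dx
  rw [h4]
  simp

lemma slice_dt {u : ℝ → E → E} (hs : ContDiff ℝ (⊤ : ℕ∞) fun q : ℝ × E => u q.1 q.2) (t : ℝ)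
    (x : E) : HasDerivAt (fun s => u s x) (fderiv ℝ (fun q : ℝ × E => u q.1 q.2) (t, x) (1, 0)) t := by
  have h1 : HasFDerivAt (fun q : ℝ × E => u q.1 q.2)
      (fderiv ℝ (fun q : ℝ × E => u q.1 q.2) (t, x)) (t, x) :=
    (hs.differentiable (by simp) (t, x)).hasFDerivAt
  have h2 : HasDerivAt (fun s : ℝ => (s, x)) ((1 : ℝ), (0 : E)) t :=
    (hasDerivAt_id' t).prodMk (hasDerivAt_const t x)
  exact h1.comp_hasDerivAt t h2

lemma smooth_dx {u : ℝ → E → E} (hs : ContDiff ℝ (⊤ : ℕ∞) fun q : ℝ × E => u q.1 q.2)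
    (i : Fin 3) : ContDiff ℝ (⊤ : ℕ∞) fun q : ℝ × E => dx i (u q.1) q.2 := by
  have h1 : (fun q : ℝ × E => dx i (u q.1) q.2)
      = fun q => fderiv ℝ (fun q : ℝ × E => u q.1 q.2) q (0, e i) :=
    funext fun q => slice_dx hs q.1 i q.2
  rw [h1]
  exact (hs.fderiv_right (m := (⊤ : ℕ∞)) (by simp)).clm_apply contDiff_const

theorem classical_of_smooth {ν : ℝ} {f : ℝ → E → E} {u : ℝ → E → E}
    (hs : ContDiff ℝ (⊤ : ℕ∞) fun q : ℝ × E => u q.1 q.2)
    (hper : ∀ t x i, u t (x + e i) = u t x) (hdiv : ∀ t x, ∑ i, dx i (u t) x i = 0)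
    (heq : ∀ t x j, deriv (fun s => u s x) t j + ∑ i, u t x i * dx i (u t) x j
      = ν * ∑ i, dx i (dx i (u t)) x j + f t x j) (hinit : ∀ x, u 0 x = 0) {T : ℝ} (hT : 0 < T) :
    IsClassical ν f T u (fun _ _ => 0) := by
  have hdw : ∀ t ∈ Icc 0 T, ∀ x, derivWithin (fun s => u s x) (Icc 0 T) t
      = deriv (fun s => u s x) t := by
    intro t ht x
    exact (slice_dt hs t x).differentiableAt.derivWithin (uniqueDiffOn_Icc hT t ht)
  refine ⟨fun t _ x i => hper t x i, fun _ _ _ _ => rfl, ?_, fun _ _ => contDiff_const, ?_, ?_, ?_,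
    ?_, ?_, continuousOn_const, ?_, ?_, fun t _ x => hdiv t x, ?_, hinit⟩
  · intro t _
    have : ContDiff ℝ (⊤ : ℕ∞) (u t) := hs.comp (contDiff_const.prodMk contDiff_id)
    exact_mod_cast contDiff_infty.1 this 2
  · intro x t _
    exact (slice_dt hs t x).differentiableAt.differentiableWithinAt
  · exact hs.continuous.continuousOn
  · have h1 : Continuous fun q : ℝ × E => fderiv ℝ (fun q : ℝ × E => u q.1 q.2) q (1, 0) :=
      (hs.continuous_fderiv (by simp)).clm_apply continuous_const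
    refine h1.continuousOn.congr ?_
    rintro ⟨t, x⟩ ⟨ht, _⟩
    simp only
    rw [hdw t ht x, (slice_dt hs t x).deriv]
  · intro i
    exact (smooth_dx hs i).continuous.continuousOn
  · intro i j
    exact (smooth_dx (u := fun t => dx j (u t)) (smooth_dx hs j) i).continuous.continuousOn
  · intro i
    simp only [fderiv_fun_const, Pi.zero_apply, zero_apply]
    exact continuousOn_const
  · intro t _
    simp
  · intro t ht x j
    rw [hdw t ht x, heq t x j]
    simp

end Vale.Agent.P113
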