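import Vale.Agent.P113.CompilerDefs

namespace Vale.Agent.P113

namespace Machine
variable (M : Machine)

/-! ### The injective two-stack simulator -/

end Machine

def sg (b : Bool) : ℤ := if b then 1 else -1

namespace Machine
variable (M : Machine)

def cstep (c : Conf) : Conf :=
  ⟨(M.act c.j ((c.S (dirOf c.j)).headD 0)).1,
    fun s => (M.act c.j ((c.S (dirOf c.j)).headD 0)).2 s ++ c.pop s⟩

def live (l : List ℕ) : List ℕ := l.filter (· < M.g)

structure Valid (c : Conf) : Prop where
  hj : c.j < M.J
  hd : ∀ s, ∀ x ∈ c.S s, x < M.g + M.J * M.g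
  hf : flagOf c.j = true → (c.S (dirOf c.j)).headD 0 < M.g

structure Sim (C : M.Cfg) (c : Conf) : Prop extends M.Valid c where
  hq : c.j / 4 = C.state
  ht1 : ∀ i : ℕ, ((C.tape (C.head + sg (dirOf c.j) * i)) : ℕ)
    = (M.live (c.S (dirOf c.j))).getD i 0
  ht2 : ∀ i : ℕ, ((C.tape (C.head - sg (dirOf c.j) * (1 + i))) : ℕ)
    = (M.live (c.S (!dirOf c.j))).getD i 0

lemma g_pos : 0 < M.g := Nat.succ_pos _

lemma live_cons_lt {a : ℕ} (h : a < M.g) (l : List ℕ) : M.live (a :: l) = a :: M.live l := by
  simp [live, h]

lemma live_cons_ge {a : ℕ} (h : M.g ≤ a) (l : List ℕ) : M.live (a :: l) = M.live l := by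
  simp [live, h]

lemma live_head {l : List ℕ} (h : l.headD 0 < M.g) : (M.live l).getD 0 0 = l.headD 0 := by
  cases l with
  | nil => simp [live]
  | cons a l =>
    simp only [List.headD_cons] at h
    rw [live_cons_lt M h]
    simp

lemma live_tail {l : List ℕ} (h : l.headD 0 < M.g) (i : ℕ) :
    (M.live l).getD (i + 1) 0 = (M.live l.tail).getD i 0 := by
  cases l with
  | nil => simp [live]
  | cons a l =>
    simp only [List.headD_cons] at h
    rw [live_cons_lt M h]
    simp

lemma sg_not (b : Bool) : sg (!b) = - sg b := by cases b <;> simp [sg]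

lemma sg_ne (b : Bool) : sg b ≠ 0 := by cases b <;> simp [sg]

lemma move_some (b : Bool) : move (some b) = sg b := by cases b <;> rfl

lemma dirOf_four (q : ℕ) (d : Bool) : dirOf (4 * q + d.toNat) = d := by
  cases d <;> simp [dirOf] <;> omega

lemma flagOf_four (q : ℕ) (d : Bool) : flagOf (4 * q + d.toNat) = false := by
  cases d <;> simp [flagOf] <;> omega

lemma dirOf_four' (q : ℕ) (d : Bool) : dirOf (4 * q + 2 + d.toNat) = d := by
  cases d <;> simp [dirOf] <;> omega

lemma flagOf_four' (q : ℕ) (d : Bool) : flagOf (4 * q + 2 + d.toNat) = true := by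
  cases d <;> simp [flagOf] <;> omega

lemma hist_lt {j a : ℕ} (hj : j < M.J) (ha : a < M.g) : M.g + j * M.g + a < M.g + M.J * M.g := by
  have : (j + 1) * M.g ≤ M.J * M.g := Nat.mul_le_mul_right _ hj
  nlinarith

lemma valid_pop {c : Conf} (h : M.Valid c) (s : Bool) : ∀ x ∈ c.pop s, x < M.g + M.J * M.g := by
  intro x hx
  unfold Conf.pop at hx
  split_ifs at hx
  · exact h.hd s x (List.mem_of_mem_tail hx)
  · exact h.hd s x hx

lemma sim_skip {C : M.Cfg} {c : Conf} (h : M.Sim C c)
    (ha : M.g ≤ (c.S (dirOf c.j)).headD 0) : M.Sim C (M.cstep c) := by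
  set d := dirOf c.j with hd
  have hne : ∃ a l, c.S d = a :: l := by
    cases hS : c.S d with
    | nil =>
      rw [hS] at ha
      have := M.g_pos
      simp at ha
      omega
    | cons a l => exact ⟨a, l, rfl⟩
  obtain ⟨a, l, hal⟩ := hne
  have hag : M.g ≤ a := by rw [hal] at ha; simpa using ha
  have hflag : flagOf c.j = false := by
    by_contra hcon
    have h1 := h.hf (by simpa using hcon)
    rw [← hd] at h1
    omega
  have hcs : M.cstep c = ⟨c.j, fun s => (if s = d then [] else [a]) ++ c.pop s⟩ := by
    unfold cstep act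
    rw [← hd, hal]
    simp [hag]
  have hpd : c.pop d = l := by simp [Conf.pop, ← hd, hal]
  have hpn : c.pop (!d) = c.S (!d) := by simp [Conf.pop, ← hd]
  rw [hcs]
  constructor
  · constructor
    · exact h.hj
    · intro s x hx
      simp only [List.mem_append] at hx
      rcases hx with hx | hx
      · split_ifs at hx
        · simp at hx
        · simp only [List.mem_singleton] at hx
          rw [hx]
          exact h.hd d a (by rw [hal]; simp)
      · exact M.valid_pop h.toValid s x hx
    · intro hf
      simp only at hf
      rw [hflag] at hf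
      exact absurd hf (by simp)
  · exact h.hq
  · intro i
    have h1 := h.ht1 i
    simp only [← hd]
    rw [← hd, hal, live_cons_ge M hag] at h1
    rw [h1]
    simp [hpd]
  · intro i
    have h1 := h.ht2 i
    simp only [← hd]
    rw [← hd] at h1
    rw [h1]
    simp [hpn, live_cons_ge M hag]

lemma sim_live {C : M.Cfg} {c : Conf} (h : M.Sim C c)
    (ha : (c.S (dirOf c.j)).headD 0 < M.g) : M.Sim (M.next C) (M.cstep c) := by
  set d := dirOf c.j with hd
  set a := (c.S d).headD 0 with haa
  have htape0 : ((C.tape C.head : Fin (M.nA + 1)) : ℕ) = a := by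
    have h1 := h.ht1 0
    rw [← hd, live_head M ha] at h1
    rw [haa]
    simpa using h1
  have hp : ∀ (s : Bool) (i : ℕ), ((C.tape (C.head + sg s * (1 + i))) : ℕ)
      = (M.live (c.pop s)).getD i 0 := by
    intro s i
    by_cases hs : s = d
    · have h1 := h.ht1 (i + 1)
      rw [← hd, live_tail M ha] at h1
      rw [hs]
      simp only [Conf.pop, ← hd, if_true]
      rw [← h1]
      congr 3
      push_cast
      ring
    · have hs' : s = !d := by
        revert hs
        cases s <;> cases d <;> simp
      have h1 := h.ht2 i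
      rw [hs']
      simp only [Conf.pop, ← hd]
      rw [← hd] at h1
      rw [if_neg (by simp), ← h1, sg_not]
      congr 3
      ring
  have hq0 : Fin.ofNat (M.nS + 1) (c.j / 4) = C.state := by
    rw [h.hq]
    simp
  have ha0 : Fin.ofNat (M.nA + 1) a = C.tape C.head := by
    rw [← htape0]
    simp
  have hne : ∀ (s : Bool) (i : ℕ), C.head + sg s * (1 + i) ≠ C.head := by
    intro s i hcon
    have h1 : sg s * (1 + (i : ℤ)) = 0 := by linarith
    rcases mul_eq_zero.1 h1 with h2 | h2
    · exact sg_ne s h2
    · have : (0 : ℤ) ≤ i := Int.natCast_nonneg i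
      omega
  have hhist := M.hist_lt h.hj ha
  obtain ⟨⟨q, s, mv⟩, hqs⟩ : ∃ r, M.step C.state (C.tape C.head) = r := ⟨_, rfl⟩
  have hqlt : (q : ℕ) < M.nS + 1 := q.2
  have hslt : (s : ℕ) < M.g := s.2
  cases mv with
  | some d' =>
    have hcs : M.cstep c = ⟨4 * (q : ℕ) + d'.toNat,
        fun t => (if t = d' then [] else [(s : ℕ), M.g + c.j * M.g + a]) ++ c.pop t⟩ := by
      unfold cstep act
      rw [← hd, ← haa, if_neg (not_le.2 ha), hq0, ha0, hqs]
    have hnx : M.next C = ⟨q, C.head + sg d', Function.update C.tape C.head s⟩ := by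
      unfold next
      rw [hqs, move_some]
    rw [hcs, hnx]
    constructor
    · constructor
      · show 4 * (q : ℕ) + d'.toNat < M.J
        unfold J
        have : d'.toNat ≤ 1 := Bool.toNat_le d'
        omega
      · intro t x hx
        simp only [List.mem_append] at hx
        rcases hx with hx | hx
        · split_ifs at hx
          · simp at hx
          · simp only [List.mem_cons, List.not_mem_nil, or_false] at hx
            rcases hx with hx | hx
            · rw [hx]
              omega
            · rw [hx]
              exact hhist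
        · exact M.valid_pop h.toValid t x hx
      · intro hf
        simp only at hf
        rw [flagOf_four] at hf
        exact absurd hf (by simp)
    · show (4 * (q : ℕ) + d'.toNat) / 4 = q
      have : d'.toNat ≤ 1 := Bool.toNat_le d'
      omega
    · intro i
      simp only [dirOf_four, if_true, List.nil_append]
      rw [← hp d' i, show C.head + sg d' + sg d' * (i : ℤ) = C.head + sg d' * (1 + i) by ring,
        Function.update_of_ne (hne d' i)]
    · intro i
      simp only [dirOf_four]
      rw [if_neg (by simp)]
      simp only [List.cons_append, List.nil_append]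
      rw [live_cons_lt M hslt, live_cons_ge M (by omega)]
      cases i with
      | zero =>
        rw [show C.head + sg d' - sg d' * (1 + ((0 : ℕ) : ℤ)) = C.head by simp,
          Function.update_self]
        simp
      | succ i =>
        have h1 := hp (!d') i
        rw [sg_not] at h1
        rw [show C.head + sg d' - sg d' * (1 + ((i + 1 : ℕ) : ℤ)) = C.head + (-sg d') * (1 + i) by
          push_cast; ring, Function.update_of_ne (by rw [← sg_not]; exact hne _ i), h1]
        simp
  | none =>
    have hcs : M.cstep c = ⟨4 * (q : ℕ) + 2 + d.toNat,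
        fun t => (if t = d then [(s : ℕ)] else [M.g + c.j * M.g + a]) ++ c.pop t⟩ := by
      unfold cstep act
      rw [← hd, ← haa, if_neg (not_le.2 ha), hq0, ha0, hqs]
    have hnx : M.next C = ⟨q, C.head, Function.update C.tape C.head s⟩ := by
      unfold next
      rw [hqs]
      simp [move]
    rw [hcs, hnx]
    constructor
    · constructor
      · show 4 * (q : ℕ) + 2 + d.toNat < M.J
        unfold J
        have : d.toNat ≤ 1 := Bool.toNat_le d
        omega
      · intro t x hx
        simp only [List.mem_append] at hx
        rcases hx with hx | hx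
        · split_ifs at hx
          · simp only [List.mem_singleton] at hx
            rw [hx]
            omega
          · simp only [List.mem_singleton] at hx
            rw [hx]
            exact hhist
        · exact M.valid_pop h.toValid t x hx
      · intro _
        simp only [dirOf_four', if_true]
        simpa using hslt
    · show (4 * (q : ℕ) + 2 + d.toNat) / 4 = q
      have : d.toNat ≤ 1 := Bool.toNat_le d
      omega
    · intro i
      simp only [dirOf_four', if_true, List.cons_append, List.nil_append]
      rw [live_cons_lt M hslt]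
      cases i with
      | zero => simp
      | succ i =>
        rw [show C.head + sg d * ((i + 1 : ℕ) : ℤ) = C.head + sg d * (1 + i) by push_cast; ring,
          Function.update_of_ne (hne d i), hp d i]
        simp
    · intro i
      simp only [dirOf_four']
      rw [if_neg (by simp)]
      simp only [List.cons_append, List.nil_append]
      have h1 := hp (!d) i
      rw [sg_not] at h1
      rw [live_cons_ge M (by omega), ← h1,
        show C.head - sg d * (1 + (i : ℤ)) = C.head + (-sg d) * (1 + i) by ring,
        Function.update_of_ne (by rw [← sg_not]; exact hne _ i)]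

lemma live_map (w : List (Fin (M.nA + 1))) :
    M.live (w.map Fin.val) = w.map Fin.val := by
  unfold live
  rw [List.filter_eq_self]
  intro x hx
  rw [List.mem_map] at hx
  obtain ⟨y, _, rfl⟩ := hx
  have : (y : ℕ) < M.g := y.2
  simpa using this

lemma sim_init (w : List (Fin (M.nA + 1))) : M.Sim (M.init w) (M.conf0 w) := by
  have h1 : dirOf (4 * (M.start : ℕ) + 1) = true := dirOf_four _ true
  have h2 : flagOf (4 * (M.start : ℕ) + 1) = false := flagOf_four _ true
  constructor
  · constructor
    · show 4 * (M.start : ℕ) + 1 < M.J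
      unfold J
      have := M.start.2
      omega
    · intro s x hx
      cases s
      · simp [conf0] at hx
      · simp only [conf0, if_true, List.mem_map] at hx
        obtain ⟨y, _, rfl⟩ := hx
        have := y.2
        unfold g
        omega
    · intro hf
      simp only [conf0] at hf
      rw [h2] at hf
      exact absurd hf (by simp)
  · show (4 * (M.start : ℕ) + 1) / 4 = M.start
    omega
  · intro i
    simp only [conf0, h1, init, sg, if_true]
    rw [live_map]
    simp only [zero_add, one_mul, Int.natCast_nonneg, if_true, Int.toNat_natCast]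
    rw [List.getD_eq_getElem?_getD, List.getD_eq_getElem?_getD, List.getElem?_map]
    cases w[i]? <;> simp
  · intro i
    simp only [conf0, h1, init, sg, if_true]
    rw [if_neg (by push Not; omega)]
    simp [live]

lemma sim_orbit (w : List (Fin (M.nA + 1))) (m : ℕ) :
    ∃ n, M.Sim (M.next^[n] (M.init w)) (M.cstep^[m] (M.conf0 w)) := by
  induction m with
  | zero => exact ⟨0, M.sim_init w⟩
  | succ m ih =>
    obtain ⟨n, hn⟩ := ih
    rw [Function.iterate_succ_apply']
    by_cases ha : M.g ≤ ((M.cstep^[m] (M.conf0 w)).S (dirOf (M.cstep^[m] (M.conf0 w)).j)).headD 0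
    · exact ⟨n, M.sim_skip hn ha⟩
    · refine ⟨n + 1, ?_⟩
      rw [Function.iterate_succ_apply']
      exact M.sim_live hn (not_le.1 ha)

lemma sim_progress {C : M.Cfg} : ∀ (k : ℕ) (c : Conf), M.Sim C c →
    (c.S (dirOf c.j)).length = k → ∃ m, M.Sim (M.next C) (M.cstep^[m] c) := by
  intro k
  induction k with
  | zero =>
    intro c hc hk
    refine ⟨1, ?_⟩
    apply M.sim_live hc
    rw [List.length_eq_zero_iff.1 hk]
    exact M.g_pos
  | succ k ih =>
    intro c hc hk
    by_cases ha : M.g ≤ (c.S (dirOf c.j)).headD 0
    · have h1 := M.sim_skip hc ha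
      have hj : (M.cstep c).j = c.j := by
        simp only [cstep, act]
        rw [if_pos ha]
      have hlen : ((M.cstep c).S (dirOf (M.cstep c).j)).length = k := by
        rw [hj]
        have : (M.cstep c).S (dirOf c.j) = (c.S (dirOf c.j)).tail := by
          simp only [cstep, act]
          rw [if_pos ha]
          simp [Conf.pop]
        rw [this, List.length_tail, hk]
        rfl
      obtain ⟨m, hm⟩ := ih _ h1 hlen
      exact ⟨m + 1, hm⟩
    · exact ⟨1, M.sim_live hc (not_le.1 ha)⟩

lemma sim_reach (w : List (Fin (M.nA + 1))) (n : ℕ) :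
    ∃ m, M.Sim (M.next^[n] (M.init w)) (M.cstep^[m] (M.conf0 w)) := by
  induction n with
  | zero => exact ⟨0, M.sim_init w⟩
  | succ n ih =>
    obtain ⟨m, hm⟩ := ih
    obtain ⟨m', hm'⟩ := M.sim_progress _ _ hm rfl
    refine ⟨m' + m, ?_⟩
    rw [Function.iterate_succ_apply', Function.iterate_add_apply]
    exact hm'

lemma sim_haltN {C : M.Cfg} {c : Conf} (h : M.Sim C c) : M.haltN c.j = M.halting C.state := by
  unfold haltN
  rw [h.hq]
  simp

theorem halts_iff (w : List (Fin (M.nA + 1))) :
    M.Halts w ↔ ∃ m, M.haltN (M.cstep^[m] (M.conf0 w)).j = true := by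
  constructor
  · rintro ⟨n, hn⟩
    obtain ⟨m, hm⟩ := M.sim_reach w n
    exact ⟨m, by rw [M.sim_haltN hm, hn]⟩
  · rintro ⟨m, hm⟩
    obtain ⟨n, hn⟩ := M.sim_orbit w m
    exact ⟨n, by rw [← M.sim_haltN hn, hm]⟩

lemma valid_orbit (w : List (Fin (M.nA + 1))) (m : ℕ) : M.Valid (M.cstep^[m] (M.conf0 w)) := by
  obtain ⟨n, hn⟩ := M.sim_orbit w m
  exact hn.toValid

end Machine
end Vale.Agent.P113
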