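import Vale.Agent.P113.Defs

namespace Vale.Agent.P113

open MeasureTheory Set

lemma hasFDerivAt_comp {V : E → E} {x : E} (h : DifferentiableAt ℝ V x) (j : Fin 3) :
    HasFDerivAt (fun y => V y j) ((ContinuousLinearMap.proj (R := ℝ) (φ := fun _ : Fin 3 => ℝ) j).comp
      (fderiv ℝ V x)) x :=
  ((ContinuousLinearMap.proj (R := ℝ) (φ := fun _ : Fin 3 => ℝ) j).hasFDerivAt).comp x h.hasFDerivAt

lemma dx_contDiff {V : E → E} (h : ContDiff ℝ 2 V) (i : Fin 3) : ContDiff ℝ 1 (dx i V) := by
  unfold dx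
  exact (h.fderiv_right (m := 1) (by norm_num)).clm_apply contDiff_const

/-- a function with the three unit periods is determined by its values on the unit cube -/
lemma periodic_zero {h : E → ℝ} (hp : ∀ x i, h (x + e i) = h x)
    (h0 : ∀ x ∈ Icc (0 : E) 1, h x = 0) (x : E) : h x = 0 := by
  have hper : ∀ i, Function.Periodic h (e i) := fun i x => hp x i
  have hz : ∀ (i : Fin 3) (n : ℤ) (y : E), h (y - n • e i) = h y :=
    fun i n y => (hper i).sub_zsmul_eq n
  rw [← hz 0 ⌊x 0⌋ x, ← hz 1 ⌊x 1⌋ _, ← hz 2 ⌊x 2⌋ _]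
  apply h0
  have hv : ∀ i, (x - ⌊x 0⌋ • e 0 - ⌊x 1⌋ • e 1 - ⌊x 2⌋ • e 2) i = Int.fract (x i) := by
    intro i
    unfold e Int.fract
    fin_cases i <;> simp [Pi.single_apply]
  constructor
  · intro i
    rw [hv]
    exact Int.fract_nonneg _
  · intro i
    rw [hv]
    exact (Int.fract_lt_one _).le

/-- the divergence of a periodic `C¹` field integrates to zero over the cube -/
lemma integral_div_zero (F : Fin 3 → E → ℝ) (hF : ∀ i, ContDiff ℝ 1 (F i))
    (hp : ∀ i x, F i (x + e i) = F i x) :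
    ∫ x in Icc (0 : E) 1, ∑ i, fderiv ℝ (F i) x (e i) = 0 := by
  have h := MeasureTheory.integral_divergence_of_hasFDerivAt_off_countable' (n := 2) (E := ℝ)
    (a := (0 : E)) (b := (1 : E)) (by intro i; simp) F (fun i x => fderiv ℝ (F i) x) ∅
    countable_empty (fun i => (hF i).continuous.continuousOn)
    (fun x _ i => ((hF i).differentiable (by norm_num) x).hasFDerivAt)
    (by
      apply ContinuousOn.integrableOn_compact isCompact_Icc
      apply Continuous.continuousOn
      apply continuous_finset_sum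
      intro i _
      exact ((hF i).continuous_fderiv (by norm_num)).clm_apply continuous_const)
  rw [show (∫ x in Icc (0 : E) 1, ∑ i, fderiv ℝ (F i) x (e i))
    = ∫ x in Icc (0 : E) 1, ∑ i : Fin 3, fderiv ℝ (F i) x (Pi.single i 1) from rfl]
  rw [h]
  apply Finset.sum_eq_zero
  intro i _
  rw [sub_eq_zero]
  congr 1
  funext x
  have : (i.insertNth (1 : ℝ) x : E) = i.insertNth (0 : ℝ) x + e i := by
    unfold e
    funext k
    rcases Fin.eq_self_or_eq_succAbove i k with rfl | ⟨k', rfl⟩
    · simp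
    · simp [Pi.single_apply, Fin.succAbove_ne]
  exact (congrArg (F i) this).trans (hp i _)

/-- the pointwise energy identity -/
lemma energy_identity (ν : ℝ) (U V : E → E) (P : E → ℝ) (hU : ContDiff ℝ 2 U) (hV : ContDiff ℝ 2 V)
    (hP : ContDiff ℝ 1 P) (hdU : ∀ x, ∑ i, dx i U x i = 0) (hdV : ∀ x, ∑ i, dx i V x i = 0)
    (W : E → E) (hW : W = fun x => U x - V x) (x : E) (wt : E)
    (heq : ∀ j, wt j + ∑ i, U x i * dx i U x j - ∑ i, V x i * dx i V x j
      = - fderiv ℝ P x (e j) + ν * ∑ i, dx i (dx i U) x j - ν * ∑ i, dx i (dx i V) x j) :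
    2 * ∑ j, W x j * wt j
      = ∑ i, fderiv ℝ (fun y => -(U y i) * ∑ j, W y j ^ 2 - 2 * P y * W y i
          + 2 * ν * ∑ j, W y j * dx i W y j) x (e i)
        - 2 * ν * ∑ i, ∑ j, dx i W x j ^ 2 - 2 * ∑ i, ∑ j, W x j * W x i * dx i V x j := by
  have hWc : ContDiff ℝ 2 W := by rw [hW]; exact hU.sub hV
  have hUd : DifferentiableAt ℝ U x := hU.differentiable (by norm_num) x
  have hVd : DifferentiableAt ℝ V x := hV.differentiable (by norm_num) x
  have hWd : DifferentiableAt ℝ W x := hWc.differentiable (by norm_num) x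
  have hPd : DifferentiableAt ℝ P x := hP.differentiable (by norm_num) x
  have hdxW : ∀ i y, dx i W y = dx i U y - dx i V y := by
    intro i y
    unfold dx
    rw [hW, fderiv_fun_sub (hU.differentiable (by norm_num) y) (hV.differentiable (by norm_num) y)]
    rfl
  have hdxxW : ∀ i j, dx i (dx i W) x j = dx i (dx i U) x j - dx i (dx i V) x j := by
    intro i j
    have h1 : dx i W = fun y => dx i U y - dx i V y := funext fun y => hdxW i y
    have h2 : dx i (dx i W) x = dx i (dx i U) x - dx i (dx i V) x := by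
      rw [h1]
      conv_lhs => unfold dx
      rw [show (fun y => fderiv ℝ U y (e i) - fderiv ℝ V y (e i)) = fun y => dx i U y - dx i V y
        from rfl]
      rw [fderiv_fun_sub ((dx_contDiff hU i).differentiable (by norm_num) x)
        ((dx_contDiff hV i).differentiable (by norm_num) x)]
      rfl
    rw [h2]; rfl
  have hF : ∀ i, fderiv ℝ (fun y => -(U y i) * ∑ j, W y j ^ 2 - 2 * P y * W y i
          + 2 * ν * ∑ j, W y j * dx i W y j) x (e i)
      = -(U x i) * ∑ j, 2 * W x j * dx i W x j - dx i U x i * ∑ j, W x j ^ 2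
        - 2 * (P x * dx i W x i + fderiv ℝ P x (e i) * W x i)
        + 2 * ν * ∑ j, (W x j * dx i (dx i W) x j + dx i W x j * dx i W x j) := by
    intro i
    have a1 := (hasFDerivAt_comp hUd i).neg
    have a2 : HasFDerivAt (fun y => ∑ j, W y j ^ 2) (∑ j, (2 * W x j) •
        ((ContinuousLinearMap.proj (R := ℝ) (φ := fun _ : Fin 3 => ℝ) j).comp (fderiv ℝ W x))) x := by
      apply HasFDerivAt.fun_sum
      intro j _
      have := (hasFDerivAt_comp hWd j).pow 2
      simpa using this
    have a3 := (hPd.hasFDerivAt.const_mul 2).mul (hasFDerivAt_comp hWd i)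
    have a4 : HasFDerivAt (fun y => ∑ j, W y j * dx i W y j) (∑ j, (W x j •
        ((ContinuousLinearMap.proj (R := ℝ) (φ := fun _ : Fin 3 => ℝ) j).comp (fderiv ℝ (dx i W) x))
        + dx i W x j •
        ((ContinuousLinearMap.proj (R := ℝ) (φ := fun _ : Fin 3 => ℝ) j).comp (fderiv ℝ W x)))) x := by
      apply HasFDerivAt.fun_sum
      intro j _
      exact (hasFDerivAt_comp hWd j).mul
        (hasFDerivAt_comp ((dx_contDiff hWc i).differentiable (by norm_num) x) j)
    have a5 := ((a1.mul a2).sub a3).add (a4.const_mul (2 * ν))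
    have a6 := a5.fderiv
    have a7 : (fun y => -(U y i) * ∑ j, W y j ^ 2 - 2 * P y * W y i
          + 2 * ν * ∑ j, W y j * dx i W y j) = (((fun y => -(U y i)) * (fun y => ∑ j, W y j ^ 2))
          - (fun y => 2 * P y) * (fun y => W y i)) + (fun y => 2 * ν * ∑ j, W y j * dx i W y j) := by
      rfl
    rw [show fderiv ℝ (fun y => -(U y i) * ∑ j, W y j ^ 2 - 2 * P y * W y i
          + 2 * ν * ∑ j, W y j * dx i W y j) x = _ from a6]
    simp only [Fin.sum_univ_three, dx, ContinuousLinearMap.add_apply, ContinuousLinearMap.sub_apply,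
      ContinuousLinearMap.smul_apply, ContinuousLinearMap.comp_apply, ContinuousLinearMap.neg_apply,
      ContinuousLinearMap.proj_apply, smul_eq_mul, Pi.mul_apply, Pi.neg_apply, nsmul_eq_mul, Nat.cast_ofNat]
    ring
  simp only [hF]
  have e0 := heq 0
  have e1 := heq 1
  have e2 := heq 2
  have d1 := hdU x
  have d2 := hdV x
  have hWx : ∀ j, W x j = U x j - V x j := by intro j; rw [hW]; rfl
  simp only [Fin.sum_univ_three, hdxxW, hdxW, Pi.sub_apply, hWx] at *
  linear_combination (2 * (U x 0 - V x 0)) * e0 + (2 * (U x 1 - V x 1)) * e1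
    + (2 * (U x 2 - V x 2)) * e2
    + ((U x 0 - V x 0) ^ 2 + (U x 1 - V x 1) ^ 2 + (U x 2 - V x 2) ^ 2 + 2 * P x) * d1
    - 2 * P x * d2

end Vale.Agent.P113
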