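import Vale.Agent.P113.Machine

namespace Vale.Agent.P113

def Sh (s : Shear) (p p' : Fin 3 → ℚ) : Prop :=
  ∃ i < s.N, |p s.k - (i + 1 / 2) / s.N| ≤ 1 / (4 * s.N) ∧
    p' = Function.update p s.l (p s.l + (s.a i + s.b i * (p s.k - (i + 1 / 2) / s.N)))

lemma sh_intro {s : Shear} {p p' : Fin 3 → ℚ} (i : ℕ) (t : ℚ) (hi : i < s.N)
    (hp : p s.k = (i + 1 / 2) / s.N + t) (ht : |t| ≤ 1 / (4 * s.N))
    (hp' : p' = Function.update p s.l (p s.l + (s.a i + s.b i * t))) : Sh s p p' := by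
  refine ⟨i, hi, ?_, ?_⟩
  · rw [hp, add_sub_cancel_left]; exact ht
  · rw [hp', hp, add_sub_cancel_left]

lemma up0 {x y z x' v : ℚ} (h : x + v = x') :
    ![x', y, z] = Function.update ![x, y, z] 0 (![x, y, z] 0 + v) := by
  subst h; funext i; fin_cases i <;> simp

lemma up1 {x y z x' v : ℚ} (h : y + v = x') :
    ![x, x', z] = Function.update ![x, y, z] 1 (![x, y, z] 1 + v) := by
  subst h; funext i; fin_cases i <;> simp

lemma up2 {x y z x' v : ℚ} (h : z + v = x') :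
    ![x, y, x'] = Function.update ![x, y, z] 2 (![x, y, z] 2 + v) := by
  subst h; funext i; fin_cases i <;> simp

lemma enc_bounds {K : ℕ} (hK : 1 ≤ K) : ∀ l : List ℕ, (∀ x ∈ l, x < K) →
    1 / 4 ≤ enc K l ∧ enc K l ≤ 3 / 4 := by
  have hK' : (1 : ℚ) ≤ K := by exact_mod_cast hK
  intro l
  induction l with
  | nil =>
    intro _
    have h1 : (0 : ℚ) < 2 * (2 * K - 1) := by linarith
    unfold enc
    constructor
    · rw [le_div_iff₀ h1]; linarith
    · rw [div_le_iff₀ h1]; linarith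
  | cons d l ih =>
    intro h
    have h1 := ih fun x hx => h x (List.mem_cons_of_mem _ hx)
    have h2 : d + 1 ≤ K := h d (by simp)
    have h2' : (d : ℚ) + 1 ≤ K := by exact_mod_cast h2
    have h3 : (0 : ℚ) < 2 * K := by linarith
    have hd0 : (0 : ℚ) ≤ d := Nat.cast_nonneg d
    unfold enc
    constructor
    · have : 0 ≤ ((d : ℚ) + enc K l) / (2 * K) := div_nonneg (by linarith) h3.le
      linarith
    · have : ((d : ℚ) + enc K l) / (2 * K) ≤ 1 / 2 := by
        rw [div_le_iff₀ h3]; linarith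
      linarith

lemma enc_head {K : ℕ} (hK : 1 ≤ K) (l : List ℕ) :
    enc K l = 1 / 4 + (l.headD 0 + enc K l.tail) / (2 * K) := by
  have hK' : (1 : ℚ) ≤ K := by exact_mod_cast hK
  cases l with
  | nil =>
    have h1 : (2 * (K : ℚ) - 1) ≠ 0 := by
      intro h; linarith
    have h2 : (K : ℚ) ≠ 0 := by intro h; linarith
    simp only [List.headD_nil, List.tail_nil, enc]
    obtain ⟨D, hD⟩ : ∃ D : ℚ, D = 2 * K - 1 := ⟨_, rfl⟩
    rw [← hD] at h1 ⊢
    have hK2 : (K : ℚ) = (D + 1) / 2 := by linarith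
    have hD1 : D + 1 ≠ 0 := by intro h; rw [h] at hK2; simp at hK2; exact h2 (by exact_mod_cast hK2)
    rw [hK2]
    push_cast
    field_simp
    ring
  | cons d l => simp [enc]

lemma enc_append {K : ℕ} (hK : 1 ≤ K) (l : List ℕ) : ∀ p : List ℕ,
    enc K (p ++ l) = encP K p + (enc K l - 1 / 2) / (2 * K) ^ p.length := by
  have hK' : (K : ℚ) ≠ 0 := by
    have : (1 : ℚ) ≤ K := by exact_mod_cast hK
    intro h; linarith
  intro p
  induction p with
  | nil => simp [encP]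
  | cons d p ih =>
    simp only [List.cons_append, enc, encP, ih, List.length_cons, pow_succ]
    field_simp
    ring

lemma dig1 {h : ℕ} (hh : 1 ≤ h) (T : ℕ) (hT : 1 ≤ T) (l : List ℕ) (hl : ∀ x ∈ l, x < 2 * h)
    (j : ℕ) (hj : j < T) :
    ∃ i t, i < 2 * (2 * h) * T ∧
      ((j : ℚ) + enc (2 * h) l) / T = ((i : ℕ) + 1 / 2) / ((2 * (2 * h) * T : ℕ) : ℚ) + t ∧
      |t| ≤ 1 / (4 * ((2 * (2 * h) * T : ℕ) : ℚ)) ∧ i / (2 * (2 * h)) = j ∧
      i % (2 * (2 * h)) - h = l.headD 0 := by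
  have hK : 1 ≤ 2 * h := by omega
  have hhead : l.headD 0 < 2 * h := by
    cases l with
    | nil => simp; omega
    | cons a l => simpa using hl a (by simp)
  have htail := enc_bounds hK l.tail fun x hx => hl x (List.mem_of_mem_tail hx)
  have hh' : (1 : ℚ) ≤ h := by exact_mod_cast hh
  have hT' : (1 : ℚ) ≤ T := by exact_mod_cast hT
  refine ⟨2 * (2 * h) * j + (h + l.headD 0), (enc (2 * h) l.tail - 1 / 2) / (2 * (2 * h) * T),
    ?_, ?_, ?_, ?_, ?_⟩
  · have : 2 * (2 * h) * (j + 1) ≤ 2 * (2 * h) * T := Nat.mul_le_mul_left _ hj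
    nlinarith
  · rw [enc_head hK l]
    push_cast
    have h1 : (h : ℚ) ≠ 0 := by intro h; linarith
    have h2 : (T : ℚ) ≠ 0 := by intro h; linarith
    field_simp
    ring
  · rw [abs_div, abs_of_pos (by positivity : (0 : ℚ) < 2 * (2 * h) * T), div_le_div_iff₀ (by positivity)
      (by push_cast; positivity)]
    have : |enc (2 * h) l.tail - 1 / 2| ≤ 1 / 4 := abs_le.2 ⟨by linarith, by linarith⟩
    have hpos : (0 : ℚ) ≤ 2 * (2 * h) * T := by positivity
    push_cast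
    nlinarith
  · rw [Nat.mul_add_div (by omega), Nat.div_eq_of_lt (by omega), add_zero]
  · rw [Nat.mul_add_mod, Nat.mod_eq_of_lt (by omega)]
    omega

lemma dig2 {h : ℕ} (hh : 1 ≤ h) (T : ℕ) (hT : 1 ≤ T) (l : List ℕ) (hl : ∀ x ∈ l, x < 2 * h)
    (j : ℕ) (hj : j < T) :
    ∃ i t, i < 4 * (2 * h) ^ 2 * T ∧
      ((j : ℚ) + enc (2 * h) l) / T = ((i : ℕ) + 1 / 2) / ((4 * (2 * h) ^ 2 * T : ℕ) : ℚ) + t ∧
      |t| ≤ 1 / (4 * ((4 * (2 * h) ^ 2 * T : ℕ) : ℚ)) ∧ i / (4 * (2 * h) ^ 2) = j ∧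
      (i % (4 * (2 * h) ^ 2) - (2 * h) ^ 2) / (2 * (2 * h)) = l.headD 0 ∧
      (i % (4 * (2 * h) ^ 2) - (2 * h) ^ 2) % (2 * (2 * h)) - h = l.tail.headD 0 := by
  have hK : 1 ≤ 2 * h := by omega
  have hhead : l.headD 0 < 2 * h := by
    cases l with
    | nil => simp; omega
    | cons a l => simpa using hl a (by simp)
  have hhead2 : l.tail.headD 0 < 2 * h := by
    cases hl' : l.tail with
    | nil => simp; omega
    | cons a l2 =>
      simpa using hl a (List.mem_of_mem_tail (by rw [hl']; simp))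
  have htail := enc_bounds hK l.tail.tail fun x hx =>
    hl x (List.mem_of_mem_tail (List.mem_of_mem_tail hx))
  have hh' : (1 : ℚ) ≤ h := by exact_mod_cast hh
  have hT' : (1 : ℚ) ≤ T := by exact_mod_cast hT
  set b := l.headD 0 with hb
  set b2 := l.tail.headD 0 with hb2
  have hlt : (2 * h) ^ 2 + (2 * (2 * h) * b + (h + b2)) < 4 * (2 * h) ^ 2 := by
    have : b + 1 ≤ 2 * h := hhead
    nlinarith
  refine ⟨4 * (2 * h) ^ 2 * j + ((2 * h) ^ 2 + (2 * (2 * h) * b + (h + b2))),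
    (enc (2 * h) l.tail.tail - 1 / 2) / (4 * (2 * h) ^ 2 * T), ?_, ?_, ?_, ?_, ?_, ?_⟩
  · have : 4 * (2 * h) ^ 2 * (j + 1) ≤ 4 * (2 * h) ^ 2 * T := Nat.mul_le_mul_left _ hj
    nlinarith
  · rw [enc_head hK l, enc_head hK l.tail, ← hb, ← hb2]
    push_cast
    have h1 : (h : ℚ) ≠ 0 := by intro h; linarith
    have h2 : (T : ℚ) ≠ 0 := by intro h; linarith
    field_simp
    ring
  · rw [abs_div, abs_of_pos (by positivity : (0 : ℚ) < 4 * (2 * h) ^ 2 * T),
      div_le_div_iff₀ (by positivity) (by push_cast; positivity)]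
    have : |enc (2 * h) l.tail.tail - 1 / 2| ≤ 1 / 4 := abs_le.2 ⟨by linarith, by linarith⟩
    have hpos : (0 : ℚ) ≤ 4 * (2 * h) ^ 2 * T := by positivity
    push_cast
    nlinarith
  · rw [Nat.mul_add_div (by positivity), Nat.div_eq_of_lt hlt, add_zero]
  · rw [Nat.mul_add_mod, Nat.mod_eq_of_lt hlt, Nat.add_sub_cancel_left,
      Nat.mul_add_div (by omega), Nat.div_eq_of_lt (by omega), add_zero]
  · rw [Nat.mul_add_mod, Nat.mod_eq_of_lt hlt, Nat.add_sub_cancel_left,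
      Nat.mul_add_mod, Nat.mod_eq_of_lt (by omega), Nat.add_sub_cancel_left]

namespace Machine
variable (M : Machine)

lemma K_eq : M.K = 2 * M.half := rfl

lemma half_pos : 1 ≤ M.half := by
  have := M.g_pos
  unfold half
  omega

lemma J_pos : 1 ≤ M.J := by unfold J; omega

lemma T_pos : 1 ≤ M.T := by
  have h1 := M.J_pos
  have h2 := M.half_pos
  unfold T
  rw [K_eq]
  exact Nat.mul_pos h1 (by omega)

lemma J_le_T : M.J ≤ M.T := by
  have h2 := M.half_pos
  unfold T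
  rw [K_eq]
  exact Nat.le_mul_of_pos_right _ (by omega)

lemma shear_kl (r : ℕ) : (M.shear r).k ≠ (M.shear r).l := by
  unfold shear
  split <;> simp

end Machine
end Vale.Agent.P113
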