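import Vale.Agent.P113.Bump
import Vale.Agent.P113.NS
import Vale.Agent.P113.Shears

namespace Vale.Agent.P113

open Set

namespace Term

end Term

/-! ### The windows -/

lemma per_eq {g : ℝ → ℝ} (h : Good g) (y : ℝ) : per g y = g (y - ⌊y⌋) :=
  (per_eventually h y).self_of_nhds


noncomputable def win (s : Shear) (y : ℝ) : ℝ :=
  ∑ i ∈ Finset.range s.N, 1 / kappa *
    ((winA s i : ℝ) * per (B0 s.N i).fn y + (s.b i : ℝ) * per (B1 s.N i).fn y)

noncomputable def dwin (s : Shear) (y : ℝ) : ℝ :=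
  ∑ i ∈ Finset.range s.N, 1 / kappa *
    ((winA s i : ℝ) * per (deriv (B0 s.N i).fn) y + (s.b i : ℝ) * per (deriv (B1 s.N i).fn) y)

noncomputable def ddwin (s : Shear) (y : ℝ) : ℝ :=
  ∑ i ∈ Finset.range s.N, 1 / kappa *
    ((winA s i : ℝ) * per (deriv (deriv (B0 s.N i).fn)) y
      + (s.b i : ℝ) * per (deriv (deriv (B1 s.N i).fn)) y)

lemma B0_fn (N i : ℕ) : (B0 N i).fn = fun s => plat 12 (16 * N * s - (16 * i + 2)) := by
  funext s
  simp [B0, Bump.fn]

lemma B1_fn (N i : ℕ) : (B1 N i).fn = fun s => s * plat 12 (16 * N * s - (16 * i + 2)) := by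
  funext s
  simp [B1, Bump.fn]

/-- the arguments of the window functions leave `(-1, 13)` near `0` and near `1` -/
lemma arg_out {N i : ℕ} (hi : i < N) {s : ℝ} (hs : s ≤ 1 / (16 * N) ∨ 1 - 1 / (16 * N) ≤ s) :
    16 * N * s - (16 * i + 2) ≤ -1 ∨ 13 ≤ 16 * N * s - (16 * (i : ℝ) + 2) := by
  have hN : (0 : ℝ) < N := by exact_mod_cast (by omega : 0 < N)
  have hi' : (i : ℝ) + 1 ≤ N := by exact_mod_cast hi
  have hi0 : (0 : ℝ) ≤ i := Nat.cast_nonneg i
  rcases hs with hs | hs
  · left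
    rw [le_div_iff₀ (by positivity)] at hs
    nlinarith
  · right
    have : 1 - s ≤ 1 / (16 * N) := by linarith
    rw [le_div_iff₀ (by positivity)] at this
    nlinarith

lemma good_of_window {N i : ℕ} (hi : i < N) {F : ℝ → ℝ → ℝ}
    (hF : ContDiff ℝ (⊤ : ℕ∞) fun s => F s (16 * N * s - (16 * i + 2)))
    (hz : ∀ s u, (u ≤ -1 ∨ 13 ≤ u) → F s u = 0) :
    Good fun s => F s (16 * N * s - (16 * i + 2)) := by
  have hN : (0 : ℝ) < N := by exact_mod_cast (by omega : 0 < N)
  refine ⟨hF, 1 / (16 * N), by positivity, ?_⟩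
  intro s hs
  exact hz _ _ (arg_out hi hs)

lemma good_B0 {N i : ℕ} (hi : i < N) : Good (B0 N i).fn := by
  rw [B0_fn]
  exact good_of_window hi (F := fun _ u => plat 12 u) (plat_contDiff.comp (by fun_prop))
    (fun s u h => plat_zero h)

lemma good_B1 {N i : ℕ} (hi : i < N) : Good (B1 N i).fn := by
  rw [B1_fn]
  exact good_of_window hi (F := fun s u => s * plat 12 u)
    (contDiff_id.mul (plat_contDiff.comp (by fun_prop)))
    (fun s u h => by simp [plat_zero h])

/-- value of the window function on its windows -/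
lemma win_eval (s : Shear) {i : ℕ} (hi : i < s.N) {t : ℚ} (ht : |t| ≤ 1 / (4 * s.N)) :
    win s (((i + 1 / 2) / s.N + t : ℚ) : ℝ) = ((s.a i + s.b i * t : ℚ) : ℝ) := by
  have hN : (0 : ℝ) < s.N := by exact_mod_cast (by omega : 0 < s.N)
  have hk := kappa_pos
  set y : ℝ := (((i + 1 / 2) / s.N + t : ℚ) : ℝ) with hy
  have hyr : y = ((i : ℝ) + 1 / 2) / s.N + t := by rw [hy]; push_cast; ring
  have ht' : |(t : ℝ)| ≤ 1 / (4 * s.N) := by
    have := (Rat.cast_le (K := ℝ)).2 ht
    push_cast at this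
    exact this
  obtain ⟨ht1, ht2⟩ := abs_le.1 ht'
  have hNy : 16 * (s.N : ℝ) * y = 16 * i + 8 + 16 * s.N * t := by
    rw [hyr]; field_simp; ring
  have h1 : 16 * (s.N : ℝ) * t ≤ 4 := by
    rw [le_div_iff₀ (by positivity)] at ht2; linarith
  have h2 : -4 ≤ 16 * (s.N : ℝ) * t := by
    have : -(t : ℝ) ≤ 1 / (4 * s.N) := by linarith
    rw [le_div_iff₀ (by positivity)] at this; linarith
  have hi' : (i : ℝ) + 1 ≤ s.N := by exact_mod_cast hi
  have hi0 : (0 : ℝ) ≤ i := Nat.cast_nonneg i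
  have hy0 : 0 ≤ y := by
    have : 0 ≤ 16 * (s.N : ℝ) * y := by rw [hNy]; linarith
    by_contra hcon
    push Not at hcon
    nlinarith
  have hy1 : y < 1 := by
    by_contra hcon
    push Not at hcon
    have : 16 * (s.N : ℝ) ≤ 16 * s.N * y := by nlinarith
    rw [hNy] at this
    linarith
  have hfl : ⌊y⌋ = 0 := Int.floor_eq_zero_iff.2 ⟨hy0, hy1⟩
  have hval0 : ∀ j < s.N, per (B0 s.N j).fn y = if j = i then kappa else 0 := by
    intro j hj
    rw [per_eq (good_B0 hj), hfl, B0_fn]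
    simp only [Int.cast_zero, sub_zero]
    rw [hNy]
    split_ifs with hji
    · rw [hji]
      exact plat_one (by linarith) (by linarith)
    · apply plat_zero
      rcases lt_or_gt_of_ne hji with hlt | hlt
      · right
        have : (j : ℝ) + 1 ≤ i := by exact_mod_cast hlt
        linarith
      · left
        have : (i : ℝ) + 1 ≤ j := by exact_mod_cast hlt
        linarith
  have hval1 : ∀ j < s.N, per (B1 s.N j).fn y = if j = i then y * kappa else 0 := by
    intro j hj
    have h3 := hval0 j hj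
    rw [per_eq (good_B0 hj), hfl, B0_fn] at h3
    rw [per_eq (good_B1 hj), hfl, B1_fn]
    simp only [Int.cast_zero, sub_zero] at h3 ⊢
    rw [h3]
    split_ifs <;> simp
  unfold win
  rw [Finset.sum_eq_single i]
  · rw [hval0 i hi, hval1 i hi, if_pos rfl, if_pos rfl]
    unfold winA
    rw [hyr]
    push_cast
    field_simp
    ring
  · intro j hj hji
    rw [hval0 j (Finset.mem_range.1 hj), hval1 j (Finset.mem_range.1 hj), if_neg hji, if_neg hji]
    simp
  · intro h
    exact absurd (Finset.mem_range.2 hi) h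

lemma win_add_one (s : Shear) (y : ℝ) : win s (y + 1) = win s y := by
  unfold win
  simp only [per_add_one]

lemma win_contDiff (s : Shear) : ContDiff ℝ (⊤ : ℕ∞) (win s) := by
  unfold win
  apply ContDiff.sum
  intro i hi
  have hi' := Finset.mem_range.1 hi
  exact contDiff_const.mul ((contDiff_const.mul (per_contDiff (good_B0 hi'))).add
    (contDiff_const.mul (per_contDiff (good_B1 hi'))))

lemma win_hasDerivAt (s : Shear) (y : ℝ) : HasDerivAt (win s) (dwin s y) y := by
  unfold win dwin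
  apply HasDerivAt.fun_sum
  intro i hi
  have hi' := Finset.mem_range.1 hi
  exact (((per_hasDerivAt (good_B0 hi') y).const_mul _).add
    ((per_hasDerivAt (good_B1 hi') y).const_mul _)).const_mul _

lemma dwin_hasDerivAt (s : Shear) (y : ℝ) : HasDerivAt (dwin s) (ddwin s y) y := by
  unfold dwin ddwin
  apply HasDerivAt.fun_sum
  intro i hi
  have hi' := Finset.mem_range.1 hi
  exact (((per_hasDerivAt (good_B0 hi').deriv y).const_mul _).add
    ((per_hasDerivAt (good_B1 hi').deriv y).const_mul _)).const_mul _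

/-! ### Second derivatives of the windows -/

lemma iter1 : iteratedDeriv 1 rho = deriv rho := iteratedDeriv_one

lemma rho_deriv_hasDerivAt (u : ℝ) : HasDerivAt rho (deriv rho u) u :=
  ((rho_contDiff (n := 1)).differentiable (by norm_num) u).hasDerivAt

lemma affine_hasDerivAt (a b s : ℝ) : HasDerivAt (fun s => a * s - b) a s := by
  have := ((hasDerivAt_id' s).const_mul a).sub_const b
  rw [mul_one] at this
  exact this

lemma plat_hasDerivAt (u : ℝ) : HasDerivAt (plat 12) (rho u - rho (u - 12)) u := by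
  unfold plat
  have h1 : HasDerivAt (fun s : ℝ => s - 12) 1 u := (hasDerivAt_id' u).sub_const 12
  have h2 := (sigma_hasDerivAt (u - 12)).comp u h1
  rw [mul_one] at h2
  exact (sigma_hasDerivAt u).sub h2

lemma B0_hasDerivAt (N i : ℕ) (s : ℝ) : HasDerivAt (B0 N i).fn
    ((16 * N : ℝ) * (rho (16 * N * s - (16 * i + 2)) - rho (16 * N * s - (16 * i + 2) - 12))) s := by
  rw [B0_fn]
  have := (plat_hasDerivAt (16 * N * s - (16 * i + 2))).comp s
    (affine_hasDerivAt (16 * N) (16 * i + 2) s)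
  exact this.congr_deriv (mul_comm _ _)

lemma deriv_B0 (N i : ℕ) : deriv (B0 N i).fn = fun s =>
    (16 * N : ℝ) * (rho (16 * N * s - (16 * i + 2)) - rho (16 * N * s - (16 * i + 2) - 12)) := by
  funext s
  exact (B0_hasDerivAt N i s).deriv

lemma deriv2_B0_hasDerivAt (N i : ℕ) (s : ℝ) : HasDerivAt (deriv (B0 N i).fn)
    ((16 * N : ℝ) ^ 2 * (deriv rho (16 * N * s - (16 * i + 2))
      - deriv rho (16 * N * s - (16 * i + 2) - 12))) s := by
  rw [deriv_B0]
  have h1 := (rho_deriv_hasDerivAt (16 * N * s - (16 * i + 2))).comp s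
    (affine_hasDerivAt (16 * N) (16 * i + 2) s)
  have h2 := (rho_deriv_hasDerivAt (16 * N * s - (16 * i + 2) - 12)).comp s
    ((affine_hasDerivAt (16 * N) (16 * i + 2) s).sub_const 12)
  have h3 := (h1.sub h2).const_mul (16 * N : ℝ)
  exact h3.congr_deriv (by ring)

lemma deriv_B1 (N i : ℕ) : deriv (B1 N i).fn = fun s =>
    (B0 N i).fn s + s * deriv (B0 N i).fn s := by
  funext s
  have hB : (B1 N i).fn = fun s => s * (B0 N i).fn s := by rw [B1_fn, B0_fn]
  rw [hB]
  have hd : HasDerivAt (B0 N i).fn (deriv (B0 N i).fn s) s :=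
    (B0_hasDerivAt N i s).differentiableAt.hasDerivAt
  have := (hasDerivAt_id' s).mul hd
  rw [one_mul] at this
  exact this.deriv

lemma deriv2_B0 (N i : ℕ) (s : ℝ) : deriv (deriv (B0 N i).fn) s =
    (16 * N : ℝ) ^ 2 * (deriv rho (16 * N * s - (16 * i + 2))
      - deriv rho (16 * N * s - (16 * i + 2) - 12)) := (deriv2_B0_hasDerivAt N i s).deriv

lemma deriv2_B1 (N i : ℕ) (s : ℝ) : deriv (deriv (B1 N i).fn) s =
    2 * ((16 * N : ℝ) * (rho (16 * N * s - (16 * i + 2)) - rho (16 * N * s - (16 * i + 2) - 12)))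
    + (16 * N : ℝ) ^ 2 * (s * deriv rho (16 * N * s - (16 * i + 2))
      - s * deriv rho (16 * N * s - (16 * i + 2) - 12)) := by
  rw [deriv_B1]
  have hd : HasDerivAt (B0 N i).fn (deriv (B0 N i).fn s) s :=
    (B0_hasDerivAt N i s).differentiableAt.hasDerivAt
  have h2 := deriv2_B0_hasDerivAt N i s
  have := hd.add ((hasDerivAt_id' s).mul h2)
  have h3 := this.deriv
  rw [deriv_B0] at h3 ⊢
  refine Eq.trans h3 ?_
  ring

lemma rho_win_zero {u : ℝ} (h : u ≤ -1 ∨ 13 ≤ u) : rho u = 0 ∧ rho (u - 12) = 0 := by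
  rcases h with h | h
  · exact ⟨rho_zero (le_abs.2 (Or.inr (by linarith))), rho_zero (le_abs.2 (Or.inr (by linarith)))⟩
  · exact ⟨rho_zero (le_abs.2 (Or.inl (by linarith))), rho_zero (le_abs.2 (Or.inl (by linarith)))⟩

lemma deriv_rho_zero {s : ℝ} (h : 1 ≤ |s|) : deriv rho s = 0 := by
  have hmin : IsLocalMin rho s := by
    apply Filter.Eventually.of_forall
    intro x
    rw [rho_zero h]
    exact rho_nonneg x
  exact hmin.deriv_eq_zero

lemma drho_win_zero {u : ℝ} (h : u ≤ -1 ∨ 13 ≤ u) : deriv rho u = 0 ∧ deriv rho (u - 12) = 0 := by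
  rcases h with h | h
  · exact ⟨deriv_rho_zero (le_abs.2 (Or.inr (by linarith))),
      deriv_rho_zero (le_abs.2 (Or.inr (by linarith)))⟩
  · exact ⟨deriv_rho_zero (le_abs.2 (Or.inl (by linarith))),
      deriv_rho_zero (le_abs.2 (Or.inl (by linarith)))⟩

lemma drho_contDiff : ContDiff ℝ (⊤ : ℕ∞) (deriv rho) :=
  (contDiff_infty_iff_deriv.1 (rho_contDiff (n := ⊤))).2

/-- the six bumps of the second derivatives -/
lemma good_R {N i : ℕ} (hi : i < N) (k j : ℕ) (hj : j ≤ 1) :
    Good (Bump.rho k j (16 * N) (16 * i + 2)).fn ∧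
    Good (Bump.rho k j (16 * N) (16 * i + 2 + 12)).fn := by
  have hcd : ContDiff ℝ (⊤ : ℕ∞) (iteratedDeriv j rho) := by
    interval_cases j
    · rw [iteratedDeriv_zero]; exact rho_contDiff
    · rw [iter1]; exact drho_contDiff
  have hz : ∀ u : ℝ, (u ≤ -1 ∨ 13 ≤ u) → iteratedDeriv j rho u = 0 ∧
      iteratedDeriv j rho (u - 12) = 0 := by
    intro u hu
    interval_cases j
    · rw [iteratedDeriv_zero]; exact rho_win_zero hu
    · rw [iter1]; exact drho_win_zero hu
  constructor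
  · have h1 := good_of_window hi (F := fun s u => s ^ k * iteratedDeriv j rho u)
      ((contDiff_id.pow k).mul (hcd.comp (by fun_prop)))
      (fun s u h => by simp [(hz u h).1])
    convert h1 using 1
    funext s
    simp [Bump.fn]
  · have h1 := good_of_window hi (F := fun s u => s ^ k * iteratedDeriv j rho (u - 12))
      ((contDiff_id.pow k).mul (hcd.comp (by fun_prop)))
      (fun s u h => by simp [(hz u h).2])
    convert h1 using 1
    funext s
    simp only [Bump.fn]
    push_cast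
    congr 2
    ring

lemma per_dd0 {N i : ℕ} (hi : i < N) (y : ℝ) : per (deriv (deriv (B0 N i).fn)) y =
    (16 * N : ℝ) ^ 2 * (per (Bump.rho 0 1 (16 * N) (16 * i + 2)).fn y
      - per (Bump.rho 0 1 (16 * N) (16 * i + 2 + 12)).fn y) := by
  rw [per_eq (good_B0 hi).deriv.deriv, per_eq (good_R hi 0 1 le_rfl).1,
    per_eq (good_R hi 0 1 le_rfl).2, deriv2_B0]
  simp only [Bump.fn, iter1, pow_zero, one_mul]
  push_cast
  congr 3
  ring_nf

lemma per_dd1 {N i : ℕ} (hi : i < N) (y : ℝ) : per (deriv (deriv (B1 N i).fn)) y =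
    2 * ((16 * N : ℝ) * (per (Bump.rho 0 0 (16 * N) (16 * i + 2)).fn y
      - per (Bump.rho 0 0 (16 * N) (16 * i + 2 + 12)).fn y))
    + (16 * N : ℝ) ^ 2 * (per (Bump.rho 1 1 (16 * N) (16 * i + 2)).fn y
      - per (Bump.rho 1 1 (16 * N) (16 * i + 2 + 12)).fn y) := by
  rw [per_eq (good_B1 hi).deriv.deriv, per_eq (good_R hi 0 0 (by norm_num)).1,
    per_eq (good_R hi 0 0 (by norm_num)).2, per_eq (good_R hi 1 1 le_rfl).1,
    per_eq (good_R hi 1 1 le_rfl).2, deriv2_B1]
  simp only [Bump.fn, iter1, iteratedDeriv_zero, pow_zero, one_mul, pow_one]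
  push_cast
  rw [show (16 * (N : ℝ) * (y - ⌊y⌋) - (16 * i + 2 + 12)) = 16 * N * (y - ⌊y⌋) - (16 * i + 2) - 12
    by ring]

end Vale.Agent.P113
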