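import Vale.Agent.P113.Flow
import Vale.Agent.P113.Chain

namespace Vale.Agent.P113

open Set

noncomputable def Phi (s : ℝ) : ℝ := sigma (4 * s - 2) / kappa

lemma Phi_hasDerivAt (s : ℝ) : HasDerivAt Phi (4 / kappa * rho (4 * s - 2)) s := by
  have h := ((sigma_hasDerivAt (4 * s - 2)).comp s (affine_hasDerivAt 4 2 s)).div_const kappa
  exact h.congr_deriv (by ring)

lemma Phi_zero {s : ℝ} (h : s ≤ 1 / 4) : Phi s = 0 := by
  unfold Phi
  rw [sigma_le (by linarith), zero_div]

lemma Phi_one {s : ℝ} (h : 3 / 4 ≤ s) : Phi s = 1 := by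
  unfold Phi
  rw [sigma_ge (by linarith), div_self kappa_pos.ne']

lemma Phi_mono : Monotone Phi := by
  intro a b hab
  unfold Phi
  exact div_le_div_of_nonneg_right (sigma_mono (by linarith)) kappa_pos.le

lemma Phi_mem (s : ℝ) : 0 ≤ Phi s ∧ Phi s ≤ 1 := by
  constructor
  · rcases le_total s (1 / 4) with h | h
    · rw [Phi_zero h]
    · rw [← Phi_zero (le_refl (1 / 4 : ℝ))]; exact Phi_mono h
  · rcases le_total s (3 / 4) with h | h
    · rw [← Phi_one (le_refl (3 / 4 : ℝ))]; exact Phi_mono h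
    · rw [Phi_one h]

noncomputable def incr (sh : ℕ → Shear) (V : Fin 3 → ℚ) (N : ℕ) (p : E) : E :=
  if N = 0 then fun l => (V l : ℝ)
  else if N % 16 = 0 ∨ N % 16 = 15 then 0
  else Pi.single (sh (N % 16 - 1)).l (win (sh (N % 16 - 1)) (p (sh (N % 16 - 1)).k))

noncomputable def Pt (sh : ℕ → Shear) (V : Fin 3 → ℚ) : ℕ → E
  | 0 => 0
  | N + 1 => Pt sh V N + incr sh V N (Pt sh V N)

noncomputable def traj (sh : ℕ → Shear) (V : Fin 3 → ℚ) (t : ℝ) : E :=
  Pt sh V ⌊16 * t⌋₊ + Phi (16 * t - ⌊16 * t⌋₊) • (Pt sh V (⌊16 * t⌋₊ + 1) - Pt sh V ⌊16 * t⌋₊)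

lemma th_slot {N : ℕ} {t : ℝ} (h1 : (N : ℝ) ≤ 16 * t) (h2 : 16 * t < N + 1) {r : ℕ} (hr : r < 14) :
    th r t = if N % 16 = r + 1 then 64 / kappa * rho (64 * t - (4 * N + 2)) else 0 := by
  obtain ⟨n, m, hm, hN⟩ : ∃ n m, m < 16 ∧ N = 16 * n + m :=
    ⟨N / 16, N % 16, Nat.mod_lt _ (by norm_num), (Nat.div_add_mod N 16).symm⟩
  have hmod : N % 16 = m := by omega
  have hNr : (N : ℝ) = 16 * n + m := by rw [hN]; push_cast; ring
  have hm0 : (0 : ℝ) ≤ m := Nat.cast_nonneg m
  have hm1 : (m : ℝ) ≤ 15 := by exact_mod_cast (by omega : m ≤ 15)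
  have hfl : ⌊t⌋ = (n : ℤ) := by
    rw [Int.floor_eq_iff]
    push_cast
    constructor <;> linarith
  rw [th_eq hr, hfl, hmod]
  push_cast
  split_ifs with h
  · congr 2
    rw [hNr, h]
    push_cast
    ring
  · rw [rho_zero, mul_zero]
    rcases lt_or_gt_of_ne h with hlt | hlt
    · have : (m : ℝ) ≤ r := by exact_mod_cast (by omega : m ≤ r)
      exact le_abs.2 (Or.inr (by linarith))
    · have : (r : ℝ) + 2 ≤ m := by exact_mod_cast (by omega : r + 2 ≤ m)
      exact le_abs.2 (Or.inl (by linarith))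

lemma th0_slot {N : ℕ} {t : ℝ} (h1 : (N : ℝ) ≤ 16 * t) :
    th0 t = if N = 0 then 64 / kappa * rho (64 * t - (4 * N + 2)) else 0 := by
  unfold th0
  rw [BI0_fn]
  split_ifs with h
  · subst h
    simp
  · have : (1 : ℝ) ≤ N := by exact_mod_cast Nat.one_le_iff_ne_zero.2 h
    simp only
    rw [rho_zero, mul_zero]
    exact le_abs.2 (Or.inl (by linarith))

lemma vel_slot (sh : ℕ → Shear) (V : Fin 3 → ℚ) {N : ℕ} {t : ℝ} (h1 : (N : ℝ) ≤ 16 * t)
    (h2 : 16 * t < N + 1) (x : E) :
    vel sh V t x = (64 / kappa * rho (64 * t - (4 * N + 2))) • incr sh V N x := by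
  funext l
  rw [Pi.smul_apply, smul_eq_mul]
  unfold vel
  rw [th0_slot h1]
  by_cases hN : N = 0
  · rw [Finset.sum_eq_zero, zero_add, if_pos hN]
    · unfold incr
      rw [if_pos hN]
    · intro r hr
      have h3 : th r t = 0 := by
        rw [th_slot h1 h2 (Finset.mem_range.1 hr), if_neg (by rw [hN]; omega)]
      rw [h3]
      simp
  · rw [if_neg hN, zero_mul, add_zero]
    unfold incr
    rw [if_neg hN]
    by_cases hm : N % 16 = 0 ∨ N % 16 = 15
    · rw [if_pos hm, Pi.zero_apply, mul_zero]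
      apply Finset.sum_eq_zero
      intro r hr
      have hr' := Finset.mem_range.1 hr
      have h3 : th r t = 0 := by
        rw [th_slot h1 h2 hr', if_neg (by omega)]
      rw [h3]
      simp
    · rw [if_neg hm]
      have hlt : N % 16 < 16 := Nat.mod_lt _ (by norm_num)
      rw [Finset.sum_eq_single (N % 16 - 1)]
      · have h3 : th (N % 16 - 1) t = 64 / kappa * rho (64 * t - (4 * N + 2)) := by
          rw [th_slot h1 h2 (by omega), if_pos (by omega)]
        rw [h3, Pi.single_apply]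
        by_cases hl : l = (sh (N % 16 - 1)).l
        · rw [if_pos hl, if_pos hl.symm]
        · rw [if_neg hl, if_neg (fun h => hl h.symm), mul_zero]
      · intro r hr hne
        have hr' := Finset.mem_range.1 hr
        have h3 : th r t = 0 := by
          rw [th_slot h1 h2 hr', if_neg (by omega)]
        rw [h3]
        simp
      · intro h
        exact absurd (Finset.mem_range.2 (by omega)) h

lemma incr_incr (sh : ℕ → Shear) (hkl : ∀ r, (sh r).k ≠ (sh r).l) (V : Fin 3 → ℚ) (N : ℕ) (p : E)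
    (c : ℝ) : incr sh V N (p + c • incr sh V N p) = incr sh V N p := by
  by_cases hN : N = 0
  · unfold incr
    simp [hN]
  · by_cases hm : N % 16 = 0 ∨ N % 16 = 15
    · unfold incr
      simp [hN, hm]
    · have h1 : ∀ q : E, incr sh V N q = Pi.single (sh (N % 16 - 1)).l
          (win (sh (N % 16 - 1)) (q (sh (N % 16 - 1)).k)) := by
        intro q
        unfold incr
        rw [if_neg hN, if_neg hm]
      rw [h1 (p + c • incr sh V N p), h1 p, Pi.add_apply, Pi.smul_apply, Pi.single_apply,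
        if_neg (hkl _)]
      simp

lemma traj_local (sh : ℕ → Shear) (V : Fin 3 → ℚ) (N : ℕ) {s : ℝ} (h1 : (N : ℝ) - 1 / 4 ≤ 16 * s)
    (h2 : 16 * s ≤ N + 1 + 1 / 4) :
    traj sh V s = Pt sh V N + Phi (16 * s - N) • (Pt sh V (N + 1) - Pt sh V N) := by
  unfold traj
  by_cases ha : 16 * s < N
  · rw [Phi_zero (by linarith : 16 * s - (N : ℝ) ≤ 1 / 4), zero_smul, add_zero]
    cases N with
    | zero =>
      have : ⌊16 * s⌋₊ = 0 := by
        rw [Nat.floor_eq_zero]
        push_cast at ha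
        linarith
      rw [this, Phi_zero, zero_smul, add_zero]
      push_cast at ha ⊢
      linarith
    | succ N =>
      push_cast at ha h1 h2
      have hN0 : (0 : ℝ) ≤ N := Nat.cast_nonneg N
      have : ⌊16 * s⌋₊ = N := by
        rw [Nat.floor_eq_iff (by linarith)]
        constructor <;> linarith
      rw [this, Phi_one (by linarith), one_smul]
      abel
  · push Not at ha
    have hN0 : (0 : ℝ) ≤ N := Nat.cast_nonneg N
    by_cases hb : 16 * s < N + 1
    · have : ⌊16 * s⌋₊ = N := by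
        rw [Nat.floor_eq_iff (by linarith)]
        constructor <;> linarith
      rw [this]
    · push Not at hb
      have : ⌊16 * s⌋₊ = N + 1 := by
        rw [Nat.floor_eq_iff (by linarith)]
        push_cast
        constructor <;> linarith
      rw [this, Phi_zero, Phi_one, zero_smul, one_smul, add_zero]
      · abel
      · linarith
      · push_cast
        linarith

lemma traj_zero (sh : ℕ → Shear) (V : Fin 3 → ℚ) : traj sh V 0 = 0 := by
  rw [traj_local sh V 0 (by norm_num) (by norm_num), Phi_zero (by norm_num), zero_smul, add_zero]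
  rfl

lemma traj_hasDerivAt (sh : ℕ → Shear) (hkl : ∀ r, (sh r).k ≠ (sh r).l) (V : Fin 3 → ℚ) {t : ℝ}
    (ht : 0 ≤ t) : HasDerivAt (traj sh V) (vel sh V t (traj sh V t)) t := by
  obtain ⟨N, hN⟩ : ∃ N, N = ⌊16 * t⌋₊ := ⟨_, rfl⟩
  have h1 : (N : ℝ) ≤ 16 * t := by rw [hN]; exact Nat.floor_le (by linarith)
  have h2 : 16 * t < N + 1 := by rw [hN]; exact Nat.lt_floor_add_one _
  have hloc : traj sh V =ᶠ[nhds t]
      fun s => Pt sh V N + Phi (16 * s - N) • (Pt sh V (N + 1) - Pt sh V N) := by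
    have ho : {s : ℝ | (N : ℝ) - 1 / 4 < 16 * s ∧ 16 * s < N + 1 + 1 / 4} ∈ nhds t := by
      apply IsOpen.mem_nhds
      · have hc : Continuous fun s : ℝ => 16 * s := by fun_prop
        exact (isOpen_lt continuous_const hc).inter (isOpen_lt hc continuous_const)
      · exact ⟨by linarith, by linarith⟩
    filter_upwards [ho] with s hs
    exact traj_local sh V N hs.1.le hs.2.le
  have hstep : Pt sh V (N + 1) - Pt sh V N = incr sh V N (Pt sh V N) := by
    show Pt sh V N + incr sh V N (Pt sh V N) - Pt sh V N = _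
    abel
  have hval : incr sh V N (traj sh V t) = incr sh V N (Pt sh V N) := by
    rw [hloc.self_of_nhds, hstep]
    exact incr_incr sh hkl V N _ _
  have hd : HasDerivAt (fun s => Pt sh V N + Phi (16 * s - N) • (Pt sh V (N + 1) - Pt sh V N))
      ((64 / kappa * rho (64 * t - (4 * N + 2))) • (Pt sh V (N + 1) - Pt sh V N)) t := by
    have h3 := (Phi_hasDerivAt (16 * t - N)).comp t (affine_hasDerivAt 16 N t)
    have h4 := (h3.smul_const (Pt sh V (N + 1) - Pt sh V N)).const_add (Pt sh V N)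
    refine h4.congr_deriv ?_
    congr 1
    rw [show 4 * (16 * t - (N : ℝ)) - 2 = 64 * t - (4 * N + 2) by ring]
    ring
  rw [vel_slot sh V h1 h2, hval, ← hstep]
  exact hd.congr_of_eventuallyEq hloc

/-! ### The simulation -/

def castE (p : Fin 3 → ℚ) : E := fun i => (p i : ℝ)

lemma incr_Sh (sh : ℕ → Shear) (V : Fin 3 → ℚ) {N r : ℕ} (hr : r < 14) (hN : N % 16 = r + 1)
    {p p' : Fin 3 → ℚ} (h : Sh (sh r) p p') : castE p + incr sh V N (castE p) = castE p' := by
  obtain ⟨i, hi, ht, hp⟩ := h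
  have h0 : N ≠ 0 := by rintro rfl; omega
  have hm : ¬ (N % 16 = 0 ∨ N % 16 = 15) := by omega
  have hr' : N % 16 - 1 = r := by omega
  unfold incr
  rw [if_neg h0, if_neg hm, hr']
  have hw := win_eval (sh r) hi ht
  rw [add_sub_cancel] at hw
  have hw' : win (sh r) (castE p (sh r).k) = _ := hw
  rw [hw', hp]
  funext l
  unfold castE
  rw [Pi.add_apply, Pi.single_apply, Function.update_apply]
  split_ifs with hl
  · rw [hl]; push_cast; ring
  · rw [add_zero]

lemma Pt_idle (sh : ℕ → Shear) (V : Fin 3 → ℚ) {N : ℕ} (h0 : N ≠ 0)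
    (hm : N % 16 = 0 ∨ N % 16 = 15) : Pt sh V (N + 1) = Pt sh V N := by
  show Pt sh V N + incr sh V N (Pt sh V N) = _
  unfold incr
  rw [if_neg h0, if_pos hm, add_zero]

namespace Machine
variable (M : Machine)

lemma Pt_orbit (w : List (Fin (M.nA + 1))) (n : ℕ)
    (hn : ∀ m < n, M.haltN (M.cstep^[m] (M.conf0 w)).j = false) :
    Pt M.shear (M.start0 w) (16 * n + 1) = castE (M.pos (M.cstep^[n] (M.conf0 w))) ∧
    ∀ N ≤ 16 * n + 1, 0 ≤ Pt M.shear (M.start0 w) N 2 ∧ Pt M.shear (M.start0 w) N 2 ≤ 1 / 2 := by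
  induction n with
  | zero =>
    have h1 : Pt M.shear (M.start0 w) 1 = castE (M.pos (M.conf0 w)) := by
      show Pt M.shear (M.start0 w) 0 + incr M.shear (M.start0 w) 0 (Pt M.shear (M.start0 w) 0) = _
      have : Pt M.shear (M.start0 w) 0 = 0 := rfl
      rw [this, zero_add]
      rfl
    refine ⟨h1, ?_⟩
    intro N hN
    have hN' : N = 0 ∨ N = 1 := by omega
    rcases hN' with rfl | rfl
    · have : Pt M.shear (M.start0 w) 0 = 0 := rfl
      rw [this, Pi.zero_apply]
      norm_num
    · rw [h1]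
      have hv := M.valid_orbit w 0
      have hT := M.TQ_pos
      have hjT : ((M.conf0 w).j : ℚ) + 1 ≤ M.T := by
        exact_mod_cast lt_of_lt_of_le hv.hj M.J_le_T
      have h2 : 0 ≤ M.pos (M.conf0 w) 2 ∧ M.pos (M.conf0 w) 2 ≤ 1 / 2 := by
        show 0 ≤ (((M.conf0 w).j : ℚ) + 1 / 2) / (2 * M.T) ∧
          (((M.conf0 w).j : ℚ) + 1 / 2) / (2 * M.T) ≤ 1 / 2
        exact ⟨by positivity, by rw [div_le_iff₀ (by positivity)]; linarith⟩
      unfold castE
      constructor
      · exact_mod_cast h2.1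
      · have := (Rat.cast_le (K := ℝ)).2 h2.2
        push_cast at this
        exact this
  | succ n ih =>
    obtain ⟨ih1, ih2⟩ := ih fun m hm => hn m (by omega)
    set c := M.cstep^[n] (M.conf0 w) with hc
    have hv : M.Valid c := M.valid_orbit w n
    have hv' : M.Valid (M.cstep c) := by
      have := M.valid_orbit w (n + 1)
      rw [Function.iterate_succ_apply'] at this
      exact this
    obtain ⟨P, hP0, hP14, hPs, hPz⟩ := M.chain hv hv' (hn n (by omega))
    have hr : ∀ r ≤ 14, Pt M.shear (M.start0 w) (16 * n + 1 + r) = castE (P r) := by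
      intro r
      induction r with
      | zero => intro _; rw [add_zero, ih1, hP0]
      | succ r ihr =>
        intro hr
        have h1 := ihr (by omega)
        show Pt M.shear (M.start0 w) (16 * n + 1 + r) +
          incr M.shear (M.start0 w) (16 * n + 1 + r) (Pt M.shear (M.start0 w) (16 * n + 1 + r)) = _
        rw [h1]
        exact incr_Sh M.shear _ (r := r) (by omega) (by omega) (hPs r (by omega))
    have h15 : Pt M.shear (M.start0 w) (16 * n + 15) = castE (P 14) := hr 14 le_rfl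
    have h16 : Pt M.shear (M.start0 w) (16 * n + 16) = castE (P 14) := by
      rw [← h15]; exact Pt_idle _ _ (by omega) (by omega)
    have h17 : Pt M.shear (M.start0 w) (16 * n + 17) = castE (P 14) := by
      rw [← h16]; exact Pt_idle _ _ (by omega) (by omega)
    have hzz : ∀ r ≤ 14, 0 ≤ castE (P r) 2 ∧ castE (P r) 2 ≤ 1 / 2 := by
      intro r hr'
      have h2 := hPz r hr'
      unfold castE
      constructor
      · exact_mod_cast h2.1
      · have := (Rat.cast_le (K := ℝ)).2 h2.2
        push_cast at this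
        exact this
    constructor
    · rw [Function.iterate_succ_apply', ← hc, ← hP14]
      exact h17
    · intro N hN
      by_cases hN1 : N ≤ 16 * n + 1
      · exact ih2 N hN1
      · by_cases hN2 : N ≤ 16 * n + 15
        · obtain ⟨r, rfl⟩ : ∃ r, N = 16 * n + 1 + r := ⟨N - (16 * n + 1), by omega⟩
          rw [hr r (by omega)]
          exact hzz r (by omega)
        · have : N = 16 * n + 16 ∨ N = 16 * n + 17 := by omega
          rcases this with rfl | rfl
          · rw [h16]; exact hzz 14 le_rfl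
          · rw [h17]; exact hzz 14 le_rfl

/-- the third coordinate of the trajectory reaches `3/4` if `M` halts -/
lemma traj_halt (w : List (Fin (M.nA + 1))) (h : M.Halts w) :
    ∃ t : ℝ, 0 ≤ t ∧ traj M.shear (M.start0 w) t 2 = 3 / 4 := by
  classical
  have hex := (M.halts_iff w).1 h
  set n := Nat.find hex with hn
  have h1 : M.haltN (M.cstep^[n] (M.conf0 w)).j = true := Nat.find_spec hex
  have h2 : ∀ m < n, M.haltN (M.cstep^[m] (M.conf0 w)).j = false := by
    intro m hm
    have := Nat.find_min hex hm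
    simpa using this
  obtain ⟨h3, _⟩ := M.Pt_orbit w n h2
  obtain ⟨P, hP0, hS0, hS1, hz⟩ := M.chain_halt (M.valid_orbit w n) h1
  have h4 : Pt M.shear (M.start0 w) (16 * n + 2) = castE (P 1) := by
    show Pt M.shear (M.start0 w) (16 * n + 1) + incr M.shear (M.start0 w) (16 * n + 1)
      (Pt M.shear (M.start0 w) (16 * n + 1)) = _
    rw [h3, ← hP0]
    exact incr_Sh M.shear _ (r := 0) (by omega) (by omega) hS0
  have h5 : Pt M.shear (M.start0 w) (16 * n + 3) = castE (P 2) := by
    show Pt M.shear (M.start0 w) (16 * n + 2) + incr M.shear (M.start0 w) (16 * n + 2)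
      (Pt M.shear (M.start0 w) (16 * n + 2)) = _
    rw [h4]
    exact incr_Sh M.shear _ (r := 1) (by omega) (by omega) hS1
  refine ⟨((16 * n + 3 : ℕ) : ℝ) / 16, by positivity, ?_⟩
  rw [traj_local M.shear _ (16 * n + 3) (by linarith) (by linarith), Phi_zero (by linarith),
    zero_smul, add_zero, h5]
  unfold castE
  rw [hz]
  norm_num

/-- the third coordinate of the trajectory stays in `[0, 1/2]` if `M` does not halt -/
lemma traj_not_halt (w : List (Fin (M.nA + 1))) (h : ¬ M.Halts w) (t : ℝ) :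
    0 ≤ traj M.shear (M.start0 w) t 2 ∧ traj M.shear (M.start0 w) t 2 ≤ 1 / 2 := by
  have h1 : ∀ m, M.haltN (M.cstep^[m] (M.conf0 w)).j = false := by
    intro m
    by_contra hcon
    exact h ((M.halts_iff w).2 ⟨m, by simpa using hcon⟩)
  have h2 : ∀ N, 0 ≤ Pt M.shear (M.start0 w) N 2 ∧ Pt M.shear (M.start0 w) N 2 ≤ 1 / 2 :=
    fun N => (M.Pt_orbit w N fun m _ => h1 m).2 N (by omega)
  unfold traj
  obtain ⟨ha, hb⟩ := h2 ⌊16 * t⌋₊
  obtain ⟨hc, hd⟩ := h2 (⌊16 * t⌋₊ + 1)
  obtain ⟨hp0, hp1⟩ := Phi_mem (16 * t - ⌊16 * t⌋₊)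
  rw [Pi.add_apply, Pi.smul_apply, Pi.sub_apply, smul_eq_mul]
  constructor <;> nlinarith

end Machine
end Vale.Agent.P113
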